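import Mathlib

/-! Row 137, chunk H2: C*-structure and positivity on `ℓ^∞` products. -/

set_option autoImplicit false

open scoped ENNReal

namespace QT

/-- Norm criterion for positivity in a unital C*-algebra. -/
theorem exists_star_mul_self_iff {A : Type*} [CStarAlgebra A] (f : A) (hf : IsSelfAdjoint f)
    (t : ℝ) (ht : ‖f‖ ≤ t) :
    (∃ x, f = star x * x) ↔ ‖algebraMap ℝ A t - f‖ ≤ t := by
  have ht0 : 0 ≤ t := (norm_nonneg _).trans ht
  lift t to NNReal using ht0
  have key := SpectrumRestricts.nnreal_iff_nnnorm (a := f) (t := t) hf (by exact_mod_cast ht)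
  rw [show ‖algebraMap ℝ A (t : ℝ) - f‖ ≤ (t : ℝ) ↔ ‖algebraMap ℝ A t - f‖₊ ≤ t from by
    rw [← NNReal.coe_le_coe]; rfl, ← key]
  let _ := CStarAlgebra.spectralOrder A
  have := CStarAlgebra.spectralOrderedRing A
  constructor
  · rintro ⟨x, rfl⟩
    exact SpectrumRestricts.nnreal_of_nonneg (star_mul_self_nonneg x)
  · intro h
    obtain ⟨s, hs, -, hs2⟩ := CFC.exists_sqrt_of_isSelfAdjoint_of_quasispectrumRestricts hf
      (quasispectrumRestricts_iff_spectrumRestricts.mpr h)
    exact ⟨s, by rw [hs.star_eq, hs2]⟩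

section

variable {I : Type*} {A : I → Type*} [∀ i, CStarAlgebra (A i)] [∀ i, Nontrivial (A i)]

noncomputable instance lpCStar : CStarAlgebra (lp A ∞) where
  toNormedRing := inferInstance
  toStarRing := inferInstance
  toCompleteSpace := inferInstance
  toCStarRing := inferInstance
  toNormedAlgebra := inferInstance
  toStarModule := inferInstance

/-- Evaluation on a coordinate. -/
noncomputable def lpEval (i : I) : lp A ∞ →⋆ₐ[ℂ] A i where
  toFun f := f i
  map_one' := rfl
  map_mul' _ _ := rfl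
  map_zero' := rfl
  map_add' _ _ := rfl
  commutes' _ := rfl
  map_star' _ := rfl

@[simp] theorem lpEval_apply (i : I) (f : lp A ∞) : lpEval i f = f i := rfl

theorem lpEval_norm_le (i : I) (f : lp A ∞) : ‖lpEval i f‖ ≤ ‖f‖ :=
  lp.norm_apply_le_norm (by simp) f i

/-- Positivity in a closed star-subalgebra of the product is fiberwise. -/
theorem lp_nonneg (S : StarSubalgebra ℂ (lp A ∞)) (hS : IsClosed (S : Set (lp A ∞)))
    (f : lp A ∞) (hf : f ∈ S) (h : ∀ i, ∃ x, f i = star x * x) : ∃ x ∈ S, f = star x * x := by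
  have := hS
  let _ : CStarAlgebra S := StarSubalgebra.cstarAlgebra S
  have hsa : IsSelfAdjoint f := by
    ext i
    obtain ⟨x, hx⟩ := h i
    change star (f i) = f i
    rw [hx]; simp
  have hsa' : IsSelfAdjoint (⟨f, hf⟩ : S) := Subtype.ext hsa
  have key := (exists_star_mul_self_iff (⟨f, hf⟩ : S) hsa' ‖f‖ le_rfl).mpr (by
    change ‖algebraMap ℝ (lp A ∞) ‖f‖ - f‖ ≤ ‖f‖
    refine lp.norm_le_of_forall_le (norm_nonneg _) fun i => ?_
    have h1 : IsSelfAdjoint (f i) := by
      obtain ⟨x, hx⟩ := h i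
      rw [hx]; exact IsSelfAdjoint.star_mul_self x
    exact (exists_star_mul_self_iff (f i) h1 ‖f‖ (lpEval_norm_le i f)).mp (h i))
  obtain ⟨x, hx⟩ := key
  exact ⟨x, x.2, congrArg Subtype.val hx⟩

end

/-- Positivity in `C(X, A)` is pointwise. -/
theorem continuousMap_nonneg {X : Type*} [TopologicalSpace X] [CompactSpace X] {A : Type*}
    [CStarAlgebra A] (f : C(X, A)) (h : ∀ x, ∃ y, f x = star y * y) :
    ∃ y : C(X, A), f = star y * y := by
  have hsa : IsSelfAdjoint f := by
    ext x
    obtain ⟨y, hy⟩ := h x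
    change star (f x) = f x
    rw [hy]; simp
  refine (exists_star_mul_self_iff f hsa ‖f‖ le_rfl).mpr ?_
  rw [ContinuousMap.norm_le _ (norm_nonneg _)]
  intro x
  have h1 : IsSelfAdjoint (f x) := by
    obtain ⟨y, hy⟩ := h x
    rw [hy]; exact IsSelfAdjoint.star_mul_self y
  exact (exists_star_mul_self_iff (f x) h1 ‖f‖ (ContinuousMap.norm_coe_le_norm f x)).mp (h x)

end QT
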