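import Mathlib

/-! Row 137, chunk G: quotient C*-algebras. -/

set_option autoImplicit false

namespace QT
namespace QuotAux

open Filter Metric

variable {A : Type*} [CStarAlgebra A]

/-- key estimate -/
theorem key (I : Ideal A) [I.IsTwoSided] (hs : ∀ x ∈ I, star x ∈ I) (a : A) (j : A) (hj : j ∈ I)
    (ε : ℝ) (hε : 0 < ε) : ∃ u ∈ I, ‖a - u‖ * ‖a - u‖ ≤ ‖star a * a + j‖ + ε := by
  -- self-adjoint part of `j`
  set k : A := (2⁻¹ : ℝ) • (j + star j) with hk
  have hkI : k ∈ I := by
    have h1 : j + star j ∈ I := I.add_mem hj (hs j hj)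
    have h2 : k = (algebraMap ℝ A 2⁻¹) * (j + star j) := by
      rw [hk, Algebra.smul_def]
    rw [h2]; exact I.mul_mem_left _ h1
  have hksa : IsSelfAdjoint k := by
    rw [hk, IsSelfAdjoint, star_smul, star_add, star_star, add_comm (star j) j]
    simp
  have hle : ‖star a * a + k‖ ≤ ‖star a * a + j‖ := by
    have h1 : star a * a + k = (2⁻¹ : ℝ) • ((star a * a + j) + star (star a * a + j)) := by
      rw [hk, star_add, star_mul, star_star, ← sub_eq_zero]
      module
    rw [h1, norm_smul]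
    have h2 := norm_add_le (star a * a + j) (star (star a * a + j))
    rw [norm_star] at h2
    have h3 : ‖(2⁻¹ : ℝ)‖ = 2⁻¹ := by norm_num
    rw [h3]; linarith
  -- parameter `δ = ε ^ 2`
  set δ : ℝ := ε ^ 2 with hδ
  have hδ0 : 0 < δ := by positivity
  have hpos : ∀ t : ℝ, 0 < δ + t ^ 2 := fun t => by positivity
  have hne : ∀ t : ℝ, δ + t ^ 2 ≠ 0 := fun t => (hpos t).ne'
  have hc1 : Continuous (fun t : ℝ => t / (δ + t ^ 2)) :=
    continuous_id.div (by fun_prop) hne
  have hc2 : Continuous (fun t : ℝ => δ / (δ + t ^ 2)) :=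
    continuous_const.div (by fun_prop) hne
  have hc3 : Continuous (fun t : ℝ => t * (t / (δ + t ^ 2))) := continuous_id.mul hc1
  have hc4 : Continuous (fun t : ℝ => δ / (δ + t ^ 2) * t) := hc2.mul continuous_id
  set w : A := cfc (fun t : ℝ => t / (δ + t ^ 2)) k with hw
  set v : A := cfc (fun t : ℝ => δ / (δ + t ^ 2)) k with hv
  have hkw : v = 1 - k * w := by
    have e1 : k * w = cfc (fun t : ℝ => t * (t / (δ + t ^ 2))) k := by
      rw [cfc_mul (fun t : ℝ => t) _ k (by fun_prop) (hc1.continuousOn), cfc_id' ℝ k hksa]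
    have e2 : v + k * w = 1 := by
      rw [e1, hv, ← cfc_add k _ _ hc2.continuousOn hc3.continuousOn,
        ← cfc_one ℝ k hksa]
      apply cfc_congr
      intro t _
      have := hne t
      simp only [Pi.one_apply]
      field_simp
    rw [← e2]; abel
  have hvsa : IsSelfAdjoint v := cfc_predicate _ k
  have hv1 : ‖v‖ ≤ 1 := by
    apply norm_cfc_le zero_le_one
    intro t _
    have := hpos t
    rw [Real.norm_of_nonneg (by positivity), div_le_one this]
    nlinarith [sq_nonneg t]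
  have hvkv : ‖v * k * v‖ ≤ ε := by
    have e1 : v * k * v = cfc (fun t : ℝ => (δ / (δ + t ^ 2)) * t * (δ / (δ + t ^ 2))) k := by
      rw [cfc_mul (fun t : ℝ => (δ / (δ + t ^ 2)) * t) _ k hc4.continuousOn
        hc2.continuousOn, cfc_mul _ (fun t : ℝ => t) k hc2.continuousOn (by fun_prop),
        cfc_id' ℝ k hksa]
    rw [e1]
    apply norm_cfc_le hε.le
    intro t _
    have hp := hpos t
    rw [norm_mul, norm_mul, Real.norm_of_nonneg (show 0 ≤ δ / (δ + t ^ 2) by positivity)]
    have h1 : δ / (δ + t ^ 2) ≤ 1 := by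
      rw [div_le_one hp]; nlinarith [sq_nonneg t]
    have h2 : δ / (δ + t ^ 2) * ‖t‖ ≤ ε := by
      rw [div_mul_eq_mul_div, div_le_iff₀ hp, Real.norm_eq_abs, hδ]
      nlinarith [sq_nonneg (ε - |t|), sq_abs t, abs_nonneg t]
    calc δ / (δ + t ^ 2) * ‖t‖ * (δ / (δ + t ^ 2)) ≤ ε * 1 :=
          mul_le_mul h2 h1 (by positivity) hε.le
      _ = ε := mul_one ε
  refine ⟨a * (k * w), I.mul_mem_left _ (I.mul_mem_right _ hkI), ?_⟩
  have h1 : a - a * (k * w) = a * v := by rw [hkw]; noncomm_ring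
  rw [h1, ← CStarRing.norm_star_mul_self, star_mul, hvsa.star_eq]
  have h2 : v * star a * (a * v) = v * (star a * a + k) * v - v * k * v := by noncomm_ring
  rw [h2]
  have h3 : ‖v * (star a * a + k) * v‖ ≤ ‖star a * a + k‖ := by
    calc ‖v * (star a * a + k) * v‖ ≤ ‖v‖ * ‖star a * a + k‖ * ‖v‖ :=
          (norm_mul_le _ _).trans (mul_le_mul_of_nonneg_right (norm_mul_le _ _) (norm_nonneg _))
      _ ≤ 1 * ‖star a * a + k‖ * 1 := by gcongr
      _ = _ := by ring
  have h4 := norm_sub_le (v * (star a * a + k) * v) (v * k * v)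
  linarith

variable (I : Ideal A) [I.IsTwoSided] [hIc : IsClosed (I : Set A)]

theorem exists_lift (x : A ⧸ I) {ε : ℝ} (hε : 0 < ε) :
    ∃ r : A, Ideal.Quotient.mk I r = x ∧ ‖r‖ < ‖x‖ + ε :=
  Submodule.Quotient.norm_mk_lt x hε

theorem norm_mk_le' (r : A) : ‖Ideal.Quotient.mk I r‖ ≤ ‖r‖ := Submodule.Quotient.norm_mk_le I r

theorem norm_mul_le_aux (x y : A ⧸ I) : ‖x * y‖ ≤ ‖x‖ * ‖y‖ := by
  have h : ∀ ε : ℝ, 0 < ε → ‖x * y‖ ≤ (‖x‖ + ε) * (‖y‖ + ε) := by
    intro ε hε
    obtain ⟨a, rfl, ha⟩ := exists_lift I x hε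
    obtain ⟨b, rfl, hb⟩ := exists_lift I y hε
    rw [← map_mul]
    calc ‖Ideal.Quotient.mk I (a * b)‖ ≤ ‖a * b‖ := norm_mk_le' I _
      _ ≤ ‖a‖ * ‖b‖ := norm_mul_le _ _
      _ ≤ _ := mul_le_mul ha.le hb.le (norm_nonneg _) (by positivity)
  have h2 : Tendsto (fun ε : ℝ => (‖x‖ + ε) * (‖y‖ + ε)) (nhdsWithin 0 (Set.Ioi 0))
      (nhds ((‖x‖ + 0) * (‖y‖ + 0))) := by
    apply Tendsto.mono_left _ nhdsWithin_le_nhds
    apply Continuous.tendsto
    fun_prop
  rw [add_zero, add_zero] at h2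
  refine ge_of_tendsto h2 ?_
  filter_upwards [self_mem_nhdsWithin] with ε hε using h ε hε

/-- the normed ring structure on the quotient -/
@[reducible] noncomputable def normedRing : NormedRing (A ⧸ I) :=
  { Ideal.Quotient.ring I, Submodule.Quotient.normedAddCommGroup I with
    norm_mul_le := norm_mul_le_aux I }

/-- the star operation on the quotient -/
noncomputable def starOf (x : A ⧸ I) : A ⧸ I := Ideal.Quotient.mk I (star (Quotient.out x))

omit hIc in
theorem starOf_mk (hs : ∀ x ∈ I, star x ∈ I) (a : A) :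
    starOf I (Ideal.Quotient.mk I a) = Ideal.Quotient.mk I (star a) := by
  unfold starOf
  rw [Ideal.Quotient.mk_eq_mk_iff_sub_mem, ← star_sub]
  apply hs
  rw [← Ideal.Quotient.mk_eq_mk_iff_sub_mem, Ideal.Quotient.mk_out]

/-- the C*-algebra structure on the quotient -/
@[reducible] noncomputable def cstar (hs : ∀ x ∈ I, star x ∈ I) : CStarAlgebra (A ⧸ I) := by
  letI i1 : NormedRing (A ⧸ I) := normedRing I
  letI i2 : NormedAlgebra ℂ (A ⧸ I) :=
    { Ideal.Quotient.algebra ℂ (I := I) with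
      norm_smul_le := (Submodule.Quotient.normedSpace I ℂ).norm_smul_le }
  letI i3 : StarRing (A ⧸ I) :=
    { star := starOf I
      star_involutive := by
        intro x
        obtain ⟨a, rfl⟩ := Ideal.Quotient.mk_surjective x
        show starOf I (starOf I _) = _
        rw [starOf_mk I hs, starOf_mk I hs, star_star]
      star_mul := by
        intro x y
        obtain ⟨a, rfl⟩ := Ideal.Quotient.mk_surjective x
        obtain ⟨b, rfl⟩ := Ideal.Quotient.mk_surjective y
        show starOf I _ = starOf I _ * starOf I _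
        rw [← map_mul, starOf_mk I hs, starOf_mk I hs, starOf_mk I hs, star_mul, map_mul]
      star_add := by
        intro x y
        obtain ⟨a, rfl⟩ := Ideal.Quotient.mk_surjective x
        obtain ⟨b, rfl⟩ := Ideal.Quotient.mk_surjective y
        show starOf I _ = starOf I _ + starOf I _
        rw [← map_add, starOf_mk I hs, starOf_mk I hs, starOf_mk I hs, star_add, map_add] }
  have hstar : ∀ a : A, star (Ideal.Quotient.mk I a) = Ideal.Quotient.mk I (star a) :=
    starOf_mk I hs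
  haveI i4 : CompleteSpace (A ⧸ I) := Submodule.Quotient.completeSpace I
  haveI i5 : StarModule ℂ (A ⧸ I) := ⟨by
    intro c x
    obtain ⟨a, rfl⟩ := Ideal.Quotient.mk_surjective x
    have h1 : c • (Ideal.Quotient.mk I a) = Ideal.Quotient.mk I (c • a) := rfl
    have h2 : star c • (Ideal.Quotient.mk I (star a)) = Ideal.Quotient.mk I (star c • star a) := rfl
    rw [h1, hstar, hstar, h2, star_smul]⟩
  haveI i6 : CStarRing (A ⧸ I) := ⟨by
    intro x
    obtain ⟨a, rfl⟩ := Ideal.Quotient.mk_surjective x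
    rw [hstar, ← map_mul]
    apply le_of_forall_pos_le_add
    intro ε hε
    obtain ⟨r, hr, hr2⟩ := exists_lift I (Ideal.Quotient.mk I (star a * a)) (half_pos hε)
    have hj : r - star a * a ∈ I := by
      rw [← Ideal.Quotient.mk_eq_mk_iff_sub_mem]; exact hr
    obtain ⟨u, hu, hu2⟩ := key I hs a (r - star a * a) hj (ε / 2) (half_pos hε)
    have h1 : Ideal.Quotient.mk I (a - u) = Ideal.Quotient.mk I a := by
      rw [map_sub, Ideal.Quotient.eq_zero_iff_mem.mpr hu, sub_zero]
    have h2 : ‖Ideal.Quotient.mk I a‖ ≤ ‖a - u‖ := by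
      rw [← h1]; exact norm_mk_le' I _
    have h3 : ‖Ideal.Quotient.mk I a‖ * ‖Ideal.Quotient.mk I a‖ ≤ ‖a - u‖ * ‖a - u‖ :=
      mul_le_mul h2 h2 (norm_nonneg _) (norm_nonneg _)
    rw [add_sub_cancel] at hu2
    linarith⟩
  exact { i1, i3, i2 with
    complete := i4.complete
    norm_mul_self_le := i6.norm_mul_self_le
    star_smul := i5.star_smul }

end QuotAux

/-- Chunk G. The quotient of a unital C*-algebra by a closed two-sided selfadjoint ideal `J`
(given as a submodule absorbing multiplication) is a C*-algebra. -/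
theorem exists_quotient (A : Type) [CStarAlgebra A] (J : Submodule ℂ A)
    (hJl : ∀ a x : A, x ∈ J → a * x ∈ J) (hJr : ∀ a x : A, x ∈ J → x * a ∈ J)
    (hJstar : ∀ x ∈ J, star x ∈ J) (hJc : IsClosed (J : Set A)) :
    ∃ (B : Type) (_ : CStarAlgebra B) (π : A →⋆ₐ[ℂ] B), Function.Surjective π ∧
      Continuous π ∧ ∀ a, π a = 0 ↔ a ∈ J := by
  let I : Ideal A :=
    { carrier := (J : Set A)
      add_mem' := fun ha hb => J.add_mem ha hb
      zero_mem' := J.zero_mem
      smul_mem' := fun a x hx => hJl a x hx }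
  have hI : ∀ x, x ∈ I ↔ x ∈ J := fun x => Iff.rfl
  have h2 : I.IsTwoSided := ⟨fun {a} b ha => hJr b a ha⟩
  have hc : IsClosed (I : Set A) := hJc
  have hs : ∀ x ∈ I, star x ∈ I := hJstar
  let inst : CStarAlgebra (A ⧸ I) := QuotAux.cstar I hs
  refine ⟨A ⧸ I, inst, 
    { toFun := Ideal.Quotient.mk I
      map_one' := rfl
      map_mul' := fun _ _ => rfl
      map_zero' := rfl
      map_add' := fun _ _ => rfl
      commutes' := fun _ => rfl
      map_star' := fun a => (QuotAux.starOf_mk I hs a).symm }, ?_, ?_, ?_⟩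
  · exact Ideal.Quotient.mk_surjective
  · show Continuous (Ideal.Quotient.mk I)
    refine AddMonoidHomClass.continuous_of_bound (Ideal.Quotient.mk I) 1 fun x => ?_
    rw [one_mul]
    exact QuotAux.norm_mk_le' I x
  · intro a
    show Ideal.Quotient.mk I a = 0 ↔ _
    rw [Ideal.Quotient.eq_zero_iff_mem, hI]

end QT
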