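import Mathlib
import Crest.Prelude.Def_Quasitrace

/-! Row 137 (S0188): shared definitions for the quasitrace counterexample. -/

set_option autoImplicit false

open scoped Matrix.Norms.L2Operator Matrix ComplexOrder

namespace QT

/-- The parameter space: positive contractions `W` of `M_b(ℂ)` with `Tr (1 - W) ≤ b/4`. -/
def XSet (b : ℕ) : Set (Matrix (Fin b) (Fin b) ℂ) :=
  {W | W.PosSemidef ∧ (1 - W).PosSemidef ∧ (Matrix.trace (1 - W)).re ≤ (b : ℝ) / 4}

/-- Squared Hilbert-Schmidt norm. -/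
noncomputable def hs {m n : ℕ} (T : Matrix (Fin m) (Fin n) ℂ) : ℝ := ∑ i, ∑ j, ‖T i j‖ ^ 2

/-- `D` is a "dimension state" on the positive cone of a unital C*-algebra. -/
structure DimState {T : Type*} [CStarAlgebra T] [PartialOrder T] [StarOrderedRing T]
    (D : T → ℝ) : Prop where
  nonneg : ∀ a, 0 ≤ a → 0 ≤ D a
  zero : D 0 = 0
  one : D 1 = 1
  add : ∀ a b, 0 ≤ a → 0 ≤ b → D (a + b) ≤ D a + D b
  orth : ∀ c r s : T, 0 ≤ c → r * c * star s = 0 →
    D (r * c * star r) + D (s * c * star s) ≤ D c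

/-- Commutative version on `C(Y, ℝ)`. -/
structure CommDim {Y : Type*} [TopologicalSpace Y] [CompactSpace Y] (d : C(Y, ℝ) → ℝ) : Prop where
  nonneg : ∀ f, 0 ≤ f → 0 ≤ d f
  zero : d 0 = 0
  one : d 1 = 1
  add : ∀ f g, 0 ≤ f → 0 ≤ g → d (f + g) ≤ d f + d g
  orth : ∀ h r s : C(Y, ℝ), 0 ≤ h → r * h * s = 0 → d (r * h * r) + d (s * h * s) ≤ d h

/-- `(f - t)_+` on `C(Y, ℝ)`. -/
noncomputable def ccut {Y : Type*} [TopologicalSpace Y] (t : ℝ) (f : C(Y, ℝ)) : C(Y, ℝ) :=
  (f - ContinuousMap.const Y t) ⊔ 0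

/-- Layer-cake integral, commutative version. -/
noncomputable def clay {Y : Type*} [TopologicalSpace Y] (d : C(Y, ℝ) → ℝ) (f : C(Y, ℝ)) : ℝ :=
  ∫ t in Set.Ioi (0 : ℝ), d (ccut t f)

section
variable {T : Type*} [CStarAlgebra T] [PartialOrder T] [StarOrderedRing T]

/-- `(a - t)_+` in a C*-algebra. -/
noncomputable def cut (t : ℝ) (a : T) : T := cfc (fun x : ℝ => max (x - t) 0) a

/-- Layer-cake integral. -/
noncomputable def lay (D : T → ℝ) (a : T) : ℝ := ∫ t in Set.Ioi (0 : ℝ), D (cut t a)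

/-- The quasitrace of a dimension state on selfadjoint elements. -/
noncomputable def tauSA (D : T → ℝ) (a : T) : ℝ :=
  lay D (cfc (fun x : ℝ => max x 0) a) - lay D (cfc (fun x : ℝ => max (-x) 0) a)

/-- The quasitrace of a dimension state. -/
noncomputable def tau (D : T → ℝ) (x : T) : ℂ :=
  (tauSA D (realPart x : T) : ℂ) + Complex.I * (tauSA D (imaginaryPart x : T) : ℂ)

end

/-- No co-isometry from fewer copies to more copies. -/
def NoCoisometry (B : Type*) [Ring B] [StarRing B] : Prop :=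
  ∀ p q : ℕ, p < q → ∀ r : Matrix (Fin q) (Fin p) B, r * rᴴ ≠ 1

end QT
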