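import Mathlib

/-! Row 137, chunk A: Borsuk-Ulam. -/

set_option autoImplicit false

namespace QT

namespace BU

section Chains

variable {α : Type*}

/-- Mod 2 coboundary on functions of lists. -/
def del : (List α → ZMod 2) → List α → ZMod 2
  | _, [] => 0
  | g, a :: l => g l + del (fun m => g (a :: m)) l

/-- Prism operator. -/
def prism (φ ψ : α → α) : (List α → ZMod 2) → List α → ZMod 2
  | _, [] => 0
  | g, a :: l => g (φ a :: ψ a :: l.map ψ) + prism φ ψ (fun m => g (φ a :: m)) l

theorem del_add (g h : List α → ZMod 2) (l : List α) :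
    del (fun m => g m + h m) l = del g l + del h l := by
  induction l generalizing g h with
  | nil => simp [del]
  | cons a l ih =>
    simp only [del]
    rw [ih]
    ring

theorem del_mul (c : ZMod 2) (g : List α → ZMod 2) (l : List α) :
    del (fun m => c * g m) l = c * del g l := by
  induction l generalizing g with
  | nil => simp [del]
  | cons a l ih =>
    simp only [del]
    rw [ih]
    ring

theorem del_map (ψ : α → α) (h : List α → ZMod 2) (l : List α) :
    del (fun m => h (m.map ψ)) l = del h (l.map ψ) := by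
  induction l generalizing h with
  | nil => simp [del]
  | cons a l ih =>
    simp only [del, List.map_cons]
    rw [ih (fun m => h (ψ a :: m))]

theorem prism_add (φ ψ : α → α) (g h : List α → ZMod 2) (l : List α) :
    prism φ ψ (fun m => g m + h m) l = prism φ ψ g l + prism φ ψ h l := by
  induction l generalizing g h with
  | nil => simp [prism]
  | cons a l ih =>
    simp only [prism]
    rw [ih]
    ring

theorem two_self (x : ZMod 2) : x + x = 0 := CharTwo.add_self_eq_zero x

theorem prism_del (φ ψ : α → α) (g : List α → ZMod 2) (l : List α) :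
    prism φ ψ (del g) l = del (prism φ ψ g) l + g (l.map ψ) + g (l.map φ) := by
  induction l generalizing g with
  | nil => simp [del, prism, two_self]
  | cons a l ih =>
    have h1 : prism φ ψ (del g) (a :: l)
        = g (ψ a :: l.map ψ) + g (φ a :: l.map ψ)
          + del (fun m => g (φ a :: ψ a :: m)) (l.map ψ)
          + (prism φ ψ g l + prism φ ψ (del (fun m => g (φ a :: m))) l) := by
      simp only [prism, del, prism_add]
      ring
    have h2 : del (prism φ ψ g) (a :: l)
        = prism φ ψ g l + (del (fun m => g (φ a :: ψ a :: m)) (l.map ψ)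
          + del (prism φ ψ (fun m => g (φ a :: m))) l) := by
      simp only [prism, del, del_add]
      rw [← del_map]
    rw [h1, h2, ih (fun m => g (φ a :: m))]
    simp only [List.map_cons]
    have e1 := two_self (g (φ a :: l.map ψ))
    linear_combination e1

theorem prism_congr (φ ψ : α → α) (g g' : List α → ZMod 2) (l : List α)
    (h : ∀ l1 a l2, l = l1 ++ a :: l2 →
      g (l1.map φ ++ φ a :: ψ a :: l2.map ψ) = g' (l1.map φ ++ φ a :: ψ a :: l2.map ψ)) :
    prism φ ψ g l = prism φ ψ g' l := by
  induction l generalizing g g' with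
  | nil => simp [prism]
  | cons a l ih =>
    simp only [prism]
    have h0 := h [] a l rfl
    simp only [List.map_nil, List.nil_append] at h0
    rw [h0]
    congr 1
    apply ih
    intro l1 b l2 hl
    have := h (a :: l1) b l2 (by rw [hl]; rfl)
    simpa using this

end Chains

section Cup

variable {α : Type*}

/-- Cup product of `k` coboundaries. -/
def cup (s : ℕ → α → ZMod 2) : ℕ → List α → ZMod 2
  | 0, _ => 1
  | k + 1, x :: y :: l => (s k x + s k y) * cup s k (y :: l)
  | _ + 1, _ => 0

/-- The cochain `s_k ∪ δ s_{k-1} ∪ ... ∪ δ s_0`. -/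
def bb (s : ℕ → α → ZMod 2) (k : ℕ) : List α → ZMod 2
  | [] => 0
  | x :: l => s k x * cup s k (x :: l)

theorem cup_closed (s : ℕ → α → ZMod 2) (k : ℕ) (l : List α) (hl : l.length = k + 2) :
    del (cup s k) l = 0 := by
  induction k generalizing l with
  | zero =>
    match l, hl with
    | [x, y], _ =>
      simp only [del, cup]
      decide
  | succ k ih =>
    match l, hl with
    | x :: y :: z :: l, hl =>
      have h := ih (y :: z :: l) (by simpa using hl)
      simp only [del, cup, del_mul] at h ⊢
      have e1 := two_self (s k z)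
      linear_combination (s k x + s k y) * h + (cup s k (z :: l)) * e1
  
theorem del_bb (s : ℕ → α → ZMod 2) (k : ℕ) (l : List α) (hl : l.length = k + 2) :
    del (bb s k) l = cup s (k + 1) l := by
  match l, hl with
  | x :: y :: l, hl =>
    have h := cup_closed s k (x :: y :: l) hl
    simp only [del, cup, bb, del_mul] at h ⊢
    have e1 := two_self (cup s k (y :: l))
    linear_combination (s k x) * h - (s k x) * e1

theorem cup_map (s : ℕ → α → ZMod 2) (ν : α → α) (k : ℕ) (l : List α)
    (h : ∀ x ∈ l, ∀ i, s i (ν x) = s i x + 1) : cup s k (l.map ν) = cup s k l := by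
  induction k generalizing l with
  | zero => simp [cup]
  | succ k ih =>
    match l, h with
    | [], _ => simp
    | [x], _ => simp [cup]
    | x :: y :: l, h =>
      have h1 := ih (y :: l) (fun z hz => h z (by simp at hz ⊢; tauto))
      simp only [List.map_cons] at h1
      simp only [List.map_cons, cup]
      rw [h1, h x (by simp), h y (by simp)]
      have e : (1 : ZMod 2) + 1 = 0 := by decide
      linear_combination cup s k (y :: l) * e

theorem bb_add (s : ℕ → α → ZMod 2) (ν : α → α) (k : ℕ) (l : List α) (hne : l ≠ [])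
    (h : ∀ x ∈ l, ∀ i, s i (ν x) = s i x + 1) :
    bb s k l + bb s k (l.map ν) = cup s k l := by
  match l, hne, h with
  | x :: l, _, h =>
    have h1 := cup_map s ν k (x :: l) h
    simp only [List.map_cons] at h1
    simp only [List.map_cons, bb]
    rw [h1, h x (by simp)]
    have e := two_self (s k x)
    linear_combination (cup s k (x :: l)) * e

theorem cup_eq_zero (s : ℕ → α → ZMod 2) (k : ℕ) (l : List α) (hl : l.length = k + 1)
    (i : ℕ) (hi : i < k) (c : ZMod 2) (h : ∀ x ∈ l, s i x = c) : cup s k l = 0 := by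
  induction k generalizing l with
  | zero => omega
  | succ k ih =>
    match l, hl, h with
    | x :: y :: l, hl, h =>
      simp only [cup]
      rcases Nat.lt_or_ge i k with hik | hik
      · rw [ih (y :: l) (by simpa using hl) hik (fun z hz => h z (by simp at hz ⊢; tauto))]
        ring
      · have : i = k := by omega
        subst this
        rw [h x (by simp), h y (by simp), two_self]
        ring

end Cup

section Func

variable {V : Type*} [InvolutiveNeg V]

/-- The chains, as functionals. -/
def chain (e0 : V) (φ : ℕ → ℕ → V → V) (N : ℕ) : ℕ → (List V → ZMod 2) → ZMod 2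
  | 0, g => g [e0]
  | k + 1, g => ∑ i ∈ Finset.range N,
      (chain e0 φ N k (prism (φ k i) (φ k (i + 1)) g)
        + chain e0 φ N k (fun l => prism (φ k i) (φ k (i + 1)) g (l.map Neg.neg)))

variable (e0 : V) (φ : ℕ → ℕ → V → V) (N : ℕ)

theorem chain_add (k : ℕ) (g h : List V → ZMod 2) :
    chain e0 φ N k (fun l => g l + h l) = chain e0 φ N k g + chain e0 φ N k h := by
  induction k generalizing g h with
  | zero => simp [chain]
  | succ k ih =>
    simp only [chain]
    rw [← Finset.sum_add_distrib]
    apply Finset.sum_congr rfl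
    intro i _
    have h1 : prism (φ k i) (φ k (i + 1)) (fun l => g l + h l)
        = fun l => prism (φ k i) (φ k (i + 1)) g l + prism (φ k i) (φ k (i + 1)) h l := by
      funext l
      exact prism_add _ _ _ _ _
    rw [h1, ih, ih]
    ring

/-- The symmetrised chain. -/
def sym (k : ℕ) (g : List V → ZMod 2) : ZMod 2 :=
  chain e0 φ N k g + chain e0 φ N k (fun l => g (l.map Neg.neg))

theorem chain_succ (k : ℕ) (g : List V → ZMod 2) :
    chain e0 φ N (k + 1) g
      = ∑ i ∈ Finset.range N, sym e0 φ N k (prism (φ k i) (φ k (i + 1)) g) := rfl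

theorem sym_add (k : ℕ) (g h : List V → ZMod 2) :
    sym e0 φ N k (fun l => g l + h l) = sym e0 φ N k g + sym e0 φ N k h := by
  simp only [sym, chain_add]
  ring

theorem sym_neg (k : ℕ) (g : List V → ZMod 2) :
    sym e0 φ N k (fun l => g (l.map Neg.neg)) = sym e0 φ N k g := by
  simp only [sym]
  have : (fun l : List V => g ((l.map Neg.neg).map Neg.neg)) = g := by
    funext l
    congr 1
    simp [List.map_map]
  rw [this]
  ring

/-- Locality with respect to a predicate on lists. -/
theorem chain_congr (K : ℕ) (A : ℕ → List V → Prop) (h0 : A 0 [e0])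
    (hneg : ∀ k l, A k l → A k (l.map Neg.neg))
    (hstep : ∀ k i, k < K → i < N → ∀ l1 a l2, A k (l1 ++ a :: l2) →
      A (k + 1) (l1.map (φ k i) ++ φ k i a :: φ k (i + 1) a :: l2.map (φ k (i + 1))))
    (k : ℕ) (hk : k ≤ K) (g g' : List V → ZMod 2) (hg : ∀ l, A k l → g l = g' l) :
    chain e0 φ N k g = chain e0 φ N k g' := by
  induction k generalizing g g' with
  | zero => exact hg _ h0
  | succ k ih =>
    have ih := ih (by omega)
    simp only [chain]
    apply Finset.sum_congr rfl
    intro i hi
    have hi' := Finset.mem_range.mp hi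
    congr 1
    · apply ih
      intro l hl
      apply prism_congr
      intro l1 a l2 hl2
      exact hg _ (hstep k i (by omega) hi' l1 a l2 (hl2 ▸ hl))
    · apply ih
      intro l hl
      apply prism_congr
      intro l1 a l2 hl2
      exact hg _ (hstep k i (by omega) hi' l1 a l2 (hl2 ▸ (hneg k l hl)))

theorem chain_congr_length (k : ℕ) (g g' : List V → ZMod 2)
    (hg : ∀ l : List V, l.length = k + 1 → g l = g' l) :
    chain e0 φ N k g = chain e0 φ N k g' := by
  apply chain_congr e0 φ N k (fun k l => l.length = k + 1) (by simp)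
    (by intro k l hl; simpa using hl) _ k le_rfl g g' hg
  intro k i _ _ l1 a l2 hl
  simp at hl ⊢
  omega

theorem sym_congr_length (k : ℕ) (g g' : List V → ZMod 2)
    (hg : ∀ l : List V, l.length = k + 1 → g l = g' l) :
    sym e0 φ N k g = sym e0 φ N k g' := by
  unfold sym
  rw [chain_congr_length e0 φ N k g g' hg,
    chain_congr_length e0 φ N k (fun l => g (l.map Neg.neg)) (fun l => g' (l.map Neg.neg))
      (fun l hl => hg _ (by simpa using hl))]

theorem chain_del (k : ℕ) (e : V) (hφ0 : φ k 0 = id) (hφN : φ k N = fun _ => e)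
    (hsym : ∀ h, sym e0 φ N k (del h) = 0) (g : List V → ZMod 2) :
    chain e0 φ N (k + 1) (del g) = sym e0 φ N k g := by
  rw [chain_succ]
  have h1 : ∀ i, sym e0 φ N k (prism (φ k i) (φ k (i + 1)) (del g))
      = sym e0 φ N k (fun l => g (l.map (φ k (i + 1))))
        - sym e0 φ N k (fun l => g (l.map (φ k i))) := by
    intro i
    have : prism (φ k i) (φ k (i + 1)) (del g) = fun l =>
        (del (prism (φ k i) (φ k (i + 1)) g) l + g (l.map (φ k (i + 1))))
          + g (l.map (φ k i)) := by
      funext l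
      exact prism_del _ _ _ _
    rw [this, sym_add, sym_add, hsym]
    have := two_self (sym e0 φ N k (fun l => g (l.map (φ k i))))
    linear_combination this
  simp only [h1]
  rw [Finset.sum_range_sub (fun i => sym e0 φ N k (fun l => g (l.map (φ k i)))), hφ0, hφN]
  have h2 : sym e0 φ N k (fun l => g (l.map (fun _ => e))) = 0 := by
    rw [sym_congr_length e0 φ N k _ (fun _ => g (List.replicate (k + 1) e))
      (by intro l hl; simp [List.map_const', hl])]
    unfold sym
    exact two_self _
  rw [h2]
  have h3 : (fun l : List V => g (l.map id)) = g := by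
    funext l; simp
  rw [h3]
  have := two_self (sym e0 φ N k g)
  linear_combination - this

theorem sym_del (e : ℕ → V) (k : ℕ) (hφ0 : ∀ j < k, φ j 0 = id)
    (hφN : ∀ j < k, φ j N = fun _ => e j) (h : List V → ZMod 2) :
    sym e0 φ N k (del h) = 0 := by
  induction k generalizing h with
  | zero =>
    simp only [sym, chain, del, List.map_cons, List.map_nil]
    simp [two_self]
  | succ k ih =>
    have ih' := ih (fun j hj => hφ0 j (by omega)) (fun j hj => hφN j (by omega))
    unfold sym
    have h1 : (fun l : List V => del h (l.map Neg.neg))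
        = del (fun m => h (m.map Neg.neg)) := by
      funext l
      rw [del_map]
    rw [h1, chain_del e0 φ N k (e k) (hφ0 k (by omega)) (hφN k (by omega)) ih',
      chain_del e0 φ N k (e k) (hφ0 k (by omega)) (hφN k (by omega)) ih', sym_neg]
    exact two_self _

theorem chain_cup (K : ℕ) (s : ℕ → V → ZMod 2) (A : ℕ → List V → Prop) (h0 : A 0 [e0])
    (hneg : ∀ k l, A k l → A k (l.map Neg.neg))
    (hstep : ∀ k i, k < K → i < N → ∀ l1 a l2, A k (l1 ++ a :: l2) →
      A (k + 1) (l1.map (φ k i) ++ φ k i a :: φ k (i + 1) a :: l2.map (φ k (i + 1))))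
    (hne : ∀ k l, A k l → l ≠ [])
    (hs : ∀ k l, A k l → ∀ x ∈ l, ∀ i, s i (-x) = s i x + 1)
    (e : ℕ → V) (k : ℕ) (hk : k ≤ K) (hφ0 : ∀ j < k, φ j 0 = id)
    (hφN : ∀ j < k, φ j N = fun _ => e j) :
    chain e0 φ N k (cup s k) = 1 := by
  have key : ∀ k ≤ K, sym e0 φ N k (bb s k) = chain e0 φ N k (cup s k) := by
    intro k hk
    unfold sym
    rw [← chain_add]
    apply chain_congr e0 φ N K A h0 hneg hstep k hk
    intro l hl
    exact bb_add s Neg.neg k l (hne k l hl) (hs k l hl)
  induction k with
  | zero => simp [chain, cup]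
  | succ k ih =>
    rw [chain_congr_length e0 φ N (k + 1) (cup s (k + 1)) (del (bb s k))
      (fun l hl => (del_bb s k l (by omega)).symm)]
    rw [chain_del e0 φ N k (e k) (hφ0 k (by omega)) (hφN k (by omega))
      (sym_del e0 φ N e k (fun j hj => hφ0 j (by omega)) (fun j hj => hφN j (by omega))),
      key k (by omega)]
    exact ih (by omega) (fun j hj => hφ0 j (by omega)) (fun j hj => hφN j (by omega))

theorem chain_zero (k : ℕ) : chain e0 φ N k (fun _ => 0) = 0 := by
  have h := chain_add e0 φ N k (fun _ => 0) (fun _ => 0)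
  simp only [add_zero] at h
  rw [two_self] at h
  exact h

end Func

section Geom

variable {n : ℕ}

/-- Basis vectors. -/
noncomputable def ee (n k : ℕ) : EuclideanSpace ℝ (Fin (n + 1)) :=
  if h : k < n + 1 then EuclideanSpace.single ⟨k, h⟩ 1 else 0

/-- Rotation towards the `(k+1)`-st basis vector. -/
noncomputable def rot (n N k i : ℕ) (x : EuclideanSpace ℝ (Fin (n + 1))) :
    EuclideanSpace ℝ (Fin (n + 1)) :=
  Real.cos (Real.pi / 2 * (i / N)) • x + Real.sin (Real.pi / 2 * (i / N)) • ee n (k + 1)

theorem rot_zero (n N k : ℕ) : rot n N k 0 = id := by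
  funext x
  simp [rot]

theorem rot_N (n N k : ℕ) (hN : 0 < N) : rot n N k N = fun _ => ee n (k + 1) := by
  funext x
  have : (N : ℝ) ≠ 0 := by positivity
  simp [rot, div_self this]

theorem ee_norm (n k : ℕ) (hk : k < n + 1) : ‖ee n k‖ = 1 := by
  simp [ee, hk]

theorem ee_apply (n k : ℕ) (j : Fin (n + 1)) : ee n k j = if (j : ℕ) = k then 1 else 0 := by
  unfold ee
  split_ifs with h h1 h2
  · subst h1; simp
  · simp only [PiLp.single_apply]
    rw [if_neg]
    intro hj
    apply h1
    rw [hj]
  · omega
  · simp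

theorem norm_rot (N k i : ℕ) (hk : k < n) (x : EuclideanSpace ℝ (Fin (n + 1))) (hx : ‖x‖ = 1)
    (hx0 : ∀ j : Fin (n + 1), k < (j : ℕ) → x j = 0) : ‖rot n N k i x‖ = 1 := by
  have h1 : ‖rot n N k i x‖ ^ 2 = 1 := by
    have hin : inner ℝ x (ee n (k + 1)) = 0 := by
      rw [PiLp.inner_apply]
      apply Finset.sum_eq_zero
      intro j _
      rw [ee_apply]
      split_ifs with h
      · rw [hx0 j (by omega)]; simp
      · simp
    unfold rot
    rw [norm_add_sq_real, norm_smul, norm_smul, inner_smul_left, inner_smul_right, hin, hx,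
      ee_norm n (k + 1) (by omega)]
    simp only [Real.norm_eq_abs, mul_one, mul_zero, add_zero, sq_abs]
    exact Real.cos_sq_add_sin_sq _
  have h2 : 0 ≤ ‖rot n N k i x‖ := norm_nonneg _
  nlinarith

theorem rot_apply_zero (N k i : ℕ) (x : EuclideanSpace ℝ (Fin (n + 1)))
    (hx0 : ∀ j : Fin (n + 1), k < (j : ℕ) → x j = 0) (j : Fin (n + 1)) (hj : k + 1 < (j : ℕ)) :
    rot n N k i x j = 0 := by
  simp only [rot, PiLp.add_apply, PiLp.smul_apply, ee_apply]
  rw [hx0 j (by omega), if_neg (by omega)]
  simp

theorem dist_rot_same (N k i : ℕ) (x y : EuclideanSpace ℝ (Fin (n + 1))) :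
    dist (rot n N k i x) (rot n N k i y) ≤ dist x y := by
  unfold rot
  rw [dist_add_right, dist_smul₀]
  calc _ ≤ 1 * dist x y := by
        apply mul_le_mul_of_nonneg_right _ dist_nonneg
        rw [Real.norm_eq_abs]
        exact Real.abs_cos_le_one _
    _ = _ := one_mul _

theorem dist_rot_succ (N k i : ℕ) (hk : k < n) (hN : 0 < N)
    (x : EuclideanSpace ℝ (Fin (n + 1))) (hx : ‖x‖ = 1) :
    dist (rot n N k i x) (rot n N k (i + 1) x) ≤ Real.pi / N := by
  have hN' : (0 : ℝ) < N := by exact_mod_cast hN
  set a := Real.pi / 2 * ((i : ℝ) / N) with ha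
  set b := Real.pi / 2 * (((i + 1 : ℕ) : ℝ) / N) with hb
  have hab : |a - b| = Real.pi / N / 2 := by
    have : a - b = - (Real.pi / N / 2) := by
      rw [ha, hb]; push_cast; field_simp; ring
    rw [this, abs_neg, abs_of_nonneg (by positivity)]
  have h1 : |Real.cos a - Real.cos b| ≤ |a - b| := by
    have := Real.lipschitzWith_cos.dist_le_mul a b
    simpa [Real.dist_eq] using this
  have h2 : |Real.sin a - Real.sin b| ≤ |a - b| := by
    have := Real.lipschitzWith_sin.dist_le_mul a b
    simpa [Real.dist_eq] using this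
  rw [dist_eq_norm]
  have : rot n N k i x - rot n N k (i + 1) x
      = (Real.cos a - Real.cos b) • x + (Real.sin a - Real.sin b) • ee n (k + 1) := by
    simp only [rot, ← ha, ← hb]
    module
  rw [this]
  calc _ ≤ ‖(Real.cos a - Real.cos b) • x‖ + ‖(Real.sin a - Real.sin b) • ee n (k + 1)‖ :=
        norm_add_le _ _
    _ = |Real.cos a - Real.cos b| + |Real.sin a - Real.sin b| := by
        rw [norm_smul, norm_smul, hx, ee_norm n (k + 1) (by omega)]
        simp
    _ ≤ Real.pi / N := by linarith

/-- Admissible lists. -/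
def Adm (n N : ℕ) (k : ℕ) (l : List (EuclideanSpace ℝ (Fin (n + 1)))) : Prop :=
  l.length = k + 1 ∧ (∀ x ∈ l, ‖x‖ = 1 ∧ ∀ j : Fin (n + 1), k < (j : ℕ) → x j = 0) ∧
    ∀ x ∈ l, ∀ y ∈ l, dist x y ≤ k * (Real.pi / N)

theorem adm_zero (N : ℕ) : Adm n N 0 [ee n 0] := by
  refine ⟨by simp, ?_, ?_⟩
  · intro x hx
    simp only [List.mem_singleton] at hx
    subst hx
    refine ⟨ee_norm n 0 (by omega), ?_⟩
    intro j hj
    rw [ee_apply, if_neg (by omega)]
  · intro x hx y hy
    simp only [List.mem_singleton] at hx hy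
    subst hx; subst hy
    simp

theorem adm_neg (N k : ℕ) (l : List (EuclideanSpace ℝ (Fin (n + 1)))) (h : Adm n N k l) :
    Adm n N k (l.map Neg.neg) := by
  obtain ⟨h1, h2, h3⟩ := h
  refine ⟨by simpa using h1, ?_, ?_⟩
  · intro x hx
    obtain ⟨y, hy, rfl⟩ := List.mem_map.mp hx
    refine ⟨by rw [norm_neg]; exact (h2 y hy).1, ?_⟩
    intro j hj
    rw [PiLp.neg_apply, (h2 y hy).2 j hj, neg_zero]
  · intro x hx y hy
    obtain ⟨x', hx', rfl⟩ := List.mem_map.mp hx
    obtain ⟨y', hy', rfl⟩ := List.mem_map.mp hy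
    rw [dist_neg_neg]
    exact h3 x' hx' y' hy'

theorem adm_step (N k i : ℕ) (hk : k < n) (hi : i < N)
    (l1 : List (EuclideanSpace ℝ (Fin (n + 1)))) (a) (l2)
    (h : Adm n N k (l1 ++ a :: l2)) :
    Adm n N (k + 1) (l1.map (rot n N k i) ++ rot n N k i a :: rot n N k (i + 1) a ::
      l2.map (rot n N k (i + 1))) := by
  obtain ⟨h1, h2, h3⟩ := h
  have hmem : ∀ x ∈ (l1.map (rot n N k i) ++ rot n N k i a :: rot n N k (i + 1) a ::
      l2.map (rot n N k (i + 1))), ∃ y ∈ l1 ++ a :: l2,
        x = rot n N k i y ∨ x = rot n N k (i + 1) y := by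
    intro x hx
    simp only [List.mem_append, List.mem_map, List.mem_cons] at hx
    rcases hx with ⟨y, hy, rfl⟩ | rfl | rfl | ⟨y, hy, rfl⟩
    · exact ⟨y, by simp [hy], Or.inl rfl⟩
    · exact ⟨a, by simp, Or.inl rfl⟩
    · exact ⟨a, by simp, Or.inr rfl⟩
    · exact ⟨y, by simp [hy], Or.inr rfl⟩
  refine ⟨?_, ?_, ?_⟩
  · simp at h1 ⊢; omega
  · intro x hx
    obtain ⟨y, hy, h | h⟩ := hmem x hx
    · subst h
      exact ⟨norm_rot N k i hk y (h2 y hy).1 (h2 y hy).2,
        fun j hj => rot_apply_zero N k i y (h2 y hy).2 j hj⟩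
    · subst h
      exact ⟨norm_rot N k (i + 1) hk y (h2 y hy).1 (h2 y hy).2,
        fun j hj => rot_apply_zero N k (i + 1) y (h2 y hy).2 j hj⟩
  · intro x hx y hy
    obtain ⟨x', hx', hxx⟩ := hmem x hx
    obtain ⟨y', hy', hyy⟩ := hmem y hy
    have hN : 0 < N := by omega
    have hd := h3 x' hx' y' hy'
    have hp : (0 : ℝ) ≤ Real.pi / N := by positivity
    have e1 := dist_rot_succ N k i hk hN y' (h2 y' hy').1
    have e2 := dist_rot_same N k i x' y'
    have e3 := dist_rot_same N k (i + 1) x' y'
    have e4 := dist_triangle (rot n N k i x') (rot n N k i y') (rot n N k (i + 1) y')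
    have e5 := dist_triangle (rot n N k (i + 1) x') (rot n N k (i + 1) y') (rot n N k i y')
    rw [dist_comm (rot n N k (i + 1) y') (rot n N k i y')] at e5
    push_cast
    rcases hxx with rfl | rfl <;> rcases hyy with rfl | rfl <;> linarith

theorem exists_hemisphere (m : ℕ) : ∃ σ : EuclideanSpace ℝ (Fin m) → ZMod 2,
    ∀ x, x ≠ 0 → σ (-x) = σ x + 1 := by
  classical
  let P : EuclideanSpace ℝ (Fin m) → Prop := fun x => ∃ i, 0 < x i ∧ ∀ j < i, x j = 0
  refine ⟨fun x => if P x then 1 else 0, ?_⟩
  intro x hx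
  have h1 : P x ∨ P (-x) := by
    have hex : ∃ i, x i ≠ 0 := by
      by_contra hcon
      push Not at hcon
      apply hx
      ext i
      simpa using hcon i
    obtain ⟨i, hi, hmin⟩ := WellFounded.has_min (wellFounded_lt (α := Fin m))
      {i | x i ≠ 0} hex
    have hz : ∀ j < i, x j = 0 := by
      intro j hj
      by_contra hne
      exact hmin j hne hj
    rcases lt_or_gt_of_ne hi with h | h
    · right
      refine ⟨i, by simpa using h, ?_⟩
      intro j hj
      simp [hz j hj]
    · left
      exact ⟨i, h, hz⟩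
  have h2 : ¬ (P x ∧ P (-x)) := by
    rintro ⟨⟨i, hi, hi'⟩, ⟨j, hj, hj'⟩⟩
    rcases lt_trichotomy i j with h | h | h
    · have := hj' i h
      simp at this
      linarith
    · subst h
      simp at hj
      linarith
    · have := hi' j h
      simp at hj
      linarith
  by_cases hP : P x
  · have hP' : ¬ P (-x) := fun h => h2 ⟨hP, h⟩
    simp only [hP, hP', if_true, if_false]
    decide
  · have hP' : P (-x) := h1.resolve_left hP
    simp only [hP, hP', if_true, if_false]
    decide

end Geom

end BU

open BU in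
/-- Chunk A. Borsuk-Ulam theorem (odd maps `S^n → ℝ^n` vanish somewhere). -/
theorem borsuk_ulam (n : ℕ) (f : EuclideanSpace ℝ (Fin (n + 1)) → EuclideanSpace ℝ (Fin n))
    (hf : ContinuousOn f (Metric.sphere 0 1))
    (hodd : ∀ x ∈ Metric.sphere (0 : EuclideanSpace ℝ (Fin (n + 1))) 1, f (-x) = - f x) :
    ∃ x ∈ Metric.sphere (0 : EuclideanSpace ℝ (Fin (n + 1))) 1, f x = 0 := by
  classical
  by_contra hcon
  push Not at hcon
  set S := Metric.sphere (0 : EuclideanSpace ℝ (Fin (n + 1))) 1 with hS
  let g : EuclideanSpace ℝ (Fin (n + 1)) → (Fin n → ℝ) := fun x i => f x i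
  have hg : ContinuousOn g S := by
    rw [continuousOn_pi]
    intro i
    exact (EuclideanSpace.proj i).continuous.comp_continuousOn hf
  have hcomp : IsCompact S := isCompact_sphere 0 1
  have hne : S.Nonempty := ⟨ee n 0, by simp [hS, ee_norm n 0]⟩
  obtain ⟨x0, hx0, hmin⟩ := hcomp.exists_isMinOn hne hg.norm
  have hgne : ∀ x ∈ S, g x ≠ 0 := by
    intro x hx h0
    apply hcon x hx
    ext i
    exact congrFun h0 i
  set d := ‖g x0‖ with hd
  have hdpos : 0 < d := norm_pos_iff.mpr (hgne x0 hx0)
  have hdle : ∀ x ∈ S, d ≤ ‖g x‖ := fun x hx => hmin hx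
  have huc := hcomp.uniformContinuousOn_of_continuous hg
  rw [Metric.uniformContinuousOn_iff] at huc
  obtain ⟨δ, hδ, huc⟩ := huc d hdpos
  obtain ⟨N, hN⟩ := exists_nat_gt (n * Real.pi / δ)
  have hNpos : 0 < N := by
    rcases Nat.eq_zero_or_pos N with h | h
    · subst h
      have : (0 : ℝ) ≤ n * Real.pi / δ := by positivity
      simp at hN
      linarith
    · exact h
  have hN' : (0 : ℝ) < N := by exact_mod_cast hNpos
  have hsmall : n * (Real.pi / N) < δ := by
    rw [div_lt_iff₀ hδ] at hN
    rw [← mul_div_assoc, div_lt_iff₀ hN']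
    linarith
  obtain ⟨σ, hσ⟩ := exists_hemisphere (n + 1)
  let s : ℕ → EuclideanSpace ℝ (Fin (n + 1)) → ZMod 2 := fun i x =>
    if h : i < n then (if 0 < g x ⟨i, h⟩ then 1 else if g x ⟨i, h⟩ < 0 then 0 else σ x) else σ x
  have hgneg : ∀ x ∈ S, ∀ i, g (-x) i = - g x i := by
    intro x hx i
    simp only [g]
    rw [hodd x hx]
    simp
  have hs : ∀ x, ‖x‖ = 1 → ∀ i, s i (-x) = s i x + 1 := by
    intro x hx i
    have hxS : x ∈ S := by simp [hS, hx]
    have hx0 : x ≠ 0 := by
      intro h
      rw [h] at hx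
      simp at hx
    simp only [s]
    split_ifs with hi h1 h2 h3 h4 h5 h6 h7
    all_goals first
      | exact hσ x hx0
      | (rw [hgneg x hxS] at *; first | (exfalso; linarith) | decide)
      | decide
  have hone : chain (ee n 0) (rot n N) N n (cup s n) = 1 := by
    apply chain_cup (ee n 0) (rot n N) N n s (Adm n N) (adm_zero N) (adm_neg N)
      (fun k i hk hi l1 a l2 h => adm_step N k i hk hi l1 a l2 h)
      (by rintro k l ⟨h1, _⟩ rfl; simp at h1)
      (by
        rintro k l ⟨_, h2, _⟩ x hx i
        exact hs x (h2 x hx).1 i)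
      (fun k => ee n (k + 1)) n le_rfl (fun j _ => rot_zero n N j) (fun j _ => rot_N n N j hNpos)
  have hzero : chain (ee n 0) (rot n N) N n (cup s n) = chain (ee n 0) (rot n N) N n (fun _ => 0) := by
    apply chain_congr (ee n 0) (rot n N) N n (Adm n N) (adm_zero N) (adm_neg N)
      (fun k i hk hi l1 a l2 h => adm_step N k i hk hi l1 a l2 h) n le_rfl
    rintro l ⟨h1, h2, h3⟩
    obtain ⟨x, hx⟩ : ∃ x, x ∈ l := List.exists_mem_of_length_pos (by omega)
    have hxS : x ∈ S := by simp [hS, (h2 x hx).1]
    have hex : ∃ i, d ≤ |g x i| := by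
      by_contra hc
      push Not at hc
      have : ‖g x‖ < d := (pi_norm_lt_iff hdpos).mpr hc
      linarith [hdle x hxS]
    obtain ⟨i, hi⟩ := hex
    apply cup_eq_zero s n l h1 i i.2 (if 0 < g x i then 1 else 0)
    intro y hy
    have hyS : y ∈ S := by simp [hS, (h2 y hy).1]
    have hdist := huc x hxS y hyS (lt_of_le_of_lt (h3 x hx y hy) hsmall)
    have hlt : |g x i - g y i| < d := by
      have := lt_of_le_of_lt (dist_le_pi_dist (g x) (g y) i) hdist
      rwa [Real.dist_eq] at this
    have hlt' := abs_lt.mp hlt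
    simp only [s, i.2, dif_pos, Fin.eta]
    rcases lt_trichotomy (g x i) 0 with h | h | h
    · rw [abs_of_neg h] at hi
      have hy' : g y i < 0 := by linarith [hlt'.1]
      rw [if_neg (by linarith), if_pos hy', if_neg (by linarith)]
    · rw [h] at hi
      simp at hi
      linarith
    · rw [abs_of_pos h] at hi
      have hy' : 0 < g y i := by linarith [hlt'.2]
      rw [if_pos hy', if_pos h]
  rw [hone, chain_zero] at hzero
  exact absurd hzero (by decide)

end QT
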