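import Mathlib
import Crest.Agent.Lib.QT.BorsukUlam

/-! Row 137, chunk B: Brouwer x Borsuk-Ulam coincidence lemma. -/

set_option autoImplicit false

namespace QT

open Module Metric

/-- Borsuk-Ulam for odd continuous maps on the punctured space. -/
theorem bb_punctured {H K : Type*}
    [NormedAddCommGroup H] [NormedSpace ℝ H] [FiniteDimensional ℝ H]
    [NormedAddCommGroup K] [NormedSpace ℝ K] [FiniteDimensional ℝ K]
    (hdim : finrank ℝ H = finrank ℝ K + 1) (f : H → K) (hf : Continuous f)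
    (hodd : ∀ x, f (-x) = - f x) : ∃ x, x ≠ 0 ∧ f x = 0 := by
  let n := finrank ℝ K
  let e : EuclideanSpace ℝ (Fin (n + 1)) ≃L[ℝ] H :=
    ContinuousLinearEquiv.ofFinrankEq (by rw [finrank_euclideanSpace_fin, hdim])
  let g : K ≃L[ℝ] EuclideanSpace ℝ (Fin n) :=
    ContinuousLinearEquiv.ofFinrankEq (by rw [finrank_euclideanSpace_fin])
  obtain ⟨x, hx, hx0⟩ := borsuk_ulam n (fun x => g (f (e x)))
    (g.continuous.comp (hf.comp e.continuous)).continuousOn
    (fun x _ => by simp [hodd])
  refine ⟨e x, ?_, ?_⟩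
  · intro h
    have h0 : x = 0 := by simpa using h
    rw [h0] at hx
    simp at hx
  · simpa using hx0

/-- The nearest point retraction onto a compact convex set. -/
theorem bb_proj {E : Type*} [NormedAddCommGroup E] [InnerProductSpace ℝ E]
    (X : Set E) (hXc : IsCompact X) (hXconv : Convex ℝ X) (hXne : X.Nonempty) :
    ∃ π : E → E, Continuous π ∧ (∀ x, π x ∈ X) ∧ ∀ x ∈ X, π x = x := by
  have hex : ∀ u : E, ∃ v ∈ X, ∀ w ∈ X, inner ℝ (u - v) (w - v) ≤ 0 := by
    intro u
    obtain ⟨v, hv, h⟩ := exists_norm_eq_iInf_of_complete_convex hXne hXc.isComplete hXconv u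
    exact ⟨v, hv, (norm_eq_iInf_iff_real_inner_le_zero hXconv hv).1 h⟩
  choose π hπ hin using hex
  refine ⟨π, ?_, hπ, ?_⟩
  · have hlip : ∀ x y, ‖π x - π y‖ ≤ ‖x - y‖ := by
      intro x y
      have h1 := hin x (π y) (hπ y)
      have h2 := hin y (π x) (hπ x)
      have h3 : ‖π x - π y‖ * ‖π x - π y‖ ≤ inner ℝ (x - y) (π x - π y) := by
        rw [← real_inner_self_eq_norm_mul_norm]
        have e1 : inner ℝ (x - y) (π x - π y) - inner ℝ (π x - π y) (π x - π y) =
            - inner ℝ (x - π x) (π y - π x) - inner ℝ (y - π y) (π x - π y) := by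
          simp only [inner_sub_left, inner_sub_right]
          ring
        linarith
      have h4 : inner ℝ (x - y) (π x - π y) ≤ ‖x - y‖ * ‖π x - π y‖ := real_inner_le_norm _ _
      rcases eq_or_lt_of_le (norm_nonneg (π x - π y)) with h | h
      · rw [← h]; exact norm_nonneg _
      · exact le_of_mul_le_mul_right (h3.trans h4) h
    have : LipschitzWith 1 π := LipschitzWith.of_dist_le_mul fun x y => by
      rw [dist_eq_norm, dist_eq_norm]; simpa using hlip x y
    exact this.continuous
  · intro x hx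
    have h := hin x x hx
    have : x - π x = 0 := by
      rw [← inner_self_eq_zero (𝕜 := ℝ)]
      exact le_antisymm h real_inner_self_nonneg
    exact (sub_eq_zero.1 this).symm

/-- Chunk B. -/
theorem brouwer_borsuk {V E F : Type*}
    [NormedAddCommGroup V] [InnerProductSpace ℝ V] [FiniteDimensional ℝ V]
    [NormedAddCommGroup E] [InnerProductSpace ℝ E] [FiniteDimensional ℝ E]
    [NormedAddCommGroup F] [NormedSpace ℝ F] [FiniteDimensional ℝ F]
    (hdim : Module.finrank ℝ V = Module.finrank ℝ F + 1)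
    (X : Set E) (hXc : IsCompact X) (hXconv : Convex ℝ X) (hXne : X.Nonempty)
    (G : E → V → F) (hG : ContinuousOn (fun p : E × V => G p.1 p.2) (X ×ˢ Metric.sphere 0 1))
    (hGodd : ∀ W ∈ X, ∀ v ∈ Metric.sphere (0 : V) 1, G W (-v) = - G W v)
    (ψ : E → V → E) (hψ : ContinuousOn (fun p : E × V => ψ p.1 p.2) (X ×ˢ Metric.sphere 0 1))
    (hψeven : ∀ W ∈ X, ∀ v ∈ Metric.sphere (0 : V) 1, ψ W (-v) = ψ W v)
    (hψmem : ∀ W ∈ X, ∀ v ∈ Metric.sphere (0 : V) 1, ψ W v ∈ X) :
    ∃ W ∈ X, ∃ v ∈ Metric.sphere (0 : V) 1, G W v = 0 ∧ ψ W v = W := by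
  classical
  obtain ⟨π, hπc, hπX, hπid⟩ := bb_proj X hXc hXconv hXne
  let m := finrank ℝ V
  let b : OrthonormalBasis (Fin m) ℝ V := stdOrthonormalBasis ℝ V
  -- coordinates
  let co : Fin m → V → ℝ := fun k v => inner ℝ (b k) v
  have hco : ∀ k, Continuous (co k) := fun k => continuous_const.inner continuous_id
  have hcole : ∀ k v, |co k v| ≤ ‖v‖ := fun k v => by
    have := abs_real_inner_le_norm (b k) v
    simpa [co] using this
  have hcosum : ∀ v, ∑ k, co k v * co k v = ‖v‖ ^ 2 := fun v => by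
    rw [← b.sum_sq_norm_inner_right v]
    refine Finset.sum_congr rfl fun k _ => ?_
    simp [co, sq, Real.norm_eq_abs]
  -- compactness of the sphere and bounds
  have hK : IsCompact (X ×ˢ Metric.sphere (0 : V) 1) := hXc.prod (isCompact_sphere 0 1)
  obtain ⟨B1, hB1⟩ := (hK.image_of_continuousOn hG).isBounded.exists_norm_le
  obtain ⟨B2, hB2⟩ := hXc.isBounded.exists_norm_le
  have hG' : ∀ W ∈ X, ∀ v ∈ Metric.sphere (0 : V) 1, ‖G W v‖ ≤ B1 := fun W hW v hv =>
    hB1 _ ⟨(W, v), ⟨hW, hv⟩, rfl⟩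
  -- the auxiliary maps
  let vh : V → V := fun v => ‖v‖⁻¹ • v
  have hvh : ∀ v, v ≠ 0 → vh v ∈ Metric.sphere (0 : V) 1 := fun v hv => by
    simp only [vh, mem_sphere_iff_norm, sub_zero, norm_smul, norm_inv, norm_norm]
    exact inv_mul_cancel₀ (norm_ne_zero_iff.2 hv)
  let Kf : V × (Fin m → E) → E := fun p => π ((‖p.1‖ ^ 2)⁻¹ • ∑ k, co k p.1 • p.2 k)
  have hKX : ∀ p, Kf p ∈ X := fun p => hπX _
  let f : V × (Fin m → E) → F × (Fin m → E) := fun p =>
    (‖p.1‖ • G (Kf p) (vh p.1), fun k => p.2 k - co k p.1 • ψ (Kf p) (vh p.1))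
  -- oddness
  have hvhneg : ∀ v, vh (-v) = - vh v := fun v => by simp [vh]
  have hKneg : ∀ p, Kf (-p) = Kf p := fun p => by
    simp only [Kf, co, Prod.fst_neg, Prod.snd_neg, norm_neg, inner_neg_right, Pi.neg_apply,
      smul_neg, neg_smul, neg_neg]
  have hodd : ∀ p, f (-p) = - f p := by
    intro p
    by_cases hv : p.1 = 0
    · have h1 : (-p).1 = 0 := by simp [hv]
      ext k
      · simp [f, h1, hv]
      · simp [f, h1, hv, co]
    · have hs := hvh p.1 hv
      have e1 : G (Kf (-p)) (vh (-p).1) = - G (Kf p) (vh p.1) := by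
        rw [hKneg, Prod.fst_neg, hvhneg]; exact hGodd _ (hKX p) _ hs
      have e2 : ψ (Kf (-p)) (vh (-p).1) = ψ (Kf p) (vh p.1) := by
        rw [hKneg, Prod.fst_neg, hvhneg]; exact hψeven _ (hKX p) _ hs
      ext k
      · show ‖(-p).1‖ • G (Kf (-p)) (vh (-p).1) = -(‖p.1‖ • G (Kf p) (vh p.1))
        rw [e1, Prod.fst_neg, norm_neg, smul_neg]
      · show (-p).2 k - co k (-p).1 • ψ (Kf (-p)) (vh (-p).1) =
          -(p.2 k - co k p.1 • ψ (Kf p) (vh p.1))
        have e3 : co k (-p).1 = - co k p.1 := by simp [co]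
        rw [e2, e3, Prod.snd_neg, Pi.neg_apply, neg_smul]
        abel
  -- continuity
  have hfc : Continuous f := by
    rw [continuous_iff_continuousAt]
    intro p
    by_cases hv : p.1 = 0
    · -- at `v = 0`
      obtain ⟨v0, w0⟩ := p
      simp only at hv
      subst hv
      have hf0 : f (0, w0) = (0, w0) := by
        ext k
        · simp [f]
        · simp [f, co]
      rw [ContinuousAt, hf0]
      refine Filter.Tendsto.prodMk_nhds ?_ ?_
      · have hbd : ∀ q : V × (Fin m → E), ‖‖q.1‖ • G (Kf q) (vh q.1)‖ ≤ ‖q.1‖ * B1 := by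
          intro q
          rw [norm_smul, norm_norm]
          by_cases hq : q.1 = 0
          · simp [hq]
          · exact mul_le_mul_of_nonneg_left (hG' _ (hKX q) _ (hvh _ hq)) (norm_nonneg _)
        have ht : Filter.Tendsto (fun q : V × (Fin m → E) => ‖q.1‖ * B1)
            (nhds ((0 : V), w0)) (nhds 0) := by
          have : Continuous (fun q : V × (Fin m → E) => ‖q.1‖ * B1) := by fun_prop
          have h := this.tendsto ((0 : V), w0)
          simpa using h
        exact squeeze_zero_norm hbd ht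
      · rw [tendsto_pi_nhds]
        intro k
        have hbd : ∀ q : V × (Fin m → E), ‖co k q.1 • ψ (Kf q) (vh q.1)‖ ≤ ‖q.1‖ * B2 := by
          intro q
          rw [norm_smul, Real.norm_eq_abs]
          by_cases hq : q.1 = 0
          · simp [hq, co]
          · exact mul_le_mul (hcole k _) (hB2 _ (hψmem _ (hKX q) _ (hvh _ hq))) (norm_nonneg _)
              (norm_nonneg _)
        have ht : Filter.Tendsto (fun q : V × (Fin m → E) => ‖q.1‖ * B2)
            (nhds ((0 : V), w0)) (nhds 0) := by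
          have : Continuous (fun q : V × (Fin m → E) => ‖q.1‖ * B2) := by fun_prop
          have h := this.tendsto ((0 : V), w0)
          simpa using h
        have h1 := squeeze_zero_norm hbd ht
        have h2 : Filter.Tendsto (fun q : V × (Fin m → E) => q.2 k)
            (nhds ((0 : V), w0)) (nhds (w0 k)) := by
          have : Continuous (fun q : V × (Fin m → E) => q.2 k) := by fun_prop
          exact this.tendsto ((0 : V), w0)
        have h3 := h2.sub h1
        simpa using h3
    · -- at `v ≠ 0`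
      have hU : {q : V × (Fin m → E) | q.1 ≠ 0} ∈ nhds p :=
        (isOpen_compl_singleton.preimage continuous_fst).mem_nhds hv
      have hvhc : ContinuousOn (fun q : V × (Fin m → E) => vh q.1) {q | q.1 ≠ 0} := by
        apply ContinuousOn.smul
        · exact ContinuousOn.inv₀ (by fun_prop) (fun q hq => norm_ne_zero_iff.2 hq)
        · fun_prop
      have hKc : ContinuousOn Kf {q | q.1 ≠ 0} := by
        apply hπc.comp_continuousOn
        apply ContinuousOn.smul
        · exact ContinuousOn.inv₀ (by fun_prop)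
            (fun q hq => pow_ne_zero 2 (norm_ne_zero_iff.2 hq))
        · apply Continuous.continuousOn
          refine continuous_finsetSum _ fun k _ => ?_
          exact ((hco k).comp continuous_fst).smul (by fun_prop)
      have hpair : ContinuousOn (fun q : V × (Fin m → E) => (Kf q, vh q.1)) {q | q.1 ≠ 0} :=
        hKc.prodMk hvhc
      have hmaps : Set.MapsTo (fun q : V × (Fin m → E) => (Kf q, vh q.1)) {q | q.1 ≠ 0}
          (X ×ˢ Metric.sphere (0 : V) 1) := fun q hq => ⟨hKX q, hvh _ hq⟩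
      have hGc : ContinuousOn (fun q : V × (Fin m → E) => G (Kf q) (vh q.1)) {q | q.1 ≠ 0} :=
        hG.comp hpair hmaps
      have hψc : ContinuousOn (fun q : V × (Fin m → E) => ψ (Kf q) (vh q.1)) {q | q.1 ≠ 0} :=
        hψ.comp hpair hmaps
      have hfo : ContinuousOn f {q | q.1 ≠ 0} := by
        refine ContinuousOn.prodMk ?_ ?_
        · exact ContinuousOn.smul (by fun_prop) hGc
        · rw [continuousOn_pi]
          intro k
          refine ContinuousOn.sub (by fun_prop) ?_
          exact ContinuousOn.smul ((hco k).comp continuous_fst).continuousOn hψc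
      exact hfo.continuousAt hU
  -- Borsuk-Ulam
  have hd : finrank ℝ (V × (Fin m → E)) = finrank ℝ (F × (Fin m → E)) + 1 := by
    rw [Module.finrank_prod, Module.finrank_prod, hdim]; ring
  obtain ⟨p, hp0, hfp⟩ := bb_punctured hd f hfc hodd
  have h1 : ‖p.1‖ • G (Kf p) (vh p.1) = 0 := congrArg Prod.fst hfp
  have h2 : ∀ k, p.2 k = co k p.1 • ψ (Kf p) (vh p.1) := fun k => by
    have := congrFun (congrArg Prod.snd hfp) k
    exact sub_eq_zero.1 this
  have hv : p.1 ≠ 0 := by
    intro hv
    apply hp0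
    refine Prod.ext hv ?_
    funext k
    rw [h2 k, hv]
    simp [co]
  have hn : ‖p.1‖ ≠ 0 := norm_ne_zero_iff.2 hv
  have hs := hvh p.1 hv
  have hψX := hψmem _ (hKX p) _ hs
  have hsum : (‖p.1‖ ^ 2)⁻¹ • ∑ k, co k p.1 • p.2 k = ψ (Kf p) (vh p.1) := by
    have : ∑ k, co k p.1 • p.2 k = (‖p.1‖ ^ 2) • ψ (Kf p) (vh p.1) := by
      rw [← hcosum, Finset.sum_smul]
      refine Finset.sum_congr rfl fun k _ => ?_
      conv_lhs => rw [h2 k]
      rw [smul_smul]
    rw [this, smul_smul, inv_mul_cancel₀ (pow_ne_zero 2 hn), one_smul]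
  have hK' : Kf p = ψ (Kf p) (vh p.1) := by
    have : Kf p = π ((‖p.1‖ ^ 2)⁻¹ • ∑ k, co k p.1 • p.2 k) := rfl
    rw [hsum, hπid _ hψX] at this
    exact this
  exact ⟨Kf p, hKX p, vh p.1, hs, (smul_eq_zero.1 h1).resolve_left hn, hK'.symm⟩

end QT
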