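import Mathlib
import Crest.Agent.Lib.QT.Defs
import Crest.Agent.Lib.QT.BrouwerBorsuk

/-! Row 137, chunk C: topological obstruction. -/

set_option autoImplicit false

open scoped Matrix.Norms.L2Operator Matrix ComplexOrder

namespace QT

section obsalg

variable {b M : ℕ}

/-- `B = Zᴴ Z + d`. -/
noncomputable def obsB (d : ℝ) (Z : Matrix (Fin b) (Fin M) ℂ) : Matrix (Fin M) (Fin M) ℂ :=
  Zᴴ * Z + (d : ℂ) • (1 : Matrix (Fin M) (Fin M) ℂ)

/-- `W = 1 - Z B⁻¹ Zᴴ = d (Z Zᴴ + d)⁻¹`. -/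
noncomputable def obsW (d : ℝ) (Z : Matrix (Fin b) (Fin M) ℂ) : Matrix (Fin b) (Fin b) ℂ :=
  1 - Z * (obsB d Z)⁻¹ * Zᴴ

theorem obsB_posDef {d : ℝ} (hd : 0 < d) (Z : Matrix (Fin b) (Fin M) ℂ) : (obsB d Z).PosDef := by
  unfold obsB
  have h1 : ((d : ℂ) • (1 : Matrix (Fin M) (Fin M) ℂ)).PosDef :=
    Matrix.PosDef.one.smul (by exact_mod_cast hd)
  exact Matrix.PosDef.posSemidef_add (Matrix.posSemidef_conjTranspose_mul_self Z) h1

theorem obsB_mul_inv {d : ℝ} (hd : 0 < d) (Z : Matrix (Fin b) (Fin M) ℂ) :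
    obsB d Z * (obsB d Z)⁻¹ = 1 := by
  have h := (obsB_posDef hd Z).isUnit
  rw [Matrix.isUnit_iff_isUnit_det] at h
  exact Matrix.mul_nonsing_inv _ h

theorem obsB_inv_mul {d : ℝ} (hd : 0 < d) (Z : Matrix (Fin b) (Fin M) ℂ) :
    (obsB d Z)⁻¹ * obsB d Z = 1 := by
  have h := (obsB_posDef hd Z).isUnit
  rw [Matrix.isUnit_iff_isUnit_det] at h
  exact Matrix.nonsing_inv_mul _ h

theorem obsW_one_sub {d : ℝ} (hd : 0 < d) (Z : Matrix (Fin b) (Fin M) ℂ) :
    (1 - obsW d Z).PosSemidef := by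
  unfold obsW
  rw [sub_sub_cancel]
  exact ((obsB_posDef hd Z).inv.posSemidef).mul_mul_conjTranspose_same Z

theorem obsB_gram {d : ℝ} (Z : Matrix (Fin b) (Fin M) ℂ) :
    Zᴴ * Z = obsB d Z - (d : ℂ) • (1 : Matrix (Fin M) (Fin M) ℂ) := by
  unfold obsB; simp

theorem obsW_mul {d : ℝ} (hd : 0 < d) (Z : Matrix (Fin b) (Fin M) ℂ) :
    obsW d Z * Z = (d : ℂ) • (Z * (obsB d Z)⁻¹) := by
  have h1 := obsB_inv_mul hd Z
  have h2 : Z * (obsB d Z)⁻¹ * Zᴴ * Z = Z - (d : ℂ) • (Z * (obsB d Z)⁻¹) := by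
    rw [Matrix.mul_assoc, Matrix.mul_assoc, obsB_gram (d := d), Matrix.mul_sub, h1, Matrix.mul_sub]
    simp
  unfold obsW
  rw [Matrix.sub_mul, h2]
  simp

theorem obsW_posSemidef {d : ℝ} (hd : 0 < d) (Z : Matrix (Fin b) (Fin M) ℂ) :
    (obsW d Z).PosSemidef := by
  have hB := (obsB_posDef hd Z).inv.isHermitian
  have hW : (obsW d Z).IsHermitian := by
    have := (obsW_one_sub hd Z).isHermitian
    have h2 : obsW d Z = 1 - (1 - obsW d Z) := by simp
    rw [h2]
    exact Matrix.isHermitian_one.sub this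
  have hkey : obsW d Z = obsW d Z * (obsW d Z)ᴴ
      + (d : ℂ) • ((Z * (obsB d Z)⁻¹) * (Z * (obsB d Z)⁻¹)ᴴ) := by
    rw [hW.eq]
    have h3 : obsW d Z * obsW d Z = obsW d Z - obsW d Z * Z * (obsB d Z)⁻¹ * Zᴴ := by
      conv_lhs => rw [show obsW d Z * obsW d Z
        = obsW d Z * (1 - Z * (obsB d Z)⁻¹ * Zᴴ) from rfl]
      rw [Matrix.mul_sub, Matrix.mul_one]
      simp only [Matrix.mul_assoc]
    rw [h3, obsW_mul hd, Matrix.conjTranspose_mul, hB.eq]
    simp [Matrix.mul_assoc]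
  rw [hkey]
  exact (Matrix.posSemidef_self_mul_conjTranspose _).add
    ((Matrix.posSemidef_self_mul_conjTranspose _).smul (by exact_mod_cast hd.le))

theorem obsW_trace {d : ℝ} (hd : 0 < d) (Z : Matrix (Fin b) (Fin M) ℂ) :
    (Matrix.trace (1 - obsW d Z)).re ≤ (M : ℝ) := by
  have h1 : Matrix.trace (1 - obsW d Z) = Matrix.trace ((1 : Matrix (Fin M) (Fin M) ℂ)
      - (d : ℂ) • (obsB d Z)⁻¹) := by
    unfold obsW
    rw [sub_sub_cancel, Matrix.mul_assoc, Matrix.trace_mul_comm, Matrix.mul_assoc,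
      obsB_gram (d := d), Matrix.mul_sub, obsB_inv_mul hd]
    simp
  rw [h1, Matrix.trace_sub, Matrix.trace_one, Matrix.trace_smul]
  have h2 : 0 ≤ Matrix.trace (obsB d Z)⁻¹ := (obsB_posDef hd Z).inv.posSemidef.trace_nonneg
  have h3 : 0 ≤ (d : ℂ) • Matrix.trace (obsB d Z)⁻¹ := by
    rw [smul_eq_mul]
    exact mul_nonneg (by exact_mod_cast hd.le) h2
  have h4 := (Complex.nonneg_iff.mp h3).1
  simp only [Complex.sub_re, Fintype.card_fin, Complex.natCast_re]
  linarith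

theorem obsW_quad {d : ℝ} (hd : 0 < d) (Z : Matrix (Fin b) (Fin M) ℂ) :
    (Matrix.trace (Zᴴ * (obsW d Z * Z))).re ≤ d * M := by
  have h1 : Matrix.trace (Zᴴ * (obsW d Z * Z)) = (d : ℂ) * Matrix.trace (1 - obsW d Z) := by
    rw [obsW_mul hd]
    unfold obsW
    rw [sub_sub_cancel, Matrix.mul_smul, Matrix.trace_smul, smul_eq_mul, Matrix.trace_mul_comm]
  rw [h1, Complex.re_ofReal_mul]
  exact mul_le_mul_of_nonneg_left (obsW_trace hd Z) hd.le


theorem continuous_obsB (d : ℝ) :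
    Continuous (obsB d : Matrix (Fin b) (Fin M) ℂ → Matrix (Fin M) (Fin M) ℂ) := by
  unfold obsB
  fun_prop

theorem continuous_obsW {d : ℝ} (hd : 0 < d) :
    Continuous (obsW d : Matrix (Fin b) (Fin M) ℂ → Matrix (Fin b) (Fin b) ℂ) := by
  have h1 : Continuous fun Z : Matrix (Fin b) (Fin M) ℂ => (obsB d Z)⁻¹ := by
    have e : (fun Z : Matrix (Fin b) (Fin M) ℂ => (obsB d Z)⁻¹)
        = fun Z => ((obsB d Z).det)⁻¹ • (obsB d Z).adjugate := by
      funext Z
      rw [Matrix.inv_def, Ring.inverse_eq_inv']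
    rw [e]
    have hdet : Continuous fun Z : Matrix (Fin b) (Fin M) ℂ => (obsB d Z).det :=
      (continuous_obsB d).matrix_det
    refine (hdet.inv₀ fun Z => ?_).smul (continuous_obsB d).matrix_adjugate
    have h := (obsB_posDef hd Z).isUnit
    rw [Matrix.isUnit_iff_isUnit_det] at h
    exact h.ne_zero
  unfold obsW
  fun_prop

end obsalg

section obstop


theorem obs_exists_isometry {V W : Type*} [NormedAddCommGroup V] [InnerProductSpace ℝ V]
    [FiniteDimensional ℝ V] [NormedAddCommGroup W] [InnerProductSpace ℝ W]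
    [FiniteDimensional ℝ W] (h : Module.finrank ℝ V ≤ Module.finrank ℝ W) :
    Nonempty (V →ₗᵢ[ℝ] W) := by
  let v := stdOrthonormalBasis ℝ V
  let w := stdOrthonormalBasis ℝ W
  let f : V →ₗ[ℝ] W := v.toBasis.constr ℝ (fun i => w (Fin.castLE h i))
  refine ⟨f.isometryOfOrthonormal (v := v.toBasis) ?_ ?_⟩
  · simp [v.orthonormal]
  · have : (⇑f ∘ ⇑v.toBasis) = w ∘ (Fin.castLE h) := by
      funext i
      simp [f]
    rw [this]
    exact w.orthonormal.comp _ (Fin.castLE_injective h)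

/-- Real inner product space of matrices. -/
abbrev ObsE (b : ℕ) : Type := EuclideanSpace ℂ (Fin b × Fin b)

def obsOf {b : ℕ} (x : ObsE b) : Matrix (Fin b) (Fin b) ℂ := Matrix.of fun i j => x (i, j)

noncomputable def obsTo {b : ℕ} (W : Matrix (Fin b) (Fin b) ℂ) : ObsE b :=
  WithLp.toLp 2 (fun ij : Fin b × Fin b => W ij.1 ij.2)

@[simp] theorem obsOf_obsTo {b : ℕ} (W : Matrix (Fin b) (Fin b) ℂ) : obsOf (obsTo W) = W := by
  ext i j; rfl

@[simp] theorem obsTo_obsOf {b : ℕ} (x : ObsE b) : obsTo (obsOf x) = x := by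
  ext ij; rfl

theorem continuous_obsOf {b : ℕ} : Continuous (obsOf (b := b)) := by
  unfold obsOf
  refine continuous_matrix fun i j => ?_
  simp only [Matrix.of_apply]
  fun_prop

theorem continuous_obsTo {b : ℕ} : Continuous (obsTo (b := b)) := by
  unfold obsTo
  fun_prop

theorem obs_isClosed (b : ℕ) : IsClosed (XSet b) := by
  have h1 : ∀ {m : ℕ}, IsClosed {W : Matrix (Fin m) (Fin m) ℂ | W.PosSemidef} := by
    intro m
    have : {W : Matrix (Fin m) (Fin m) ℂ | W.PosSemidef}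
        = {W | Wᴴ = W} ∩ ⋂ x : Fin m → ℂ, {W | 0 ≤ star x ⬝ᵥ (W *ᵥ x)} := by
      ext W
      simp only [Set.mem_ofPred_eq, Set.mem_inter_iff, Set.mem_iInter,
        Matrix.posSemidef_iff_dotProduct_mulVec]
      rfl
    rw [this]
    refine (isClosed_eq (by fun_prop) continuous_id).inter (isClosed_iInter fun x => ?_)
    exact isClosed_le continuous_const (by fun_prop)
  unfold XSet
  have h2 : IsClosed {W : Matrix (Fin b) (Fin b) ℂ | (1 - W).PosSemidef} :=
    (h1 (m := b)).preimage (f := fun W : Matrix (Fin b) (Fin b) ℂ => 1 - W) (by fun_prop)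
  have h3 : IsClosed {W : Matrix (Fin b) (Fin b) ℂ | (Matrix.trace (1 - W)).re ≤ (b : ℝ) / 4} := by
    refine isClosed_le ?_ continuous_const
    fun_prop
  exact h1.inter (h2.inter h3)

theorem obs_convex (b : ℕ) {W₁ W₂ : Matrix (Fin b) (Fin b) ℂ} (h₁ : W₁ ∈ XSet b)
    (h₂ : W₂ ∈ XSet b) {s t : ℝ} (hs : 0 ≤ s) (ht : 0 ≤ t) (hst : s + t = 1) :
    (s : ℂ) • W₁ + (t : ℂ) • W₂ ∈ XSet b := by
  obtain ⟨a1, a2, a3⟩ := h₁
  obtain ⟨b1, b2, b3⟩ := h₂
  have hs' : (0 : ℂ) ≤ s := by exact_mod_cast hs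
  have ht' : (0 : ℂ) ≤ t := by exact_mod_cast ht
  have hst' : (s : ℂ) + t = 1 := by exact_mod_cast hst
  have e : (1 : Matrix (Fin b) (Fin b) ℂ) - ((s : ℂ) • W₁ + (t : ℂ) • W₂)
      = (s : ℂ) • (1 - W₁) + (t : ℂ) • (1 - W₂) := by
    rw [smul_sub, smul_sub]
    have : (1 : Matrix (Fin b) (Fin b) ℂ) = (s : ℂ) • 1 + (t : ℂ) • 1 := by
      rw [← add_smul, hst', one_smul]
    nth_rewrite 1 [this]
    abel
  refine ⟨(a1.smul hs').add (b1.smul ht'), ?_, ?_⟩
  · rw [e]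
    exact (a2.smul hs').add (b2.smul ht')
  · rw [e, Matrix.trace_add, Matrix.trace_smul, Matrix.trace_smul, smul_eq_mul, smul_eq_mul,
      Complex.add_re, Complex.re_ofReal_mul, Complex.re_ofReal_mul]
    have e1 := mul_le_mul_of_nonneg_left a3 hs
    have e2 := mul_le_mul_of_nonneg_left b3 ht
    have e3 : s * ((b : ℝ) / 4) + t * ((b : ℝ) / 4) = (b : ℝ) / 4 := by
      rw [← add_mul, hst, one_mul]
    linarith

theorem obs_bounded (b : ℕ) {W : Matrix (Fin b) (Fin b) ℂ} (h : W ∈ XSet b) :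
    ‖obsTo W‖ ^ 2 ≤ b := by
  obtain ⟨a1, a2, -⟩ := h
  have h1 : (W - W * W).PosSemidef := by
    have e : W - W * W = W * (1 - W) * Wᴴ + (1 - W) * W * (1 - W)ᴴ := by
      rw [a2.isHermitian.eq, a1.isHermitian.eq]
      noncomm_ring
    rw [e]
    exact (a2.mul_mul_conjTranspose_same W).add (a1.mul_mul_conjTranspose_same (1 - W))
  have h2 := (Complex.nonneg_iff.mp h1.trace_nonneg).1
  have h3 := (Complex.nonneg_iff.mp a2.trace_nonneg).1
  rw [Matrix.trace_sub, Complex.sub_re] at h2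
  rw [Matrix.trace_sub, Matrix.trace_one, Complex.sub_re] at h3
  simp only [Fintype.card_fin, Complex.natCast_re] at h3
  have h4 : ‖obsTo W‖ ^ 2 = (Matrix.trace (W * W)).re := by
    have : W * W = Wᴴ * W := by rw [a1.isHermitian.eq]
    rw [this, EuclideanSpace.norm_sq_eq, Fintype.sum_prod_type, Finset.sum_comm]
    simp only [Matrix.trace, Matrix.diag, Matrix.mul_apply, Matrix.conjTranspose_apply,
      Complex.re_sum]
    refine Finset.sum_congr rfl fun j _ => Finset.sum_congr rfl fun i _ => ?_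
    simp only [obsTo, Complex.star_def]
    rw [← Complex.normSq_eq_conj_mul_self, Complex.ofReal_re, Complex.normSq_eq_norm_sq]
  rw [h4]
  linarith


theorem obs_contOn {b : ℕ} {V Y : Type*} [TopologicalSpace V] [TopologicalSpace Y] (S : Set V)
    (f : XSet b → V → Y) (hf : Continuous fun p : XSet b × V => f p.1 p.2) (y0 : Y)
    [∀ x : ObsE b, Decidable (obsOf x ∈ XSet b)] :
    ContinuousOn (fun p : ObsE b × V =>
      if h : obsOf p.1 ∈ XSet b then f ⟨obsOf p.1, h⟩ p.2 else y0)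
      ((obsOf ⁻¹' XSet b) ×ˢ S) := by
  rw [continuousOn_iff_continuous_domRestrict]
  have e : Set.domRestrict ((obsOf ⁻¹' XSet b) ×ˢ S) (fun p : ObsE b × V =>
      if h : obsOf p.1 ∈ XSet b then f ⟨obsOf p.1, h⟩ p.2 else y0)
      = fun z : ((obsOf ⁻¹' XSet b) ×ˢ S : Set (ObsE b × V)) =>
        f ⟨obsOf z.1.1, z.2.1⟩ z.1.2 := by
    funext z
    exact dif_pos z.2.1
  rw [e]
  have h1 : Continuous fun z : ((obsOf ⁻¹' XSet b) ×ˢ S : Set (ObsE b × V)) =>
      ((⟨obsOf z.1.1, z.2.1⟩ : XSet b), z.1.2) := by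
    refine Continuous.prodMk ?_ (by fun_prop)
    exact Continuous.subtype_mk (continuous_obsOf.comp (by fun_prop)) _
  exact hf.comp h1

theorem obs_compact (b : ℕ) : IsCompact ((obsOf ⁻¹' XSet b : Set (ObsE b))) := by
  refine Metric.isCompact_of_isClosed_isBounded ((obs_isClosed b).preimage continuous_obsOf) ?_
  rw [isBounded_iff_forall_norm_le]
  refine ⟨b + 1, fun x hx => ?_⟩
  have h1 := obs_bounded b hx
  rw [obsTo_obsOf] at h1
  nlinarith [norm_nonneg x, sq_nonneg (‖x‖ - 1)]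

theorem obs_convexX (b : ℕ) : Convex ℝ ((obsOf ⁻¹' XSet b : Set (ObsE b))) := by
  intro x hx y hy s t hs ht hst
  have e : obsOf (s • x + t • y) = (s : ℂ) • obsOf x + (t : ℂ) • obsOf y := by
    ext i j
    simp [obsOf]
  change obsOf (s • x + t • y) ∈ XSet b
  rw [e]
  exact obs_convex b hx hy hs ht hst

theorem obs_nonempty (b : ℕ) : ((obsOf ⁻¹' XSet b : Set (ObsE b))).Nonempty := by
  refine ⟨obsTo 1, ?_⟩
  change obsOf (obsTo 1) ∈ XSet b
  rw [obsOf_obsTo]
  refine ⟨Matrix.PosSemidef.one, ?_, ?_⟩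
  · rw [sub_self]; exact Matrix.PosSemidef.zero
  · rw [sub_self, Matrix.trace_zero, Complex.zero_re]; positivity

end obstop

/-- Chunk C. -/
theorem obstruction (b p q M : ℕ) (hpq : p < q) (hM : 4 * M ≤ b)
    (R : XSet b → Matrix (Fin p) (Fin q) ℂ) (hR : Continuous R)
    (Z : Fin M → XSet b → Matrix (Fin b) (Fin q) ℂ) (hZ : ∀ i, Continuous (Z i))
    (δ : ℝ) (hδ : 0 < δ) :
    ∃ W : XSet b, ∃ v : Fin q → ℂ, star v ⬝ᵥ v = 1 ∧ R W *ᵥ v = 0 ∧
      ∑ i, (star (Z i W *ᵥ v) ⬝ᵥ (W.1 *ᵥ (Z i W *ᵥ v))).re ≤ δ := by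
  classical
  set d : ℝ := δ / (M + 1) with hd
  have hd0 : 0 < d := by positivity
  have hdM : d * M ≤ δ := by
    rw [hd, div_mul_eq_mul_div, div_le_iff₀ (by positivity)]
    nlinarith
  have hfr : Module.finrank ℝ (EuclideanSpace ℝ (Fin (2 * p + 1)))
      ≤ Module.finrank ℝ (EuclideanSpace ℂ (Fin q)) := by
    have e1 : Module.finrank ℝ (EuclideanSpace ℂ (Fin q)) = 2 * q := by
      rw [LinearEquiv.finrank_eq (WithLp.linearEquiv 2 ℝ (Fin q → ℂ)), Module.finrank_pi_fintype]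
      simp [Complex.finrank_real_complex, mul_comm]
    rw [e1, finrank_euclideanSpace_fin]
    omega
  obtain ⟨j⟩ := obs_exists_isometry hfr
  have hjc : Continuous fun v : EuclideanSpace ℝ (Fin (2 * p + 1)) => (j v).ofLp :=
    (PiLp.continuous_ofLp 2 _).comp j.continuous
  let g : XSet b → EuclideanSpace ℝ (Fin (2 * p + 1)) → (Fin p → ℂ) :=
    fun W v => R W *ᵥ (j v).ofLp
  have hg : Continuous fun z : XSet b × EuclideanSpace ℝ (Fin (2 * p + 1)) => g z.1 z.2 :=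
    (hR.comp continuous_fst).matrix_mulVec (hjc.comp continuous_snd)
  let Zm : XSet b → EuclideanSpace ℝ (Fin (2 * p + 1)) → Matrix (Fin b) (Fin M) ℂ :=
    fun W v => Matrix.of fun a i => (Z i W *ᵥ (j v).ofLp) a
  have hZm : Continuous fun z : XSet b × EuclideanSpace ℝ (Fin (2 * p + 1)) => Zm z.1 z.2 := by
    refine continuous_matrix fun a i => ?_
    simp only [Zm, Matrix.of_apply]
    exact (continuous_apply a).comp
      (((hZ i).comp continuous_fst).matrix_mulVec (hjc.comp continuous_snd))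
  let φ : XSet b → EuclideanSpace ℝ (Fin (2 * p + 1)) → ObsE b :=
    fun W v => obsTo (obsW d (Zm W v))
  have hφ : Continuous fun z : XSet b × EuclideanSpace ℝ (Fin (2 * p + 1)) => φ z.1 z.2 :=
    continuous_obsTo.comp ((continuous_obsW hd0).comp hZm)
  have hφmem : ∀ W v, obsOf (φ W v) ∈ XSet b := by
    intro W v
    simp only [φ, obsOf_obsTo]
    refine ⟨obsW_posSemidef hd0 _, obsW_one_sub hd0 _, (obsW_trace hd0 _).trans ?_⟩
    have : (4 : ℝ) * M ≤ b := by exact_mod_cast hM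
    linarith
  have hjneg : ∀ v, (j (-v)).ofLp = -(j v).ofLp := by
    intro v; rw [map_neg]; rfl
  obtain ⟨x, hx, v, hv, h1, h2⟩ := brouwer_borsuk (V := EuclideanSpace ℝ (Fin (2 * p + 1)))
    (E := ObsE b) (F := Fin p → ℂ)
    (by
      rw [finrank_euclideanSpace_fin, Module.finrank_pi_fintype]
      simp [Complex.finrank_real_complex, mul_comm])
    (obsOf ⁻¹' XSet b) (obs_compact b) (obs_convexX b) (obs_nonempty b)
    (fun x v => if h : obsOf x ∈ XSet b then g ⟨obsOf x, h⟩ v else 0)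
    (obs_contOn _ g hg 0)
    (by
      intro x hx v _
      have hx' : obsOf x ∈ XSet b := hx
      simp only [hx', dite_true, g, hjneg, Matrix.mulVec_neg])
    (fun x v => if h : obsOf x ∈ XSet b then φ ⟨obsOf x, h⟩ v else 0)
    (obs_contOn _ φ hφ 0)
    (by
      intro x hx v _
      have hx' : obsOf x ∈ XSet b := hx
      have e : ∀ W, obsW d (Zm W (-v)) = obsW d (Zm W v) := by
        intro W
        have : Zm W (-v) = - Zm W v := by
          ext a i
          simp [Zm, Matrix.mulVec_neg]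
        rw [this]
        simp [obsW, obsB]
      simp only [hx', dite_true, φ, e])
    (by
      intro x hx v _
      have hx' : obsOf x ∈ XSet b := hx
      simp only [hx', dite_true]
      exact hφmem _ _)
  have hx' : obsOf x ∈ XSet b := hx
  simp only [hx', dite_true] at h1 h2
  have hW : obsW d (Zm ⟨obsOf x, hx'⟩ v) = obsOf x := by
    have := congrArg obsOf h2
    simpa [φ] using this
  refine ⟨⟨obsOf x, hx'⟩, (j v).ofLp, ?_, h1, ?_⟩
  · have hn : ‖j v‖ = 1 := by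
      rw [j.norm_map]; simpa using hv
    have h3 := EuclideanSpace.norm_sq_eq (j v)
    rw [hn] at h3
    have h4 : star (j v).ofLp ⬝ᵥ (j v).ofLp = ((∑ i, ‖(j v).ofLp i‖ ^ 2 : ℝ) : ℂ) := by
      rw [dotProduct, Complex.ofReal_sum]
      refine Finset.sum_congr rfl fun i _ => ?_
      rw [Pi.star_apply, Complex.star_def, ← Complex.normSq_eq_conj_mul_self,
        Complex.normSq_eq_norm_sq]
    rw [h4, ← h3]
    norm_num
  · have h3 := obsW_quad hd0 (Zm ⟨obsOf x, hx'⟩ v)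
    rw [hW] at h3
    refine le_trans (le_of_eq ?_) (h3.trans hdM)
    rw [Matrix.trace, Complex.re_sum]
    refine Finset.sum_congr rfl fun i _ => ?_
    congr 1

end QT
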