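import Mathlib
import Crest.Agent.Lib.QT.Defs

/-! Row 137: topology of `XSet b`. -/

set_option autoImplicit false

open scoped Matrix.Norms.L2Operator Matrix ComplexOrder MatrixOrder

namespace QT

theorem isClosed_posSemidef (n : Type*) [Fintype n] [DecidableEq n] :
    IsClosed {W : Matrix n n ℂ | W.PosSemidef} := by
  have : {W : Matrix n n ℂ | W.PosSemidef} =
      {W : Matrix n n ℂ | Wᴴ = W} ∩ ⋂ x : n → ℂ, {W : Matrix n n ℂ | 0 ≤ star x ⬝ᵥ (W *ᵥ x)} := by
    ext W
    simp only [Set.mem_ofPred_eq, Set.mem_inter_iff, Set.mem_iInter,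
      Matrix.posSemidef_iff_dotProduct_mulVec]
    rfl
  rw [this]
  refine (isClosed_eq (by fun_prop) continuous_id).inter (isClosed_iInter fun x => ?_)
  refine isClosed_le continuous_const ?_
  fun_prop

theorem norm_le_one_of_posSemidef {n : Type*} [Fintype n] [DecidableEq n] {W : Matrix n n ℂ}
    (h0 : W.PosSemidef) (h1 : (1 - W).PosSemidef) : ‖W‖ ≤ 1 :=
  (CStarAlgebra.norm_le_one_iff_of_nonneg W h0.nonneg).mpr
    (sub_nonneg.mp h1.nonneg)

theorem norm_le_one_of_XSet {b : ℕ} {W : Matrix (Fin b) (Fin b) ℂ} (hW : W ∈ XSet b) :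
    ‖W‖ ≤ 1 := norm_le_one_of_posSemidef hW.1 hW.2.1

theorem isClosed_XSet (b : ℕ) : IsClosed (XSet b) := by
  have h1 := isClosed_posSemidef (Fin b)
  have h2 : IsClosed {W : Matrix (Fin b) (Fin b) ℂ | (1 - W).PosSemidef} :=
    h1.preimage (f := fun W : Matrix (Fin b) (Fin b) ℂ => 1 - W) (by fun_prop)
  have h3 : IsClosed {W : Matrix (Fin b) (Fin b) ℂ | (Matrix.trace (1 - W)).re ≤ (b : ℝ) / 4} :=
    isClosed_le (Complex.continuous_re.comp (by fun_prop)) continuous_const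
  exact h1.inter (h2.inter h3)

theorem isCompact_XSet (b : ℕ) : IsCompact (XSet b) := by
  have : ProperSpace (Matrix (Fin b) (Fin b) ℂ) := FiniteDimensional.proper ℂ _
  refine Metric.isCompact_of_isClosed_isBounded (isClosed_XSet b) ?_
  refine (Metric.isBounded_closedBall (x := (0 : Matrix (Fin b) (Fin b) ℂ)) (r := 1)).subset ?_
  intro W hW
  simpa using norm_le_one_of_XSet hW

theorem convex_XSet (b : ℕ) : Convex ℝ (XSet b) := by
  rintro W ⟨h1, h2, h3⟩ V ⟨g1, g2, g3⟩ s t hs ht hst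
  have e : (1 : Matrix (Fin b) (Fin b) ℂ) - (s • W + t • V) = s • (1 - W) + t • (1 - V) := by
    rw [smul_sub, smul_sub, show s • (1 : Matrix (Fin b) (Fin b) ℂ) - s • W + (t • 1 - t • V)
      = (s + t) • 1 - (s • W + t • V) by rw [add_smul]; abel, hst, one_smul]
  refine ⟨(h1.smul hs).add (g1.smul ht), ?_, ?_⟩
  · rw [e]; exact (h2.smul hs).add (g2.smul ht)
  · rw [e, Matrix.trace_add, Matrix.trace_smul, Matrix.trace_smul, Complex.add_re,
      Complex.smul_re, Complex.smul_re, smul_eq_mul, smul_eq_mul]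
    calc _ ≤ s * ((b : ℝ) / 4) + t * ((b : ℝ) / 4) := by gcongr
      _ = (s + t) * ((b : ℝ) / 4) := by ring
      _ = _ := by rw [hst, one_mul]

theorem one_mem_XSet (b : ℕ) : (1 : Matrix (Fin b) (Fin b) ℂ) ∈ XSet b :=
  ⟨Matrix.PosSemidef.one, by simpa using Matrix.PosSemidef.zero, by simp; positivity⟩

instance (b : ℕ) : CompactSpace (XSet b) := isCompact_iff_compactSpace.mp (isCompact_XSet b)

instance (b : ℕ) : Nonempty (XSet b) := ⟨⟨1, one_mem_XSet b⟩⟩

end QT
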