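import Mathlib
import Crest.Agent.Lib.QT.Defs
import Crest.Agent.Lib.QT.XSet
import Crest.Agent.Lib.QT.Obstruction

/-! Row 137, chunk H3: no co-isometries in the quotient. -/

set_option autoImplicit false

open scoped Matrix.Norms.L2Operator Matrix ComplexOrder

namespace QT

/-- Obstruction with general index types. -/
theorem obstruction' {m n ι : Type*} [Fintype m] [Fintype n] [Fintype ι] (b : ℕ)
    (hmn : Fintype.card m < Fintype.card n) (hM : 4 * Fintype.card ι ≤ b)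
    (R : XSet b → Matrix m n ℂ) (hR : Continuous R)
    (Z : ι → XSet b → Matrix (Fin b) n ℂ) (hZ : ∀ i, Continuous (Z i))
    (δ : ℝ) (hδ : 0 < δ) :
    ∃ W : XSet b, ∃ v : n → ℂ, star v ⬝ᵥ v = 1 ∧ R W *ᵥ v = 0 ∧
      ∑ i, (star (Z i W *ᵥ v) ⬝ᵥ (W.1 *ᵥ (Z i W *ᵥ v))).re ≤ δ := by
  classical
  let em := Fintype.equivFin m
  let en := Fintype.equivFin n
  let ei := Fintype.equivFin ι
  obtain ⟨W, v, hv, hRv, hZv⟩ := obstruction b _ _ _ hmn hM
    (fun W => (R W).submatrix em.symm en.symm)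
    (by
      refine continuous_pi fun i => continuous_pi fun j => ?_
      exact (continuous_apply_apply (em.symm i) (en.symm j)).comp hR)
    (fun i W => (Z (ei.symm i) W).submatrix id en.symm)
    (fun i => by
      refine continuous_pi fun a => continuous_pi fun j => ?_
      exact (continuous_apply_apply a (en.symm j)).comp (hZ _)) δ hδ
  have hsub : ∀ (A : Matrix (Fin b) n ℂ),
      (A.submatrix id en.symm) *ᵥ v = A *ᵥ (v ∘ en) := by
    intro A
    ext i
    simp only [Matrix.mulVec, dotProduct, Matrix.submatrix_apply, id]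
    exact Fintype.sum_equiv en.symm _ _ (by simp)
  refine ⟨W, v ∘ en, ?_, ?_, ?_⟩
  · rw [← hv]
    simp only [dotProduct]
    exact Fintype.sum_equiv en _ _ (by simp)
  · ext i
    have := congrFun hRv (em i)
    simp only [Matrix.mulVec, dotProduct, Matrix.submatrix_apply, Equiv.symm_apply_apply,
      Pi.zero_apply] at this ⊢
    rw [← this]
    exact Fintype.sum_equiv en _ _ (by simp)
  · refine le_trans (le_of_eq ?_) hZv
    refine Fintype.sum_equiv ei _ _ fun i => ?_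
    simp only [hsub, Equiv.symm_apply_apply]

theorem norm_star_dot_mulVec_le {b : ℕ} (M : Matrix (Fin b) (Fin b) ℂ) (x y : Fin b → ℂ)
    (hx : (star x ⬝ᵥ x).re ≤ 1) (hy : (star y ⬝ᵥ y).re ≤ 1) :
    ‖star x ⬝ᵥ (M *ᵥ y)‖ ≤ ‖M‖ := by
  have hn : ∀ z : Fin b → ℂ, (star z ⬝ᵥ z).re ≤ 1 → ‖WithLp.toLp 2 z‖ ≤ 1 := by
    intro z hz
    have h1 : ‖WithLp.toLp 2 z‖ ^ 2 = (star z ⬝ᵥ z).re := by
      rw [EuclideanSpace.norm_sq_eq]
      simp only [dotProduct, Complex.re_sum, Pi.star_apply]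
      refine Finset.sum_congr rfl fun i _ => ?_
      rw [← Complex.normSq_eq_norm_sq, Complex.normSq_apply]
      simp [Complex.mul_re]
    nlinarith [norm_nonneg (WithLp.toLp 2 z)]
  have h1 := hn x hx
  have h2 := hn y hy
  have h3 : star x ⬝ᵥ (M *ᵥ y) = inner ℂ (WithLp.toLp 2 x) (WithLp.toLp 2 (M *ᵥ y)) := by
    rw [EuclideanSpace.inner_toLp_toLp, dotProduct_comm]
  rw [h3]
  refine (norm_inner_le_norm _ _).trans ?_
  have h4 : ‖WithLp.toLp 2 (M *ᵥ y)‖ ≤ ‖M‖ * ‖WithLp.toLp 2 y‖ :=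
    Matrix.l2_opNorm_mulVec M (WithLp.toLp 2 y)
  calc ‖WithLp.toLp 2 x‖ * ‖WithLp.toLp 2 (M *ᵥ y)‖ ≤ 1 * (‖M‖ * 1) := by
        gcongr
        exact h4.trans (by gcongr)
    _ = ‖M‖ := by ring

/-- Cauchy-Schwarz/AM-GM lower bound. -/
theorem re_dot_ge {b : ℕ} {W : Matrix (Fin b) (Fin b) ℂ} (hW : W.PosSemidef) (x y : Fin b → ℂ) :
    -(1/2 : ℝ) * ((star x ⬝ᵥ (W *ᵥ x)).re + (star y ⬝ᵥ (W *ᵥ y)).re)
      ≤ (star x ⬝ᵥ (W *ᵥ y)).re := by
  have h := hW.re_dotProduct_nonneg (x + y)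
  have hsym : (star y ⬝ᵥ (W *ᵥ x)).re = (star x ⬝ᵥ (W *ᵥ y)).re := by
    have : star y ⬝ᵥ (W *ᵥ x) = star (star x ⬝ᵥ (W *ᵥ y)) := by
      rw [Matrix.star_dotProduct, Matrix.star_mulVec, hW.1.eq, ← Matrix.dotProduct_mulVec]
    rw [this]; simp
  simp only [Matrix.mulVec_add, star_add, add_dotProduct, dotProduct_add] at h
  simp only [RCLike.re_to_complex, Complex.add_re] at h
  rw [hsym] at h
  linarith

theorem core_quad {b p q : ℕ} (M : Fin q → Fin p → Matrix (Fin b) (Fin b) ℂ)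
    (vv : Fin q → Fin b → ℂ) (hRv' : ∀ k, ∑ i, (M i k)ᴴ *ᵥ vv i = 0)
    (hvsum : ∑ i, star (vv i) ⬝ᵥ vv i = 1) :
    ∑ i, ∑ i', star (vv i) ⬝ᵥ ((∑ k, M i k * (M i' k)ᴴ
      - if i = i' then (1 : Matrix (Fin b) (Fin b) ℂ) else 0) *ᵥ vv i') = -1 := by
  have h1 : ∀ i i', star (vv i) ⬝ᵥ ((∑ k, M i k * (M i' k)ᴴ
      - if i = i' then (1 : Matrix (Fin b) (Fin b) ℂ) else 0) *ᵥ vv i') =
      ∑ k, star ((M i k)ᴴ *ᵥ vv i) ⬝ᵥ ((M i' k)ᴴ *ᵥ vv i')
        - (if i = i' then star (vv i) ⬝ᵥ vv i' else 0) := by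
    intro i i'
    rw [Matrix.sub_mulVec, dotProduct_sub, Matrix.sum_mulVec, dotProduct_sum]
    congr 1
    · refine Finset.sum_congr rfl fun k _ => ?_
      rw [Matrix.star_mulVec, Matrix.conjTranspose_conjTranspose, ← Matrix.dotProduct_mulVec,
        Matrix.mulVec_mulVec]
    · split_ifs with h
      · rw [Matrix.one_mulVec]
      · rw [Matrix.zero_mulVec, dotProduct_zero]
  simp only [h1, Finset.sum_sub_distrib]
  have h2 : ∑ i, ∑ i', ∑ k, star ((M i k)ᴴ *ᵥ vv i) ⬝ᵥ ((M i' k)ᴴ *ᵥ vv i') = 0 := by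
    refine Finset.sum_eq_zero fun i _ => ?_
    rw [Finset.sum_comm]
    refine Finset.sum_eq_zero fun k _ => ?_
    rw [← dotProduct_sum, hRv' k, dotProduct_zero]
  have h3 : ∑ i, ∑ i', (if i = i' then star (vv i) ⬝ᵥ vv i' else 0) = 1 := by
    rw [← hvsum]
    refine Finset.sum_congr rfl fun i _ => ?_
    rw [Finset.sum_ite_eq]; simp
  rw [h2, h3]; norm_num

theorem core_false {b p q : ℕ} (M : Fin q → Fin p → Matrix (Fin b) (Fin b) ℂ)
    (W : Matrix (Fin b) (Fin b) ℂ) (hW : W.PosSemidef) (n : Fin q → Fin q → ℕ)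
    (X Y : ∀ i i', Fin (n i i') → Matrix (Fin b) (Fin b) ℂ)
    (err : Fin q → Fin q → Matrix (Fin b) (Fin b) ℂ) (ε : ℝ) (herr : ∀ i i', ‖err i i'‖ ≤ ε)
    (hid : ∀ i i', ∑ k, M i k * (M i' k)ᴴ - (if i = i' then (1 : Matrix (Fin b) (Fin b) ℂ) else 0)
      = err i i' + ∑ α, X i i' α * W * Y i i' α)
    (vv : Fin q → Fin b → ℂ) (hRv' : ∀ k, ∑ i, (M i k)ᴴ *ᵥ vv i = 0)
    (hvsum : ∑ i, star (vv i) ⬝ᵥ vv i = 1) (hε : (q : ℝ) * ((q : ℝ) * ε) ≤ 1 / 4)
    (hsum : ∑ i, ∑ i', ∑ α, (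
        (star ((X i i' α)ᴴ *ᵥ vv i) ⬝ᵥ (W *ᵥ ((X i i' α)ᴴ *ᵥ vv i))).re +
        (star ((Y i i' α) *ᵥ vv i') ⬝ᵥ (W *ᵥ ((Y i i' α) *ᵥ vv i'))).re) ≤ 1) : False := by
  have hquad := core_quad M vv hRv' hvsum
  have hvi : ∀ i, (star (vv i) ⬝ᵥ vv i).re ≤ 1 := by
    intro i
    have h0 : ∀ i, 0 ≤ (star (vv i) ⬝ᵥ vv i).re := by
      intro i
      exact (Complex.le_def.mp (dotProduct_star_self_nonneg (vv i))).1
    have h1 := congrArg Complex.re hvsum
    rw [Complex.re_sum, Complex.one_re] at h1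
    rw [← h1]
    exact Finset.single_le_sum (f := fun i => (star (vv i) ⬝ᵥ vv i).re)
      (fun i _ => h0 i) (Finset.mem_univ i)
  have hlow : ∀ i i', -ε - (1/2) * ∑ α, (
        (star ((X i i' α)ᴴ *ᵥ vv i) ⬝ᵥ (W *ᵥ ((X i i' α)ᴴ *ᵥ vv i))).re +
        (star ((Y i i' α) *ᵥ vv i') ⬝ᵥ (W *ᵥ ((Y i i' α) *ᵥ vv i'))).re)
      ≤ (star (vv i) ⬝ᵥ ((∑ k, M i k * (M i' k)ᴴ
      - if i = i' then (1 : Matrix (Fin b) (Fin b) ℂ) else 0) *ᵥ vv i')).re := by
    intro i i'
    rw [hid, Matrix.add_mulVec, dotProduct_add, Complex.add_re, Matrix.sum_mulVec, dotProduct_sum,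
      Complex.re_sum]
    have h2 : -ε ≤ (star (vv i) ⬝ᵥ (err i i' *ᵥ vv i')).re := by
      have h3 := norm_star_dot_mulVec_le (err i i') (vv i) (vv i') (hvi i) (hvi i')
      have h4 := (Complex.abs_re_le_norm _).trans (h3.trans (herr i i'))
      exact (abs_le.mp h4).1
    have h5 : -(1/2) * ∑ α, (
        (star ((X i i' α)ᴴ *ᵥ vv i) ⬝ᵥ (W *ᵥ ((X i i' α)ᴴ *ᵥ vv i))).re +
        (star ((Y i i' α) *ᵥ vv i') ⬝ᵥ (W *ᵥ ((Y i i' α) *ᵥ vv i'))).re) ≤
        ∑ α, (star (vv i) ⬝ᵥ ((X i i' α * W * Y i i' α) *ᵥ vv i')).re := by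
      rw [Finset.mul_sum]
      refine Finset.sum_le_sum fun α _ => ?_
      refine (re_dot_ge hW _ _).trans (le_of_eq ?_)
      rw [Matrix.star_mulVec, Matrix.conjTranspose_conjTranspose, ← Matrix.dotProduct_mulVec,
        Matrix.mulVec_mulVec, Matrix.mulVec_mulVec]
    linarith
  have hfin := congrArg Complex.re hquad
  rw [Complex.re_sum] at hfin
  simp only [Complex.re_sum, Complex.neg_re, Complex.one_re] at hfin
  have hfin2 := Finset.sum_le_sum fun i (_ : i ∈ Finset.univ) =>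
    Finset.sum_le_sum fun i' (_ : i' ∈ Finset.univ) => hlow i i'
  rw [hfin] at hfin2
  simp only [Finset.sum_sub_distrib, ← Finset.mul_sum, Finset.sum_const, Finset.card_univ,
    Fintype.card_fin, nsmul_eq_mul] at hfin2
  nlinarith

theorem noCoisometry_of_eval {A B : Type*} [CStarAlgebra A] [CStarAlgebra B]
    (ev : ∀ j : ℕ, XSet (2 * j + 1) → A →⋆ₐ[ℂ] Matrix (Fin (2 * j + 1)) (Fin (2 * j + 1)) ℂ)
    (hcont : ∀ j a, Continuous fun W => ev j W a)
    (hnorm : ∀ j W a, ‖ev j W a‖ ≤ ‖a‖)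
    (w : A) (hw : ∀ j W, ev j W w = W.1)
    (π : A →⋆ₐ[ℂ] B) (hsurj : Function.Surjective π)
    (hker : ∀ a, π a = 0 → ∀ ε > 0, ∃ (n : ℕ) (x y : Fin n → A), ‖a - ∑ α, x α * w * y α‖ < ε) :
    NoCoisometry B := by
  classical
  intro p q hpq r hr
  choose ρ hρ using fun i k => hsurj (r i k)
  let E : Fin q → Fin q → A := fun i i' => ∑ k, ρ i k * star (ρ i' k) - if i = i' then 1 else 0
  have hE : ∀ i i', π (E i i') = 0 := by
    intro i i'
    have h1 := congrFun (congrFun hr i) i'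
    simp only [Matrix.mul_apply, Matrix.conjTranspose_apply, Matrix.one_apply] at h1
    simp only [E, map_sub, map_sum, map_mul, map_star, hρ, h1]
    split_ifs <;> simp
  obtain ⟨ε, hε, hqε⟩ : ∃ ε : ℝ, 0 < ε ∧ (q : ℝ) * ((q : ℝ) * ε) ≤ 1 / 4 := by
    refine ⟨1 / (4 * ((q : ℝ) ^ 2 + 1)), by positivity, ?_⟩
    rw [mul_one_div, mul_div_assoc', div_le_div_iff₀ (by positivity) (by norm_num)]
    nlinarith
  choose n x y hxy using fun i i' => hker (E i i') (hE i i') ε hε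
  obtain ⟨j, hj⟩ : ∃ j, 4 * Fintype.card ((Σ e : Fin q × Fin q, Fin (n e.1 e.2)) ⊕
      (Σ e : Fin q × Fin q, Fin (n e.1 e.2))) ≤ 2 * j + 1 :=
    ⟨4 * Fintype.card ((Σ e : Fin q × Fin q, Fin (n e.1 e.2)) ⊕
      (Σ e : Fin q × Fin q, Fin (n e.1 e.2))), by omega⟩
  obtain ⟨W, v, hv, hRv, hZv⟩ := obstruction' (2 * j + 1)
    (m := Fin p × Fin (2 * j + 1)) (n := Fin q × Fin (2 * j + 1)) (by simpa using hpq) hj
    (fun W => Matrix.of fun k i => star ((ev j W (ρ i.1 k.1)) i.2 k.2))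
    (continuous_pi fun k => continuous_pi fun i =>
      continuous_star.comp ((continuous_apply_apply i.2 k.2).comp (hcont j (ρ i.1 k.1))))
    (fun e W => match e with
      | Sum.inl e => Matrix.of fun s i =>
          if i.1 = e.1.1 then star ((ev j W (x e.1.1 e.1.2 e.2)) i.2 s) else 0
      | Sum.inr e => Matrix.of fun s i =>
          if i.1 = e.1.2 then (ev j W (y e.1.1 e.1.2 e.2)) s i.2 else 0)
    (by
      rintro (e | e)
      · refine continuous_pi fun s => continuous_pi fun i => ?_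
        simp only [Matrix.of_apply]
        split_ifs
        · exact continuous_star.comp ((continuous_apply_apply i.2 s).comp (hcont j _))
        · exact continuous_const
      · refine continuous_pi fun s => continuous_pi fun i => ?_
        simp only [Matrix.of_apply]
        split_ifs
        · exact (continuous_apply_apply s i.2).comp (hcont j _)
        · exact continuous_const) 1 one_pos
  refine core_false (fun i k => ev j W (ρ i k)) W.1 W.2.1 n (fun i i' α => ev j W (x i i' α))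
    (fun i i' α => ev j W (y i i' α))
    (fun i i' => ev j W (E i i' - ∑ α, x i i' α * w * y i i' α)) ε
    (fun i i' => (hnorm j W _).trans (hxy i i').le) ?_ (fun i t => v (i, t)) ?_ ?_ hqε ?_
  · intro i i'
    have h1 : ev j W (E i i') = ∑ k, ev j W (ρ i k) * (ev j W (ρ i' k))ᴴ
        - (if i = i' then 1 else 0) := by
      simp only [E, map_sub, map_sum, map_mul, map_star]
      congr 1
      split_ifs <;> simp
    rw [← h1]
    simp only [map_sub, map_sum, map_mul, hw]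
    abel
  · intro k
    ext s
    have := congrFun hRv (k, s)
    simp only [Matrix.mulVec, dotProduct, Fintype.sum_prod_type, Pi.zero_apply,
      Matrix.of_apply] at this
    rw [Finset.sum_apply]
    simpa [Matrix.mulVec, dotProduct, Matrix.conjTranspose_apply] using this
  · rw [← hv]
    simp only [dotProduct, Fintype.sum_prod_type]
    rfl
  · refine le_trans (le_of_eq ?_) hZv
    rw [Fintype.sum_sum_type, Fintype.sum_sigma, Fintype.sum_sigma, Fintype.sum_prod_type,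
      Fintype.sum_prod_type, ← Finset.sum_add_distrib]
    refine Finset.sum_congr rfl fun i _ => ?_
    rw [← Finset.sum_add_distrib]
    refine Finset.sum_congr rfl fun i' _ => ?_
    rw [← Finset.sum_add_distrib]
    refine Finset.sum_congr rfl fun α _ => ?_
    have hl : (Matrix.of fun s (i_1 : Fin q × Fin (2 * j + 1)) =>
          if i_1.1 = i then star ((ev j W (x i i' α)) i_1.2 s) else 0) *ᵥ v =
        (ev j W (x i i' α))ᴴ *ᵥ fun t => v (i, t) := by
      ext s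
      simp only [Matrix.mulVec, dotProduct, Matrix.of_apply, ite_mul, zero_mul,
        Fintype.sum_prod_type]
      rw [Finset.sum_eq_single i]
      · simp [Matrix.conjTranspose_apply]
      · intro l _ hl; simp [hl]
      · simp
    have hr : (Matrix.of fun s (i_1 : Fin q × Fin (2 * j + 1)) =>
          if i_1.1 = i' then (ev j W (y i i' α)) s i_1.2 else 0) *ᵥ v =
        (ev j W (y i i' α)) *ᵥ fun t => v (i', t) := by
      ext s
      simp only [Matrix.mulVec, dotProduct, Matrix.of_apply, ite_mul, zero_mul,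
        Fintype.sum_prod_type]
      rw [Finset.sum_eq_single i']
      · simp
      · intro l _ hl; simp [hl]
      · simp
    rw [hl, hr]

end QT
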