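import Mathlib

/-! Row 137, chunk D1: the Gabber-Galil / Jimbo-Maruoka weighted inequality on `(ZMod b)²`. -/

set_option autoImplicit false

namespace QT

/-- Comparison weight. -/
noncomputable def gam (p q : ℕ) : ℝ := if q < p then 5 / 4 else if p < q then 4 / 5 else 1

lemma gam_nonneg (p q : ℕ) : 0 ≤ gam p q := by
  unfold gam; split_ifs <;> norm_num

lemma gam_le (p q : ℕ) : gam p q ≤ 5 / 4 := by
  unfold gam; split_ifs <;> norm_num

lemma gam_of_lt {p q : ℕ} (h : p < q) : gam p q = 4 / 5 := by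
  unfold gam; rw [if_neg (by omega), if_pos h]

lemma gam_of_eq {p q : ℕ} (h : p = q) : gam p q = 1 := by
  unfold gam; rw [if_neg (by omega), if_neg (by omega)]

lemma two_mul_le_gam (p q : ℕ) (a c : ℝ) : 2 * (a * c) ≤ gam p q * a ^ 2 + gam q p * c ^ 2 := by
  unfold gam
  rcases lt_trichotomy p q with h | h | h
  · rw [if_neg (by omega), if_pos h, if_pos h]
    nlinarith [sq_nonneg (4 * a - 5 * c)]
  · subst h
    simp only [lt_irrefl, if_false]
    nlinarith [sq_nonneg (a - c)]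
  · rw [if_pos h, if_neg (by omega), if_pos h]
    nlinarith [sq_nonneg (5 * a - 4 * c)]

variable {b : ℕ} [NeZero b]

/-- absolute value on `ZMod b` -/
def nab (x : ZMod b) : ℕ := x.valMinAbs.natAbs

lemma two_nab_lt (hb : Odd b) (x : ZMod b) :
    x.valMinAbs * 2 < b ∧ -(b : ℤ) < x.valMinAbs * 2 := by
  have h := ZMod.valMinAbs_mem_Ioc x
  obtain ⟨j, hj⟩ := hb
  have h1 := h.1
  have h2 := h.2
  constructor
  · rcases h2.lt_or_eq with h3 | h3
    · exact h3
    · exfalso; omega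
  · exact h1

lemma valMinAbs_shift (hb : Odd b) (x y w : ZMod b) (e : ℤ) (he : e = 1 ∨ e = -1)
    (hw : w = x + (2 * e : ℤ) * y) :
    w.valMinAbs = x.valMinAbs + 2 * e * y.valMinAbs ∨
    w.valMinAbs = x.valMinAbs + 2 * e * y.valMinAbs + b ∨
    w.valMinAbs = x.valMinAbs + 2 * e * y.valMinAbs - b := by
  have hx := two_nab_lt hb x
  have hy := two_nab_lt hb y
  have hw' := two_nab_lt hb w
  have h1 : ((w.valMinAbs : ℤ) : ZMod b) = ((x.valMinAbs + 2 * e * y.valMinAbs : ℤ) : ZMod b) := by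
    rw [ZMod.coe_valMinAbs]
    rw [hw]
    push_cast
    rfl
  rw [ZMod.intCast_eq_intCast_iff_dvd_sub] at h1
  obtain ⟨k, hk⟩ := h1
  have hbpos : (0 : ℤ) < b := by
    have := Nat.pos_of_ne_zero (NeZero.ne b)
    exact_mod_cast this
  have hk2 : k < 2 := by
    by_contra hcon
    push Not at hcon
    have : (b : ℤ) * 2 ≤ b * k := mul_le_mul_of_nonneg_left hcon hbpos.le
    rcases he with rfl | rfl <;> linarith [hx.1, hx.2, hy.1, hy.2, hw'.1, hw'.2]
  have hk3 : -2 < k := by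
    by_contra hcon
    push Not at hcon
    have : (b : ℤ) * k ≤ b * (-2) := mul_le_mul_of_nonneg_left hcon hbpos.le
    rcases he with rfl | rfl <;> linarith [hx.1, hx.2, hy.1, hy.2, hw'.1, hw'.2]
  have hk4 : k = 0 ∨ k = 1 ∨ k = -1 := by omega
  rcases hk4 with rfl | rfl | rfl
  · left; linarith
  · right; right; linarith
  · right; left; linarith

/-- inside the diamond -/
lemma diamond_bound (hb : Odd b) (x y : ZMod b) (hxy : (x, y) ≠ (0, 0))
    (hd : 2 * nab x + 2 * nab y < b) :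
    gam (nab x) (nab (x + 2 * y)) + gam (nab x) (nab (x - 2 * y)) +
      (gam (nab y) (nab (y + 2 * x)) + gam (nab y) (nab (y - 2 * x))) ≤ 73 / 20 := by
  have hne : x.valMinAbs ≠ 0 ∨ y.valMinAbs ≠ 0 := by
    by_contra hcon
    push Not at hcon
    apply hxy
    rw [ZMod.valMinAbs_eq_zero, ZMod.valMinAbs_eq_zero] at hcon
    simp [hcon.1, hcon.2]
  have h1 := valMinAbs_shift hb x y (x + 2 * y) 1 (Or.inl rfl) (by push_cast; ring)
  have h2 := valMinAbs_shift hb x y (x - 2 * y) (-1) (Or.inr rfl) (by push_cast; ring)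
  have h3 := valMinAbs_shift hb y x (y + 2 * x) 1 (Or.inl rfl) (by push_cast; ring)
  have h4 := valMinAbs_shift hb y x (y - 2 * x) (-1) (Or.inr rfl) (by push_cast; ring)
  have b1 := two_nab_lt hb (x + 2 * y)
  have b2 := two_nab_lt hb (x - 2 * y)
  have b3 := two_nab_lt hb (y + 2 * x)
  have b4 := two_nab_lt hb (y - 2 * x)
  have bx := two_nab_lt hb x
  have bY := two_nab_lt hb y
  unfold nab at *
  generalize (x + 2 * y).valMinAbs = W1 at *
  generalize (x - 2 * y).valMinAbs = W2 at *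
  generalize (y + 2 * x).valMinAbs = W3 at *
  generalize (y - 2 * x).valMinAbs = W4 at *
  generalize x.valMinAbs = X at *
  generalize y.valMinAbs = Y at *
  have key1 : ∀ {X Y W1 W2 : ℤ}, 2 * X.natAbs + 2 * Y.natAbs < b →
      (W1 = X + 2 * 1 * Y ∨ W1 = X + 2 * 1 * Y + b ∨ W1 = X + 2 * 1 * Y - b) →
      (W2 = X + 2 * -1 * Y ∨ W2 = X + 2 * -1 * Y + b ∨ W2 = X + 2 * -1 * Y - b) →
      W1 * 2 < b ∧ -(b : ℤ) < W1 * 2 → W2 * 2 < b ∧ -(b : ℤ) < W2 * 2 →
      (X.natAbs < Y.natAbs → X.natAbs < W1.natAbs ∧ X.natAbs < W2.natAbs) ∧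
      (X.natAbs ≠ 0 → X.natAbs = Y.natAbs →
        (X.natAbs < W1.natAbs ∧ X.natAbs = W2.natAbs) ∨
        (X.natAbs = W1.natAbs ∧ X.natAbs < W2.natAbs)) ∧
      (Y.natAbs = 0 → X.natAbs = W1.natAbs ∧ X.natAbs = W2.natAbs) ∧
      (Y.natAbs ≠ 0 → Y.natAbs < X.natAbs → X.natAbs < W1.natAbs ∨ X.natAbs < W2.natAbs) := by
    intro X Y W1 W2 hd h1 h2 b1 b2
    refine ⟨?_, ?_, ?_, ?_⟩
    · intro h; constructor <;> omega
    · intro h h'; omega
    · intro h; constructor <;> omega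
    · intro h h'; omega
  obtain ⟨k1, k2, k3, k4⟩ := key1 hd h1 h2 b1 b2
  obtain ⟨l1, l2, l3, l4⟩ := key1 (by omega) h3 h4 b3 b4
  rcases lt_trichotomy X.natAbs Y.natAbs with h | h | h
  · obtain ⟨e1, e2⟩ := k1 h
    rw [gam_of_lt e1, gam_of_lt e2]
    by_cases hX0 : X.natAbs = 0
    · obtain ⟨e3, e4⟩ := l3 hX0
      rw [gam_of_eq e3, gam_of_eq e4]; norm_num
    · rcases l4 hX0 h with e | e
      · rw [gam_of_lt e]
        linarith [gam_le Y.natAbs W4.natAbs]
      · rw [gam_of_lt e]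
        linarith [gam_le Y.natAbs W3.natAbs]
  · have hX0 : X.natAbs ≠ 0 := by omega
    rcases k2 hX0 h with ⟨e1, e2⟩ | ⟨e1, e2⟩ <;> rcases l2 (by omega) h.symm with ⟨e3, e4⟩ | ⟨e3, e4⟩
    · rw [gam_of_lt e1, gam_of_eq e2, gam_of_lt e3, gam_of_eq e4]; norm_num
    · rw [gam_of_lt e1, gam_of_eq e2, gam_of_eq e3, gam_of_lt e4]; norm_num
    · rw [gam_of_eq e1, gam_of_lt e2, gam_of_lt e3, gam_of_eq e4]; norm_num
    · rw [gam_of_eq e1, gam_of_lt e2, gam_of_eq e3, gam_of_lt e4]; norm_num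
  · obtain ⟨e1, e2⟩ := l1 h
    rw [gam_of_lt e1, gam_of_lt e2]
    by_cases hY0 : Y.natAbs = 0
    · obtain ⟨e3, e4⟩ := k3 hY0
      rw [gam_of_eq e3, gam_of_eq e4]; norm_num
    · rcases k4 hY0 h with e | e
      · rw [gam_of_lt e]
        linarith [gam_le X.natAbs W2.natAbs]
      · rw [gam_of_lt e]
        linarith [gam_le X.natAbs W1.natAbs]

/-- `|1 + ω^c| / 2` -/
noncomputable def kap (c : ZMod b) : ℝ := ‖1 + (ZMod.stdAddChar c : ℂ)‖ / 2

lemma kap_nonneg (c : ZMod b) : 0 ≤ kap c := by unfold kap; positivity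

lemma kap_le_one (c : ZMod b) : kap c ≤ 1 := by
  unfold kap
  have h := norm_add_le (1 : ℂ) (ZMod.stdAddChar c : ℂ)
  have h2 : ‖(ZMod.stdAddChar c : ℂ)‖ = 1 := by
    rw [ZMod.stdAddChar_apply]; exact Circle.norm_coe _
  rw [h2, norm_one] at h
  linarith

lemma kap_sq (c : ZMod b) :
    kap c ^ 2 = (1 + Real.cos (2 * Real.pi * (nab c : ℝ) / b)) / 2 := by
  have h1 : (ZMod.stdAddChar c : ℂ) =
      Complex.exp (2 * Real.pi * Complex.I * (c.valMinAbs : ℤ) / b) := by
    conv_lhs => rw [← ZMod.coe_valMinAbs c]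
    rw [ZMod.stdAddChar_coe]
  have h2 : (ZMod.stdAddChar c : ℂ) =
      Complex.exp (((2 * Real.pi * (c.valMinAbs : ℤ) / b : ℝ) : ℂ) * Complex.I) := by
    rw [h1]; congr 1; push_cast; ring
  have h3 : Real.cos (2 * Real.pi * (c.valMinAbs : ℤ) / b) =
      Real.cos (2 * Real.pi * (nab c : ℝ) / b) := by
    unfold nab
    rcases Int.natAbs_eq c.valMinAbs with h | h
    · have : ((c.valMinAbs : ℤ) : ℝ) = (c.valMinAbs.natAbs : ℝ) := by
        rw [h]; simp
      rw [this]
    · have : ((c.valMinAbs : ℤ) : ℝ) = -(c.valMinAbs.natAbs : ℝ) := by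
        rw [h]; simp
      rw [this, ← Real.cos_neg]
      congr 1; ring
  unfold kap
  rw [div_pow, Complex.sq_norm, Complex.normSq_apply, h2, ← h3]
  simp only [Complex.add_re, Complex.one_re, Complex.exp_ofReal_mul_I_re, Complex.add_im,
    Complex.one_im, Complex.exp_ofReal_mul_I_im, zero_add]
  have := Real.sin_sq_add_cos_sq (2 * Real.pi * (c.valMinAbs : ℤ) / b)
  nlinarith

lemma kap_add_le (x y : ZMod b) (hb : Odd b) (h : b ≤ 2 * nab x + 2 * nab y) :
    kap x + kap y ≤ 73 / 50 := by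
  have hbpos : (0 : ℝ) < b := by
    have := Nat.pos_of_ne_zero (NeZero.ne b)
    exact_mod_cast this
  have hx : 2 * nab x < b := by
    have := two_nab_lt hb x
    unfold nab; omega
  have hy : 2 * nab y < b := by
    have := two_nab_lt hb y
    unfold nab; omega
  have hx' : 2 * (nab x : ℝ) < b := by exact_mod_cast hx
  have hy' : 2 * (nab y : ℝ) < b := by exact_mod_cast hy
  have h' : (b : ℝ) ≤ 2 * nab x + 2 * nab y := by exact_mod_cast h
  have hpi := Real.pi_pos
  have hcos : Real.cos (2 * Real.pi * (nab x : ℝ) / b) ≤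
      Real.cos (Real.pi - 2 * Real.pi * (nab y : ℝ) / b) := by
    apply Real.cos_le_cos_of_nonneg_of_le_pi
    · rw [sub_nonneg, div_le_iff₀ hbpos]; nlinarith
    · rw [div_le_iff₀ hbpos]; nlinarith
    · rw [sub_le_iff_le_add, ← add_div, le_div_iff₀ hbpos]; nlinarith
  rw [Real.cos_pi_sub] at hcos
  have h1 := kap_sq x
  have h2 := kap_sq y
  have h3 : kap x ^ 2 + kap y ^ 2 ≤ 1 := by rw [h1, h2]; linarith
  have h4 := kap_nonneg x
  have h5 := kap_nonneg y
  nlinarith [sq_nonneg (kap x - kap y)]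

lemma gamma_kap_bound (hb : Odd b) (x y : ZMod b) (hxy : (x, y) ≠ (0, 0)) :
    kap y * (gam (nab x) (nab (x + 2 * y)) + gam (nab x) (nab (x - 2 * y))) +
      kap x * (gam (nab y) (nab (y + 2 * x)) + gam (nab y) (nab (y - 2 * x))) ≤ 73 / 20 := by
  have kx := kap_nonneg x
  have ky := kap_nonneg y
  by_cases hd : 2 * nab x + 2 * nab y < b
  · have h := diamond_bound hb x y hxy hd
    have kx1 := kap_le_one x
    have ky1 := kap_le_one y
    have g1 := gam_nonneg (nab x) (nab (x + 2 * y))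
    have g2 := gam_nonneg (nab x) (nab (x - 2 * y))
    have g3 := gam_nonneg (nab y) (nab (y + 2 * x))
    have g4 := gam_nonneg (nab y) (nab (y - 2 * x))
    have e1 : kap y * (gam (nab x) (nab (x + 2 * y)) + gam (nab x) (nab (x - 2 * y))) ≤
        1 * (gam (nab x) (nab (x + 2 * y)) + gam (nab x) (nab (x - 2 * y))) :=
      mul_le_mul_of_nonneg_right ky1 (by linarith)
    have e2 : kap x * (gam (nab y) (nab (y + 2 * x)) + gam (nab y) (nab (y - 2 * x))) ≤
        1 * (gam (nab y) (nab (y + 2 * x)) + gam (nab y) (nab (y - 2 * x))) :=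
      mul_le_mul_of_nonneg_right kx1 (by linarith)
    linarith
  · push Not at hd
    have h := kap_add_le x y hb hd
    have g1 := gam_le (nab x) (nab (x + 2 * y))
    have g2 := gam_le (nab x) (nab (x - 2 * y))
    have g3 := gam_le (nab y) (nab (y + 2 * x))
    have g4 := gam_le (nab y) (nab (y - 2 * x))
    have e1 : kap y * (gam (nab x) (nab (x + 2 * y)) + gam (nab x) (nab (x - 2 * y))) ≤
        kap y * (5 / 2) := mul_le_mul_of_nonneg_left (by linarith) ky
    have e2 : kap x * (gam (nab y) (nab (y + 2 * x)) + gam (nab y) (nab (y - 2 * x))) ≤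
        kap x * (5 / 2) := mul_le_mul_of_nonneg_left (by linarith) kx
    linarith

/-- Chunk D1: the weighted inequality. -/
theorem gabber_galil (hb : Odd b) (G : ZMod b → ZMod b → ℝ) (hG0 : G 0 0 = 0) :
    2 * (∑ x, ∑ y, kap y * (G x y * G (x + 2 * y) y)) +
      2 * (∑ x, ∑ y, kap x * (G x y * G x (y - 2 * x))) ≤
      73 / 20 * ∑ x, ∑ y, G x y ^ 2 := by
  -- first sum
  have h1 : 2 * (∑ x, ∑ y, kap y * (G x y * G (x + 2 * y) y)) ≤
      ∑ x, ∑ y, kap y * (gam (nab x) (nab (x + 2 * y)) + gam (nab x) (nab (x - 2 * y))) *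
        G x y ^ 2 := by
    have e1 : ∀ x y, 2 * (kap y * (G x y * G (x + 2 * y) y)) ≤
        kap y * gam (nab x) (nab (x + 2 * y)) * G x y ^ 2 +
        kap y * gam (nab (x + 2 * y)) (nab x) * G (x + 2 * y) y ^ 2 := by
      intro x y
      have := mul_le_mul_of_nonneg_left
        (two_mul_le_gam (nab x) (nab (x + 2 * y)) (G x y) (G (x + 2 * y) y)) (kap_nonneg y)
      nlinarith
    have e2 : ∑ x, ∑ y, kap y * gam (nab (x + 2 * y)) (nab x) * G (x + 2 * y) y ^ 2 =
        ∑ x, ∑ y, kap y * gam (nab x) (nab (x - 2 * y)) * G x y ^ 2 := by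
      rw [Finset.sum_comm]
      conv_rhs => rw [Finset.sum_comm]
      refine Finset.sum_congr rfl fun y _ => ?_
      rw [← Equiv.sum_comp (Equiv.addRight (2 * y))
        (fun x => kap y * gam (nab x) (nab (x - 2 * y)) * G x y ^ 2)]
      refine Finset.sum_congr rfl fun x _ => ?_
      simp only [Equiv.coe_addRight, add_sub_cancel_right]
    calc 2 * (∑ x, ∑ y, kap y * (G x y * G (x + 2 * y) y))
        = ∑ x, ∑ y, 2 * (kap y * (G x y * G (x + 2 * y) y)) := by
          rw [Finset.mul_sum]; simp only [Finset.mul_sum]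
      _ ≤ ∑ x, ∑ y, (kap y * gam (nab x) (nab (x + 2 * y)) * G x y ^ 2 +
          kap y * gam (nab (x + 2 * y)) (nab x) * G (x + 2 * y) y ^ 2) :=
          Finset.sum_le_sum fun x _ => Finset.sum_le_sum fun y _ => e1 x y
      _ = ∑ x, ∑ y, kap y * gam (nab x) (nab (x + 2 * y)) * G x y ^ 2 +
          ∑ x, ∑ y, kap y * gam (nab (x + 2 * y)) (nab x) * G (x + 2 * y) y ^ 2 := by
          simp only [Finset.sum_add_distrib]
      _ = _ := by
          rw [e2, ← Finset.sum_add_distrib]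
          refine Finset.sum_congr rfl fun x _ => ?_
          rw [← Finset.sum_add_distrib]
          refine Finset.sum_congr rfl fun y _ => ?_
          ring
  have h2 : 2 * (∑ x, ∑ y, kap x * (G x y * G x (y - 2 * x))) ≤
      ∑ x, ∑ y, kap x * (gam (nab y) (nab (y + 2 * x)) + gam (nab y) (nab (y - 2 * x))) *
        G x y ^ 2 := by
    have e1 : ∀ x y, 2 * (kap x * (G x y * G x (y - 2 * x))) ≤
        kap x * gam (nab y) (nab (y - 2 * x)) * G x y ^ 2 +
        kap x * gam (nab (y - 2 * x)) (nab y) * G x (y - 2 * x) ^ 2 := by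
      intro x y
      have := mul_le_mul_of_nonneg_left
        (two_mul_le_gam (nab y) (nab (y - 2 * x)) (G x y) (G x (y - 2 * x))) (kap_nonneg x)
      nlinarith
    have e2 : ∑ x, ∑ y, kap x * gam (nab (y - 2 * x)) (nab y) * G x (y - 2 * x) ^ 2 =
        ∑ x, ∑ y, kap x * gam (nab y) (nab (y + 2 * x)) * G x y ^ 2 := by
      refine Finset.sum_congr rfl fun x _ => ?_
      rw [← Equiv.sum_comp (Equiv.subRight (2 * x))
        (fun y => kap x * gam (nab y) (nab (y + 2 * x)) * G x y ^ 2)]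
      refine Finset.sum_congr rfl fun y _ => ?_
      simp only [Equiv.subRight_apply, sub_add_cancel]
    calc 2 * (∑ x, ∑ y, kap x * (G x y * G x (y - 2 * x)))
        = ∑ x, ∑ y, 2 * (kap x * (G x y * G x (y - 2 * x))) := by
          rw [Finset.mul_sum]; simp only [Finset.mul_sum]
      _ ≤ ∑ x, ∑ y, (kap x * gam (nab y) (nab (y - 2 * x)) * G x y ^ 2 +
          kap x * gam (nab (y - 2 * x)) (nab y) * G x (y - 2 * x) ^ 2) :=
          Finset.sum_le_sum fun x _ => Finset.sum_le_sum fun y _ => e1 x y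
      _ = ∑ x, ∑ y, kap x * gam (nab y) (nab (y - 2 * x)) * G x y ^ 2 +
          ∑ x, ∑ y, kap x * gam (nab (y - 2 * x)) (nab y) * G x (y - 2 * x) ^ 2 := by
          simp only [Finset.sum_add_distrib]
      _ = _ := by
          rw [e2, ← Finset.sum_add_distrib]
          refine Finset.sum_congr rfl fun x _ => ?_
          rw [← Finset.sum_add_distrib]
          refine Finset.sum_congr rfl fun y _ => ?_
          ring
  refine (add_le_add h1 h2).trans ?_
  rw [← Finset.sum_add_distrib, Finset.mul_sum]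
  refine Finset.sum_le_sum fun x _ => ?_
  rw [← Finset.sum_add_distrib, Finset.mul_sum]
  refine Finset.sum_le_sum fun y _ => ?_
  by_cases hxy : (x, y) = (0, 0)
  · rw [Prod.mk.injEq] at hxy
    rw [hxy.1, hxy.2, hG0]; simp
  · have := mul_le_mul_of_nonneg_right (gamma_kap_bound hb x y hxy) (sq_nonneg (G x y))
    linarith

end QT
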