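import Mathlib
import Crest.Agent.Lib.QT.Defs
import Crest.Agent.Lib.QT.ExpanderAux

/-! Row 137, chunk D: Gabber-Galil quantum expander. -/

set_option autoImplicit false

open scoped Matrix.Norms.L2Operator Matrix ComplexOrder

namespace QT

section
variable {b : ℕ} [NeZero b]

open ZMod (stdAddChar)

/-- Weyl coefficients. -/
noncomputable def wc (T : Matrix (ZMod b) (ZMod b) ℂ) (a c : ZMod b) : ℂ :=
  (b : ℂ)⁻¹ * ∑ j, (stdAddChar (-(a * j)) : ℂ) * T j (j + c)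

/-- Hilbert-Schmidt norm squared. -/
noncomputable def hz (T : Matrix (ZMod b) (ZMod b) ℂ) : ℝ := ∑ i, ∑ j, ‖T i j‖ ^ 2

lemma norm_std (c : ZMod b) : ‖(stdAddChar c : ℂ)‖ = 1 := by
  rw [ZMod.stdAddChar_apply]; exact Circle.norm_coe _

lemma conj_std (c : ZMod b) : (starRingEnd ℂ) (stdAddChar c : ℂ) = stdAddChar (-c) := by
  have h := norm_std c
  have h1 : (starRingEnd ℂ) (stdAddChar c : ℂ) = (stdAddChar c : ℂ)⁻¹ := by
    rw [Complex.inv_def, Complex.normSq_eq_norm_sq, h]; simp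
  rw [h1, AddChar.map_neg_eq_inv]

lemma star_std (c : ZMod b) : star (stdAddChar c : ℂ) = stdAddChar (-c) := conj_std c

lemma cast_ne_zero' : (b : ℂ) ≠ 0 := by exact_mod_cast NeZero.ne b

lemma parseval_one (f : ZMod b → ℂ) :
    ∑ a, ‖∑ j, (stdAddChar (-(a * j)) : ℂ) * f j‖ ^ 2 = b * ∑ j, ‖f j‖ ^ 2 := by
  have key : (((∑ a, ‖∑ j, (stdAddChar (-(a * j)) : ℂ) * f j‖ ^ 2 : ℝ)) : ℂ) =
      ((b * ∑ j, ‖f j‖ ^ 2 : ℝ) : ℂ) := by
    push_cast
    have h1 : ∀ a : ZMod b, ((‖∑ j, (stdAddChar (-(a * j)) : ℂ) * f j‖ : ℂ)) ^ 2 =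
        ∑ j, ∑ k, (stdAddChar (a * (k - j)) : ℂ) * (f j * (starRingEnd ℂ) (f k)) := by
      intro a
      rw [← Complex.mul_conj', map_sum, Finset.sum_mul_sum]
      refine Finset.sum_congr rfl fun j _ => Finset.sum_congr rfl fun k _ => ?_
      rw [map_mul, conj_std]
      have : (stdAddChar (a * (k - j)) : ℂ) = stdAddChar (-(a * j)) * stdAddChar (-(-(a * k))) := by
        rw [← AddChar.map_add_eq_mul]; congr 1; ring
      rw [this]; ring
    simp_rw [h1]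
    rw [Finset.sum_comm]
    have h2 : ∀ j : ZMod b, ∑ a, ∑ k, (stdAddChar (a * (k - j)) : ℂ) *
        (f j * (starRingEnd ℂ) (f k)) = b * ((‖f j‖ : ℂ)) ^ 2 := by
      intro j
      rw [Finset.sum_comm]
      have h3 : ∀ k : ZMod b, ∑ a : ZMod b, (stdAddChar (a * (k - j)) : ℂ) *
          (f j * (starRingEnd ℂ) (f k)) =
          if k = j then (b : ℂ) * (f j * (starRingEnd ℂ) (f k)) else 0 := by
        intro k
        rw [← Finset.sum_mul, AddChar.sum_mulShift (k - j) (ZMod.isPrimitive_stdAddChar b)]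
        by_cases hk : k = j
        · simp [hk]
        · have : k - j ≠ 0 := sub_ne_zero.mpr hk
          simp [hk, this]
      simp_rw [h3]
      rw [Finset.sum_ite_eq' Finset.univ j]
      simp [Complex.mul_conj']
    simp_rw [h2]
    rw [Finset.mul_sum]
  exact_mod_cast key

lemma parseval (T : Matrix (ZMod b) (ZMod b) ℂ) :
    hz T = b * ∑ a, ∑ c, ‖wc T a c‖ ^ 2 := by
  have hbr : (b : ℝ) ≠ 0 := by exact_mod_cast NeZero.ne b
  rw [Finset.sum_comm]
  have h1 : ∀ c : ZMod b, ∑ a, ‖wc T a c‖ ^ 2 = (b : ℝ)⁻¹ * ∑ j, ‖T j (j + c)‖ ^ 2 := by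
    intro c
    have := parseval_one (fun j => T j (j + c))
    unfold wc
    simp_rw [norm_mul, mul_pow]
    rw [← Finset.mul_sum, this, norm_inv, Complex.norm_natCast]
    field_simp
  simp_rw [h1]
  rw [← Finset.mul_sum, ← mul_assoc, mul_inv_cancel₀ hbr, one_mul, Finset.sum_comm]
  unfold hz
  refine Finset.sum_congr rfl fun i _ => ?_
  exact (Equiv.sum_comp (Equiv.addLeft i) (fun k => ‖T i k‖ ^ 2)).symm

lemma wc_sub (S T : Matrix (ZMod b) (ZMod b) ℂ) (a c : ZMod b) :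
    wc (S - T) a c = wc S a c - wc T a c := by
  unfold wc
  rw [← mul_sub, ← Finset.sum_sub_distrib]
  simp only [Matrix.sub_apply, mul_sub]

/-- The diagonal matrix with entries `ω^{j²+εj}`. -/
noncomputable def Dm (e : ZMod b) : Matrix (ZMod b) (ZMod b) ℂ :=
  Matrix.diagonal (fun j => (stdAddChar (j * j + e * j) : ℂ))

lemma wc_Dm (e : ZMod b) (T : Matrix (ZMod b) (ZMod b) ℂ) (a c : ZMod b) :
    wc (Dm e * T * (Dm e)ᴴ) a c = stdAddChar (-(c * c + e * c)) * wc T (a + 2 * c) c := by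
  unfold wc Dm
  rw [Matrix.diagonal_conjTranspose, mul_left_comm]
  congr 1
  rw [Finset.mul_sum]
  refine Finset.sum_congr rfl fun j _ => ?_
  rw [Matrix.mul_diagonal, Matrix.diagonal_mul, Pi.star_apply, star_std]
  have : (stdAddChar (-(c * c + e * c)) : ℂ) * (stdAddChar (-((a + 2 * c) * j)) * T j (j + c)) =
      (stdAddChar (-(a * j)) * stdAddChar (j * j + e * j) *
        stdAddChar (-((j + c) * (j + c) + e * (j + c)))) * T j (j + c) := by
    rw [← mul_assoc]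
    congr 1
    rw [← AddChar.map_add_eq_mul, ← AddChar.map_add_eq_mul, ← AddChar.map_add_eq_mul]
    congr 1
    ring
  rw [this]
  ring

/-- The Fourier matrix. -/
noncomputable def Um : Matrix (ZMod b) (ZMod b) ℂ :=
  Matrix.of (fun i j => ((Real.sqrt b : ℝ) : ℂ)⁻¹ * stdAddChar (i * j))

lemma Um_apply (i j : ZMod b) :
    (Um : Matrix (ZMod b) (ZMod b) ℂ) i j = ((Real.sqrt b : ℝ) : ℂ)⁻¹ * stdAddChar (i * j) := rfl

omit [NeZero b] in
lemma sqrt_mul_self' : ((Real.sqrt b : ℝ) : ℂ)⁻¹ * ((Real.sqrt b : ℝ) : ℂ)⁻¹ = (b : ℂ)⁻¹ := by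
  rw [← mul_inv, ← Complex.ofReal_mul, Real.mul_self_sqrt (by positivity)]
  simp

lemma Um_star (i j : ZMod b) : (Um : Matrix (ZMod b) (ZMod b) ℂ)ᴴ i j =
    ((Real.sqrt b : ℝ) : ℂ)⁻¹ * stdAddChar (-(j * i)) := by
  rw [Matrix.conjTranspose_apply, Um_apply, star_mul', star_std]
  congr 1
  simp

lemma Um_mul_star : (Um : Matrix (ZMod b) (ZMod b) ℂ) * Umᴴ = 1 := by
  ext i k
  rw [Matrix.mul_apply]
  simp_rw [Um_star, Um_apply]
  have h1 : ∀ j : ZMod b, ((Real.sqrt b : ℝ) : ℂ)⁻¹ * stdAddChar (i * j) *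
      (((Real.sqrt b : ℝ) : ℂ)⁻¹ * stdAddChar (-(k * j))) =
      (b : ℂ)⁻¹ * stdAddChar (j * (i - k)) := by
    intro j
    rw [← sqrt_mul_self']
    have : (stdAddChar (j * (i - k)) : ℂ) = stdAddChar (i * j) * stdAddChar (-(k * j)) := by
      rw [← AddChar.map_add_eq_mul]; congr 1; ring
    rw [this]; ring
  simp_rw [h1]
  rw [← Finset.mul_sum, AddChar.sum_mulShift (i - k) (ZMod.isPrimitive_stdAddChar b)]
  by_cases hik : i = k
  · subst hik
    simp [cast_ne_zero']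
  · have : i - k ≠ 0 := sub_ne_zero.mpr hik
    simp [hik, this]

lemma Um_star_mul : (Um : Matrix (ZMod b) (ZMod b) ℂ)ᴴ * Um = 1 := by
  rw [mul_eq_one_comm]; exact Um_mul_star

lemma wc_Um (T : Matrix (ZMod b) (ZMod b) ℂ) (a c : ZMod b) :
    wc (Um * T * Umᴴ) a c = stdAddChar (c * a) * wc T c (-a) := by
  have hentry : ∀ i k : ZMod b, ((Um * T * Umᴴ : Matrix (ZMod b) (ZMod b) ℂ)) i k =
      (b : ℂ)⁻¹ * ∑ m, ∑ l, (stdAddChar (i * l - k * m) : ℂ) * T l m := by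
    intro i k
    rw [Matrix.mul_apply, Finset.mul_sum]
    refine Finset.sum_congr rfl fun m _ => ?_
    rw [Matrix.mul_apply, Finset.sum_mul, Finset.mul_sum]
    refine Finset.sum_congr rfl fun l _ => ?_
    rw [Um_star, Um_apply, ← sqrt_mul_self', sub_eq_add_neg, AddChar.map_add_eq_mul]
    ring
  unfold wc
  rw [mul_left_comm]
  congr 1
  simp_rw [hentry]
  -- LHS = ∑ j, ψ(-(a j)) * (b⁻¹ * ∑ m, ∑ l, ψ(j l - (j+c) m) T l m)
  have h1 : ∀ j : ZMod b, (stdAddChar (-(a * j)) : ℂ) *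
      ((b : ℂ)⁻¹ * ∑ m, ∑ l, (stdAddChar (j * l - (j + c) * m) : ℂ) * T l m) =
      (b : ℂ)⁻¹ * ∑ m, ∑ l, (stdAddChar (j * (l - a - m)) : ℂ) *
        (stdAddChar (-(c * m)) * T l m) := by
    intro j
    rw [mul_left_comm]
    congr 1
    rw [Finset.mul_sum]
    refine Finset.sum_congr rfl fun m _ => ?_
    rw [Finset.mul_sum]
    refine Finset.sum_congr rfl fun l _ => ?_
    rw [← mul_assoc, ← mul_assoc, ← AddChar.map_add_eq_mul, ← AddChar.map_add_eq_mul]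
    congr 2
    ring
  simp_rw [h1]
  rw [← Finset.mul_sum, Finset.sum_comm]
  have h2 : ∀ m : ZMod b, ∑ j, ∑ l, (stdAddChar (j * (l - a - m)) : ℂ) *
      (stdAddChar (-(c * m)) * T l m) = b * (stdAddChar (-(c * m)) * T (m + a) m) := by
    intro m
    rw [Finset.sum_comm]
    have h3 : ∀ l : ZMod b, ∑ j, (stdAddChar (j * (l - a - m)) : ℂ) *
        (stdAddChar (-(c * m)) * T l m) =
        if l = m + a then (b : ℂ) * (stdAddChar (-(c * m)) * T l m) else 0 := by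
      intro l
      rw [← Finset.sum_mul, AddChar.sum_mulShift (l - a - m) (ZMod.isPrimitive_stdAddChar b)]
      by_cases hl : l = m + a
      · have : l - a - m = 0 := by rw [hl]; ring
        simp [hl]
      · have : l - a - m ≠ 0 := by
          intro h
          apply hl
          linear_combination h
        simp [hl, this]
    simp_rw [h3]
    rw [Finset.sum_ite_eq' Finset.univ (m + a)]
    simp
  simp_rw [h2]
  rw [← Finset.mul_sum, ← mul_assoc, inv_mul_cancel₀ cast_ne_zero', one_mul, Finset.mul_sum]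
  rw [← Equiv.sum_comp (Equiv.addRight (-a))
    (fun m => (stdAddChar (-(c * m)) : ℂ) * T (m + a) m)]
  refine Finset.sum_congr rfl fun j _ => ?_
  simp only [Equiv.coe_addRight, neg_add_cancel_right]
  rw [← mul_assoc, ← AddChar.map_add_eq_mul]
  congr 2
  ring

lemma hz_Um (T : Matrix (ZMod b) (ZMod b) ℂ) : hz (Um * T * Umᴴ) = hz T := by
  rw [parseval, parseval]
  congr 1
  simp_rw [wc_Um, norm_mul, norm_std, one_mul]
  rw [Finset.sum_comm]
  refine Finset.sum_congr rfl fun c _ => ?_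
  exact Equiv.sum_comp (Equiv.neg (ZMod b)) (fun a => ‖wc T c a‖ ^ 2)

lemma kap_neg (c : ZMod b) : ‖1 + (stdAddChar (-c) : ℂ)‖ = 2 * kap c := by
  have h : (stdAddChar c : ℂ) * (1 + stdAddChar (-c)) = 1 + stdAddChar c := by
    rw [mul_add, ← AddChar.map_add_eq_mul, add_neg_cancel, AddChar.map_zero_eq_one]
    ring
  have h2 := congrArg norm h
  rw [norm_mul, norm_std, one_mul] at h2
  rw [h2]
  unfold kap
  ring

lemma two_term (p q z w : ℂ) (hp : ‖p‖ = 1) (hq : ‖q‖ = 1) :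
    2 * ‖z‖ ^ 2 + 2 * ‖w‖ ^ 2 - 2 * ‖p + q‖ * (‖w‖ * ‖z‖) ≤
      ‖p * z - w‖ ^ 2 + ‖q * z - w‖ ^ 2 := by
  have h1 : ∀ p : ℂ, ‖p‖ = 1 → ‖p * z - w‖ ^ 2 =
      ‖z‖ ^ 2 + ‖w‖ ^ 2 - 2 * (p * z * (starRingEnd ℂ) w).re := by
    intro p hp
    rw [Complex.sq_norm, Complex.normSq_sub, ← Complex.sq_norm, ← Complex.sq_norm, norm_mul, hp,
      one_mul]
  rw [h1 p hp, h1 q hq]
  have h2 : (p * z * (starRingEnd ℂ) w).re + (q * z * (starRingEnd ℂ) w).re ≤
      ‖p + q‖ * (‖w‖ * ‖z‖) := by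
    rw [← Complex.add_re]
    refine (Complex.re_le_norm _).trans (le_of_eq ?_)
    rw [← add_mul, ← add_mul, norm_mul, norm_mul, RCLike.norm_conj]
    ring
  linarith

lemma half_bound (T : Matrix (ZMod b) (ZMod b) ℂ) :
    b * (4 * ∑ x, ∑ y, ‖wc T x y‖ ^ 2 -
      4 * ∑ x, ∑ y, kap y * (‖wc T x y‖ * ‖wc T (x + 2 * y) y‖)) ≤
      hz (Dm 0 * T * (Dm 0)ᴴ - T) + hz (Dm 1 * T * (Dm 1)ᴴ - T) := by
  rw [parseval, parseval, ← mul_add]
  have hbr : (0 : ℝ) ≤ b := by positivity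
  refine mul_le_mul_of_nonneg_left ?_ hbr
  have hre : ∑ x, ∑ y, ‖wc T (x + 2 * y) y‖ ^ 2 = ∑ x, ∑ y, ‖wc T x y‖ ^ 2 := by
    rw [Finset.sum_comm]
    conv_rhs => rw [Finset.sum_comm]
    refine Finset.sum_congr rfl fun y _ => ?_
    exact Equiv.sum_comp (Equiv.addRight (2 * y)) (fun x => ‖wc T x y‖ ^ 2)
  have h1 : 4 * ∑ x, ∑ y, ‖wc T x y‖ ^ 2 -
      4 * ∑ x, ∑ y, kap y * (‖wc T x y‖ * ‖wc T (x + 2 * y) y‖) =
      ∑ x, ∑ y, (2 * ‖wc T (x + 2 * y) y‖ ^ 2 + 2 * ‖wc T x y‖ ^ 2 -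
        4 * (kap y * (‖wc T x y‖ * ‖wc T (x + 2 * y) y‖))) := by
    simp only [Finset.sum_sub_distrib, Finset.sum_add_distrib, ← Finset.mul_sum, hre]
    ring
  rw [h1, ← Finset.sum_add_distrib]
  refine Finset.sum_le_sum fun x _ => ?_
  rw [← Finset.sum_add_distrib]
  refine Finset.sum_le_sum fun y _ => ?_
  rw [wc_sub, wc_sub, wc_Dm, wc_Dm]
  refine le_trans (le_of_eq ?_) (two_term _ _ _ _ (norm_std _) (norm_std _))
  have h2 : ‖(stdAddChar (-(y * y + 0 * y)) : ℂ) + stdAddChar (-(y * y + 1 * y))‖ =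
      2 * kap y := by
    have : (stdAddChar (-(y * y + 0 * y)) : ℂ) + stdAddChar (-(y * y + 1 * y)) =
        stdAddChar (-(y * y)) * (1 + stdAddChar (-y)) := by
      rw [mul_add, mul_one, ← AddChar.map_add_eq_mul]
      congr 2 <;> ring
    rw [this, norm_mul, norm_std, one_mul, kap_neg]
  rw [h2]
  ring

lemma expander_zmod (hb : Odd b) (T : Matrix (ZMod b) (ZMod b) ℂ) (hT : T.trace = 0) :
    (3 / 10 : ℝ) * hz T ≤
      hz (Dm 0 * T * (Dm 0)ᴴ - T) + hz (Dm 1 * T * (Dm 1)ᴴ - T) +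
      (hz ((Umᴴ * Dm 0 * Um) * T * (Umᴴ * Dm 0 * Um)ᴴ - T) +
       hz ((Umᴴ * Dm 1 * Um) * T * (Umᴴ * Dm 1 * Um)ᴴ - T)) := by
  have hrot : ∀ e : ZMod b, hz ((Umᴴ * Dm e * Um) * T * (Umᴴ * Dm e * Um)ᴴ - T) =
      hz (Dm e * (Um * T * Umᴴ) * (Dm e)ᴴ - Um * T * Umᴴ) := by
    intro e
    rw [← hz_Um]
    congr 1
    rw [Matrix.mul_sub, Matrix.sub_mul]
    congr 1
    rw [Matrix.conjTranspose_mul, Matrix.conjTranspose_mul, Matrix.conjTranspose_conjTranspose]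
    calc Um * (Umᴴ * Dm e * Um * T * (Umᴴ * ((Dm e)ᴴ * Um))) * Umᴴ
        = (Um * Umᴴ) * Dm e * (Um * T * Umᴴ) * (Dm e)ᴴ * (Um * Umᴴ) := by
          simp only [Matrix.mul_assoc]
      _ = _ := by rw [Um_mul_star, Matrix.one_mul, Matrix.mul_one]
  rw [hrot, hrot]
  have h1 := half_bound T
  have h2 := half_bound (Um * T * Umᴴ)
  have hG0 : ‖wc T 0 0‖ = 0 := by
    unfold wc
    have : ∑ j : ZMod b, (stdAddChar (-(0 * j)) : ℂ) * T j (j + 0) = T.trace := by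
      simp [Matrix.trace]
    rw [this, hT]; simp
  have h3 := gabber_galil hb (fun x y => ‖wc T x y‖) hG0
  have h4 : ∑ x, ∑ y, ‖wc (Um * T * Umᴴ) x y‖ ^ 2 = ∑ x, ∑ y, ‖wc T x y‖ ^ 2 := by
    simp_rw [wc_Um, norm_mul, norm_std, one_mul]
    rw [Finset.sum_comm]
    refine Finset.sum_congr rfl fun c _ => ?_
    exact Equiv.sum_comp (Equiv.neg (ZMod b)) (fun a => ‖wc T c a‖ ^ 2)
  have h5 : ∑ x, ∑ y, kap y * (‖wc (Um * T * Umᴴ) x y‖ * ‖wc (Um * T * Umᴴ) (x + 2 * y) y‖) =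
      ∑ x, ∑ y, kap x * (‖wc T x y‖ * ‖wc T x (y - 2 * x)‖) := by
    simp_rw [wc_Um, norm_mul, norm_std, one_mul]
    rw [Finset.sum_comm]
    refine Finset.sum_congr rfl fun c _ => ?_
    rw [← Equiv.sum_comp (Equiv.neg (ZMod b))
      (fun a => kap c * (‖wc T c a‖ * ‖wc T c (a - 2 * c)‖))]
    refine Finset.sum_congr rfl fun a _ => ?_
    simp only [Equiv.neg_apply]
    congr 4
    ring
  rw [h4, h5] at h2
  have h6 := parseval T
  have hS : 0 ≤ ∑ x, ∑ y, ‖wc T x y‖ ^ 2 :=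
    Finset.sum_nonneg fun x _ => Finset.sum_nonneg fun y _ => by positivity
  have hbr : (0 : ℝ) ≤ b := by positivity
  rw [h6]
  have h7 := mul_le_mul_of_nonneg_left h3 hbr
  have h8 := mul_nonneg hbr hS
  nlinarith

end

lemma hs_submatrix {b : ℕ} [NeZero b] (e : Fin b ≃ ZMod b) (S : Matrix (ZMod b) (ZMod b) ℂ) :
    hs (S.submatrix e e) = hz S := by
  unfold hs hz
  simp only [Matrix.submatrix_apply]
  rw [← Equiv.sum_comp e (fun i => ∑ j, ‖S i j‖ ^ 2)]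
  refine Finset.sum_congr rfl fun i _ => ?_
  exact Equiv.sum_comp e (fun j => ‖S (e i) j‖ ^ 2)

/-- Chunk D. -/
theorem exists_expander (b : ℕ) (hb : Odd b) :
    ∃ y : Fin 4 → Matrix (Fin b) (Fin b) ℂ,
      (∀ k, y k ∈ Matrix.unitaryGroup (Fin b) ℂ) ∧
      ∀ T : Matrix (Fin b) (Fin b) ℂ, T.trace = 0 →
        (3 / 10 : ℝ) * hs T ≤ ∑ k, hs (y k * T * (y k)ᴴ - T) := by
  have hb0 : b ≠ 0 := by rintro rfl; simp at hb
  have : NeZero b := ⟨hb0⟩
  let e : Fin b ≃ ZMod b := Fintype.equivOfCardEq (by simp [ZMod.card])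
  let Y : Fin 4 → Matrix (ZMod b) (ZMod b) ℂ :=
    ![Dm 0, Dm 1, Umᴴ * Dm 0 * Um, Umᴴ * Dm 1 * Um]
  have hD : ∀ ε : ZMod b, Dm ε * (Dm ε)ᴴ = 1 := by
    intro ε
    unfold Dm
    rw [Matrix.diagonal_conjTranspose, Matrix.diagonal_mul_diagonal, ← Matrix.diagonal_one]
    congr 1
    ext j
    rw [Pi.star_apply, star_std, ← AddChar.map_add_eq_mul, add_neg_cancel,
      AddChar.map_zero_eq_one]
  have hU : ∀ ε : ZMod b, (Umᴴ * Dm ε * Um) * (Umᴴ * Dm ε * Um)ᴴ = 1 := by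
    intro ε
    rw [Matrix.conjTranspose_mul, Matrix.conjTranspose_mul, Matrix.conjTranspose_conjTranspose]
    calc Umᴴ * Dm ε * Um * (Umᴴ * ((Dm ε)ᴴ * Um))
        = Umᴴ * Dm ε * (Um * Umᴴ) * (Dm ε)ᴴ * Um := by simp only [Matrix.mul_assoc]
      _ = Umᴴ * (Dm ε * (Dm ε)ᴴ) * Um := by
          rw [Um_mul_star, Matrix.mul_one, Matrix.mul_assoc Umᴴ (Dm ε)]
      _ = 1 := by rw [hD, Matrix.mul_one, Um_star_mul]
  have hY : ∀ k, Y k * (Y k)ᴴ = 1 := by
    intro k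
    fin_cases k
    · exact hD 0
    · exact hD 1
    · exact hU 0
    · exact hU 1
  refine ⟨fun k => (Y k).submatrix e e, fun k => ?_, fun T hT => ?_⟩
  · rw [Matrix.mem_unitaryGroup_iff, Matrix.star_eq_conjTranspose, Matrix.conjTranspose_submatrix,
      Matrix.submatrix_mul_equiv, hY k]
    exact Matrix.submatrix_one_equiv e
  · have hTe : T = (T.submatrix e.symm e.symm).submatrix e e := by
      ext i j; simp
    have hkey : ∀ k, (Y k).submatrix e e * T * ((Y k).submatrix e e)ᴴ - T =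
        (Y k * T.submatrix e.symm e.symm * (Y k)ᴴ - T.submatrix e.symm e.symm).submatrix e e := by
      intro k
      conv_lhs => rw [hTe]
      rw [Matrix.conjTranspose_submatrix, Matrix.submatrix_mul_equiv, Matrix.submatrix_mul_equiv]
      rfl
    have hTr : (T.submatrix e.symm e.symm).trace = 0 := by
      rw [← hT]
      unfold Matrix.trace
      simp only [Matrix.diag_apply, Matrix.submatrix_apply]
      exact Equiv.sum_comp e.symm (fun i => T i i)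
    have hmain := expander_zmod hb (T.submatrix e.symm e.symm) hTr
    simp_rw [hkey, hs_submatrix]
    conv_lhs => rw [hTe]
    rw [hs_submatrix, Fin.sum_univ_four]
    refine hmain.trans (le_of_eq ?_)
    simp only [Y, Matrix.cons_val_zero, Matrix.cons_val_one, Matrix.cons_val]
    ring

end QT
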