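import Mathlib
import Crest.Agent.Lib.QT.Defs

/-! Row 137, chunk E: auxiliary lemmas for the pointwise minimax. -/

set_option autoImplicit false

open scoped Matrix ComplexOrder

namespace QT

variable {b : ℕ}

local notation "𝕄" => Matrix (Fin b) (Fin b) ℂ

/-- spectral theorem in a convenient form -/
theorem mm_spec {H : 𝕄} (hH : H.IsHermitian) : ∃ (U : 𝕄) (l : Fin b → ℝ), U * Uᴴ = 1 ∧
    Uᴴ * U = 1 ∧ H = U * Matrix.diagonal (fun i => (l i : ℂ)) * Uᴴ := by
  refine ⟨hH.eigenvectorUnitary, hH.eigenvalues, ?_, ?_, ?_⟩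
  · exact Unitary.mul_star_self_of_mem hH.eigenvectorUnitary.2
  · exact Unitary.star_mul_self_of_mem hH.eigenvectorUnitary.2
  · conv_lhs => rw [hH.spectral_theorem, Unitary.conjStarAlgAut_apply]
    rfl

theorem mm_F_mul {U : 𝕄} (hU : Uᴴ * U = 1) (f g : Fin b → ℝ) :
    (U * Matrix.diagonal (fun i => (f i : ℂ)) * Uᴴ) *
      (U * Matrix.diagonal (fun i => (g i : ℂ)) * Uᴴ) =
      U * Matrix.diagonal (fun i => ((f i * g i : ℝ) : ℂ)) * Uᴴ := by
  calc _ = U * Matrix.diagonal (fun i => (f i : ℂ)) * (Uᴴ * U) *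
        Matrix.diagonal (fun i => (g i : ℂ)) * Uᴴ := by simp only [Matrix.mul_assoc]
    _ = U * (Matrix.diagonal (fun i => (f i : ℂ)) * Matrix.diagonal (fun i => (g i : ℂ))) * Uᴴ := by
        rw [hU, Matrix.mul_one]; simp only [Matrix.mul_assoc]
    _ = _ := by
        rw [Matrix.diagonal_mul_diagonal]
        simp only [Complex.ofReal_mul]

theorem mm_F_add {U : 𝕄} (f g : Fin b → ℝ) :
    (U * Matrix.diagonal (fun i => (f i : ℂ)) * Uᴴ) +
      (U * Matrix.diagonal (fun i => (g i : ℂ)) * Uᴴ) =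
      U * Matrix.diagonal (fun i => ((f i + g i : ℝ) : ℂ)) * Uᴴ := by
  rw [← Matrix.add_mul, ← Matrix.mul_add, Matrix.diagonal_add]
  simp only [Complex.ofReal_add]

theorem mm_F_sub {U : 𝕄} (f g : Fin b → ℝ) :
    (U * Matrix.diagonal (fun i => (f i : ℂ)) * Uᴴ) -
      (U * Matrix.diagonal (fun i => (g i : ℂ)) * Uᴴ) =
      U * Matrix.diagonal (fun i => ((f i - g i : ℝ) : ℂ)) * Uᴴ := by
  rw [← Matrix.sub_mul, ← Matrix.mul_sub, Matrix.diagonal_sub]
  simp only [Complex.ofReal_sub]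

theorem mm_F_one {U : 𝕄} (hU : U * Uᴴ = 1) :
    U * Matrix.diagonal (fun _ => ((1 : ℝ) : ℂ)) * Uᴴ = 1 := by
  simp [hU]

theorem mm_F_psd {U : 𝕄} {f : Fin b → ℝ} (hf : ∀ i, 0 ≤ f i) :
    (U * Matrix.diagonal (fun i => (f i : ℂ)) * Uᴴ).PosSemidef := by
  refine Matrix.PosSemidef.mul_mul_conjTranspose_same ?_ U
  rw [Matrix.posSemidef_diagonal_iff]
  intro i
  exact_mod_cast hf i

/-- square roots -/
theorem mm_sqrt {A : 𝕄} (hA : A.PosSemidef) : ∃ S : 𝕄, S.PosSemidef ∧ S * S = A := by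
  obtain ⟨U, l, h1, h2, h3⟩ := mm_spec hA.isHermitian
  have hl : ∀ i, 0 ≤ l i := by
    intro i
    have h4 : (Uᴴ * A * U).PosSemidef := hA.conjTranspose_mul_mul_same U
    have h5 : Uᴴ * A * U = Matrix.diagonal (fun i => (l i : ℂ)) := by
      calc Uᴴ * A * U = (Uᴴ * U) * Matrix.diagonal (fun i => (l i : ℂ)) * (Uᴴ * U) := by
            rw [h3]; simp only [Matrix.mul_assoc]
        _ = _ := by rw [h2, Matrix.one_mul, Matrix.mul_one]
    rw [h5, Matrix.posSemidef_diagonal_iff] at h4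
    exact_mod_cast h4 i
  refine ⟨U * Matrix.diagonal (fun i => ((√(l i) : ℝ) : ℂ)) * Uᴴ,
    mm_F_psd fun i => Real.sqrt_nonneg _, ?_⟩
  rw [mm_F_mul h2, h3]
  simp only [Real.mul_self_sqrt (hl _)]

theorem mm_tr_nonneg {P Q : 𝕄} (hP : P.PosSemidef) (hQ : Q.PosSemidef) :
    0 ≤ (Matrix.trace (P * Q)).re := by
  obtain ⟨S, hS, rfl⟩ := mm_sqrt hP
  have h1 : (S * Q * Sᴴ).PosSemidef := hQ.mul_mul_conjTranspose_same S
  rw [hS.isHermitian.eq] at h1
  have h2 : Matrix.trace (S * S * Q) = Matrix.trace (S * Q * S) := by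
    rw [Matrix.mul_assoc, Matrix.trace_mul_comm]
  rw [h2]
  exact (Complex.le_def.1 h1.trace_nonneg).1

theorem mm_hs_eq (T : 𝕄) : hs T = (Matrix.trace (Tᴴ * T)).re := by
  unfold hs
  rw [Matrix.trace]
  simp only [Matrix.diag_apply, Matrix.mul_apply, Matrix.conjTranspose_apply, Complex.re_sum]
  rw [Finset.sum_comm]
  refine Finset.sum_congr rfl fun i _ => Finset.sum_congr rfl fun j _ => ?_
  rw [← Complex.normSq_eq_norm_sq, RCLike.star_def, Complex.normSq_apply]
  simp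

theorem mm_hs_nonneg (T : 𝕄) : 0 ≤ hs T := by unfold hs; positivity

/-- Cauchy-Schwarz with a weight -/
theorem mm_cs (A B : 𝕄) {t : ℝ} (ht : 0 < t) :
    2 * (Matrix.trace (Aᴴ * B)).re ≤ t * hs A + t⁻¹ * hs B := by
  have key : ∀ x y : ℂ, 2 * ((starRingEnd ℂ x) * y).re ≤ t * ‖x‖ ^ 2 + t⁻¹ * ‖y‖ ^ 2 := by
    intro x y
    have h1 : ((starRingEnd ℂ x) * y).re ≤ ‖x‖ * ‖y‖ := by
      refine (Complex.re_le_norm _).trans ?_
      rw [norm_mul, RCLike.norm_conj]
    have h2 : t * ‖x‖ ^ 2 + t⁻¹ * ‖y‖ ^ 2 - 2 * (‖x‖ * ‖y‖) = t⁻¹ * (t * ‖x‖ - ‖y‖) ^ 2 := by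
      field_simp
      ring
    have h3 : 0 ≤ t⁻¹ * (t * ‖x‖ - ‖y‖) ^ 2 := by positivity
    linarith
  unfold hs
  rw [Matrix.trace]
  simp only [Matrix.diag_apply, Matrix.mul_apply, Matrix.conjTranspose_apply, Complex.re_sum]
  rw [Finset.sum_comm]
  simp only [Finset.mul_sum]
  rw [← Finset.sum_add_distrib]
  refine Finset.sum_le_sum fun i _ => ?_
  rw [← Finset.sum_add_distrib]
  exact Finset.sum_le_sum fun j _ => key _ _

/-- Powers-Stormer -/
theorem mm_ps {A B : 𝕄} (hA : A.PosSemidef) (hB : B.PosSemidef) :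
    ∃ a : 𝕄, (1 - a).PosSemidef ∧ (1 + a).PosSemidef ∧
      hs (A - B) ≤ (Matrix.trace ((A * A - B * B) * a)).re := by
  have hH : (A - B).IsHermitian := hA.isHermitian.sub hB.isHermitian
  obtain ⟨U, l, h1, h2, h3⟩ := mm_spec hH
  set a : 𝕄 := U * Matrix.diagonal (fun i => ((SignType.sign (l i) : ℝ) : ℂ)) * Uᴴ with ha
  set P : 𝕄 := U * Matrix.diagonal (fun i => ((max (l i) 0 : ℝ) : ℂ)) * Uᴴ with hP
  set N : 𝕄 := U * Matrix.diagonal (fun i => ((max (-l i) 0 : ℝ) : ℂ)) * Uᴴ with hN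
  have hP0 : P.PosSemidef := mm_F_psd fun i => le_max_right _ _
  have hN0 : N.PosSemidef := mm_F_psd fun i => le_max_right _ _
  have e1 : A - B = P - N := by
    rw [h3, hP, hN, mm_F_sub]
    congr 3
    funext i
    rw [max_zero_sub_max_neg_zero_eq_self]
  have e2 : (A - B) * a = P + N := by
    rw [h3, hP, hN, ha, mm_F_mul h2, mm_F_add]
    congr 3
    ext i
    rw [max_zero_add_max_neg_zero_eq_abs_self, mul_comm, sign_mul_self]
  have e3 : a * (A - B) = P + N := by
    rw [h3, hP, hN, ha, mm_F_mul h2, mm_F_add]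
    congr 3
    ext i
    rw [max_zero_add_max_neg_zero_eq_abs_self, sign_mul_self]
  have e4 : P * N = 0 := by
    rw [hP, hN, mm_F_mul h2]
    have : ∀ i, max (l i) 0 * max (-l i) 0 = 0 := by
      intro i
      rcases le_total (l i) 0 with h | h
      · rw [max_eq_right h, zero_mul]
      · rw [max_eq_right (by linarith : -l i ≤ 0), mul_zero]
    simp [this]
  have e5 : N * P = 0 := by
    have := congrArg Matrix.conjTranspose e4
    rwa [Matrix.conjTranspose_mul, hP0.isHermitian.eq, hN0.isHermitian.eq,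
      Matrix.conjTranspose_zero] at this
  refine ⟨a, ?_, ?_, ?_⟩
  · rw [← mm_F_one h1, ha, mm_F_sub]
    refine mm_F_psd fun i => ?_
    rcases lt_trichotomy (l i) 0 with h | h | h
    · simp [sign_neg h]
    · simp [h]
    · simp [sign_pos h]
  · rw [← mm_F_one h1, ha, mm_F_add]
    refine mm_F_psd fun i => ?_
    rcases lt_trichotomy (l i) 0 with h | h | h
    · simp [sign_neg h]
    · simp [h]
    · simp [sign_pos h]
  · -- the trace computation
    have f1 : Matrix.trace ((A * A - B * B) * a) = Matrix.trace ((P + N) * (A + B)) := by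
      have g1 : A * A - B * B = (1 / 2 : ℂ) • ((A - B) * (A + B) + (A + B) * (A - B)) := by
        have : (A - B) * (A + B) + (A + B) * (A - B) = (2 : ℂ) • (A * A - B * B) := by
          rw [two_smul]; noncomm_ring
        rw [this, smul_smul]; norm_num
      rw [g1, Matrix.smul_mul, Matrix.trace_smul, Matrix.add_mul, Matrix.trace_add]
      have g2 : Matrix.trace ((A - B) * (A + B) * a) = Matrix.trace ((P + N) * (A + B)) := by
        rw [Matrix.mul_assoc, Matrix.trace_mul_comm, Matrix.mul_assoc, e3, Matrix.trace_mul_comm]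
      have g3 : Matrix.trace ((A + B) * (A - B) * a) = Matrix.trace ((P + N) * (A + B)) := by
        rw [Matrix.mul_assoc, e2, Matrix.trace_mul_comm]
      rw [g2, g3, smul_eq_mul]; ring
    have f2 : (P + N) * (A + B) = P * (A - B) + N * (B - A) + (2 : ℂ) • (P * B) +
        (2 : ℂ) • (N * A) := by
      rw [two_smul, two_smul]; noncomm_ring
    have f3 : P * (A - B) = P * P := by rw [e1, Matrix.mul_sub, e4, sub_zero]
    have f4 : N * (B - A) = N * N := by
      have : B - A = N - P := by rw [← neg_sub, e1, neg_sub]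
      rw [this, Matrix.mul_sub, e5, sub_zero]
    have f5 : hs (A - B) = (Matrix.trace (P * P)).re + (Matrix.trace (N * N)).re := by
      rw [mm_hs_eq, hH.eq, e1]
      have : (P - N) * (P - N) = P * P + N * N := by
        have : (P - N) * (P - N) = P * P - P * N - N * P + N * N := by noncomm_ring
        rw [this, e4, e5]; simp
      rw [this, Matrix.trace_add, Complex.add_re]
    rw [f1, f2, f3, f4, f5]
    simp only [Matrix.trace_add, Matrix.trace_smul, Complex.add_re, smul_eq_mul]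
    have f6 := mm_tr_nonneg hP0 hB
    have f7 := mm_tr_nonneg hN0 hA
    simp only [Complex.mul_re, Complex.re_ofNat, Complex.im_ofNat]
    linarith

/-- real-linear functionals on matrices are given by traces -/
theorem mm_dual (f : 𝕄 →ₗ[ℝ] ℝ) : ∃ R : 𝕄, ∀ X : 𝕄, f X = (Matrix.trace (R * X)).re := by
  refine ⟨Matrix.of fun j i => (f (Matrix.single i j 1) : ℂ) -
    Complex.I * (f (Matrix.single i j Complex.I) : ℂ), fun X => ?_⟩
  have hX : ∀ i j, f (Matrix.single i j (X i j)) =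
      (X i j).re * f (Matrix.single i j 1) + (X i j).im * f (Matrix.single i j Complex.I) := by
    intro i j
    have : (Matrix.single i j (X i j) : 𝕄) =
        (X i j).re • Matrix.single i j 1 + (X i j).im • Matrix.single i j Complex.I := by
      rw [Matrix.smul_single, Matrix.smul_single, ← Matrix.single_add]
      congr 1
      apply Complex.ext <;> simp
    rw [this, map_add, map_smul, map_smul, smul_eq_mul, smul_eq_mul]
  conv_lhs => rw [Matrix.matrix_eq_sum_single X]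
  rw [map_sum]
  simp only [map_sum, hX]
  rw [Matrix.trace]
  simp only [Matrix.diag_apply, Matrix.mul_apply, Complex.re_sum]
  rw [Finset.sum_comm]
  refine Finset.sum_congr rfl fun j _ => Finset.sum_congr rfl fun i _ => ?_
  simp
  ring

theorem mm_closed_psd : IsClosed {P : 𝕄 | P.PosSemidef} := by
  have : {P : 𝕄 | P.PosSemidef} = {P : 𝕄 | Pᴴ = P} ∩
      ⋂ x : Fin b → ℂ, {P : 𝕄 | 0 ≤ star x ⬝ᵥ (P *ᵥ x)} := by
    ext P
    simp only [Set.mem_ofPred_eq, Set.mem_inter_iff, Set.mem_iInter,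
      Matrix.posSemidef_iff_dotProduct_mulVec, Matrix.IsHermitian]
  rw [this]
  refine IsClosed.inter (isClosed_eq (by fun_prop) continuous_id) (isClosed_iInter fun x => ?_)
  exact isClosed_le continuous_const (by fun_prop)

theorem mm_psd_comb {P Q : 𝕄} (hP : P.PosSemidef) (hQ : Q.PosSemidef) {s t : ℝ} (hs : 0 ≤ s)
    (ht : 0 ≤ t) : (s • P + t • Q).PosSemidef :=
  (hP.smul hs).add (hQ.smul ht)

theorem mm_convex_psd : Convex ℝ {P : 𝕄 | P.PosSemidef} :=
  fun _ hP _ hQ _ _ hs ht _ => mm_psd_comb hP hQ hs ht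

/-- the set of quadruples of selfadjoint contractions -/
def KSet (b : ℕ) : Set (Fin 4 → Matrix (Fin b) (Fin b) ℂ) :=
  {a | ∀ k, (1 - a k).PosSemidef ∧ (1 + a k).PosSemidef}

theorem mm_herm {a : 𝕄} (h : (1 + a).PosSemidef) : a.IsHermitian := by
  have := h.isHermitian.sub Matrix.isHermitian_one
  rwa [add_sub_cancel_left] at this

theorem mm_hs_le {a : 𝕄} (h1 : (1 - a).PosSemidef) (h2 : (1 + a).PosSemidef) : hs a ≤ b := by
  have h3 := mm_tr_nonneg h1 h2
  have h4 : (1 - a) * (1 + a) = 1 - aᴴ * a := by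
    rw [(mm_herm h2).eq]; noncomm_ring
  rw [h4, Matrix.trace_sub, Complex.sub_re, ← mm_hs_eq, Matrix.trace_one] at h3
  simp at h3
  linarith

theorem mm_entry_le (a : 𝕄) (i j : Fin b) : ‖a i j‖ ^ 2 ≤ hs a := by
  unfold hs
  refine le_trans ?_ (Finset.single_le_sum (f := fun i => ∑ j, ‖a i j‖ ^ 2)
    (fun i _ => by positivity) (Finset.mem_univ i))
  exact Finset.single_le_sum (f := fun j => ‖a i j‖ ^ 2) (fun j _ => by positivity)
    (Finset.mem_univ j)

theorem mm_K_convex : Convex ℝ (KSet b) := by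
  intro x hx y hy s t hs ht hst k
  constructor
  · have := mm_psd_comb (hx k).1 (hy k).1 hs ht
    have e : s • (1 - x k) + t • (1 - y k) = 1 - (s • x + t • y) k := by
      simp only [Pi.add_apply, Pi.smul_apply, smul_sub]
      have : (1 : 𝕄) = s • 1 + t • 1 := by rw [← add_smul, hst, one_smul]
      conv_rhs => rw [this]
      abel
    rwa [e] at this
  · have := mm_psd_comb (hx k).2 (hy k).2 hs ht
    have e : s • (1 + x k) + t • (1 + y k) = 1 + (s • x + t • y) k := by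
      simp only [Pi.add_apply, Pi.smul_apply, smul_add]
      have : (1 : 𝕄) = s • 1 + t • 1 := by rw [← add_smul, hst, one_smul]
      conv_rhs => rw [this]
      abel
    rwa [e] at this

theorem mm_K_compact : IsCompact (KSet b) := by
  have h1 : IsCompact (Set.pi Set.univ (fun _ : Fin 4 => (Set.pi Set.univ fun _ : Fin b =>
      Set.pi Set.univ fun _ : Fin b => Metric.closedBall (0 : ℂ) (√b)))) :=
    isCompact_univ_pi fun _ => isCompact_univ_pi fun _ => isCompact_univ_pi fun _ =>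
      isCompact_closedBall _ _
  refine IsCompact.of_isClosed_subset (s := (Set.pi Set.univ (fun _ : Fin 4 =>
    (Set.pi Set.univ fun _ : Fin b =>
      Set.pi Set.univ fun _ : Fin b => Metric.closedBall (0 : ℂ) (√b))))) h1 ?_ ?_
  · have : KSet b = ⋂ k, ((fun a : Fin 4 → 𝕄 => 1 - a k) ⁻¹' {P : 𝕄 | P.PosSemidef} ∩
        (fun a : Fin 4 → 𝕄 => 1 + a k) ⁻¹' {P : 𝕄 | P.PosSemidef}) := by
      ext a; simp [KSet]
    rw [this]
    refine isClosed_iInter fun k => IsClosed.inter (mm_closed_psd.preimage (by fun_prop))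
      (mm_closed_psd.preimage (by fun_prop))
  · intro a ha k _ i _ j _
    rw [mem_closedBall_zero_iff]
    apply Real.le_sqrt_of_sq_le
    exact (mm_entry_le (a k) i j).trans (mm_hs_le (ha k).1 (ha k).2)

/-- trace of a psd matrix zero implies zero -/
theorem mm_tr_zero {P : 𝕄} (hP : P.PosSemidef) (h : (Matrix.trace P).re = 0) : P = 0 := by
  obtain ⟨S, hS, rfl⟩ := mm_sqrt hP
  have h1 : hs S = 0 := by rw [mm_hs_eq, hS.isHermitian.eq, h]
  have h2 : S = 0 := by
    ext i j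
    have := mm_entry_le S i j
    rw [h1] at this
    have h3 : ‖S i j‖ ^ 2 = 0 := le_antisymm this (by positivity)
    simpa using h3
  rw [h2, Matrix.mul_zero]

/-- minimax via separation -/
theorem mm_sep (L : (Fin 4 → 𝕄) →ₗ[ℝ] 𝕄) (hL : Continuous L) (M : 𝕄)
    (hh : ∀ a ∈ KSet b, (L a + M).IsHermitian) (h : ∀ a ∈ KSet b, ¬ (L a + M).PosSemidef) :
    ∃ R : 𝕄, R.PosSemidef ∧ (Matrix.trace R).re = 1 ∧
      ∀ a ∈ KSet b, (Matrix.trace (R * (L a + M))).re < 0 := by
  have : LocallyConvexSpace ℝ 𝕄 := inferInstanceAs (LocallyConvexSpace ℝ (Fin b → Fin b → ℂ))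
  have hS1 : Convex ℝ ((fun a => L a + M) '' KSet b) := by
    have : (fun a => L a + M) '' KSet b = (fun z => z + M) '' (L '' KSet b) := by
      rw [Set.image_image]
    rw [this]
    have h2 := (mm_K_convex.linear_image L).translate M
    simpa only [add_comm M] using h2
  have hS2 : IsCompact ((fun a => L a + M) '' KSet b) :=
    mm_K_compact.image (hL.add continuous_const)
  have hd : Disjoint ((fun a => L a + M) '' KSet b) {P : 𝕄 | P.PosSemidef} := by
    rw [Set.disjoint_left]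
    rintro _ ⟨a, ha, rfl⟩ hP
    exact h a ha hP
  obtain ⟨f, u, v, h1, h2, h3⟩ := geometric_hahn_banach_compact_closed hS1 hS2 mm_convex_psd
    mm_closed_psd hd
  have hv : v < 0 := by
    have := h3 0 Matrix.PosSemidef.zero
    rwa [map_zero] at this
  have h4 : ∀ P : 𝕄, P.PosSemidef → 0 ≤ f P := by
    intro P hP
    by_contra hcon
    push Not at hcon
    have h5 : (v / f P) • P ∈ {P : 𝕄 | P.PosSemidef} :=
      hP.smul (div_nonneg_of_nonpos hv.le hcon.le)
    have h6 := h3 _ h5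
    rw [map_smul, smul_eq_mul, div_mul_cancel₀ _ hcon.ne] at h6
    exact lt_irrefl _ h6
  obtain ⟨R, hR⟩ := mm_dual (f : 𝕄 →ₗ[ℝ] ℝ)
  have hR' : ∀ X : 𝕄, f X = (Matrix.trace (R * X)).re := hR
  -- the Hermitian part
  obtain ⟨ρ, hρ⟩ : ∃ ρ : 𝕄, ρ = (1 / 2 : ℝ) • (R + Rᴴ) := ⟨_, rfl⟩
  have hρh : ρ.IsHermitian := by
    rw [hρ, Matrix.IsHermitian, Matrix.conjTranspose_smul, Matrix.conjTranspose_add,
      Matrix.conjTranspose_conjTranspose, add_comm]
    simp
  have hρt : ∀ X : 𝕄, X.IsHermitian → (Matrix.trace (ρ * X)).re = f X := by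
    intro X hX
    have e1 : (Matrix.trace (Rᴴ * X)).re = (Matrix.trace (R * X)).re := by
      have : Matrix.trace (Rᴴ * X) = star (Matrix.trace (R * X)) := by
        rw [← Matrix.trace_conjTranspose, Matrix.conjTranspose_mul, hX.eq, Matrix.trace_mul_comm]
      rw [this]; simp
    rw [hρ, Matrix.smul_mul, Matrix.trace_smul, Matrix.add_mul, Matrix.trace_add, hR',
      Complex.smul_re, Complex.add_re, e1, smul_eq_mul]
    ring
  have hρp : ρ.PosSemidef := by
    rw [Matrix.posSemidef_iff_dotProduct_mulVec]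
    refine ⟨hρh, fun x => ?_⟩
    have e1 : star x ⬝ᵥ (ρ *ᵥ x) = Matrix.trace (ρ * Matrix.vecMulVec x (star x)) := by
      rw [Matrix.mul_vecMulVec, Matrix.trace_vecMulVec, dotProduct_comm]
    have e2 : (Matrix.vecMulVec x (star x)).PosSemidef := Matrix.posSemidef_vecMulVec_self_star x
    have e3 : 0 ≤ (star x ⬝ᵥ (ρ *ᵥ x)).re := by
      rw [e1, hρt _ e2.isHermitian]; exact h4 _ e2
    have e4 : (star x ⬝ᵥ (ρ *ᵥ x)).im = 0 := hρh.im_star_dotProduct_mulVec_self x
    rw [Complex.le_def]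
    exact ⟨by simpa using e3, by simpa using e4.symm⟩
  have h0 : (0 : Fin 4 → 𝕄) ∈ KSet b := fun k => by
    simp only [Pi.zero_apply, sub_zero, add_zero]
    exact ⟨Matrix.PosSemidef.one, Matrix.PosSemidef.one⟩
  have h5 : ∀ a ∈ KSet b, (Matrix.trace (ρ * (L a + M))).re < 0 := by
    intro a ha
    rw [hρt _ (hh a ha)]
    exact (h1 _ ⟨a, ha, rfl⟩).trans (h2.trans hv)
  have hr : 0 < (Matrix.trace ρ).re := by
    refine lt_of_le_of_ne (Complex.le_def.1 hρp.trace_nonneg).1 fun hcon => ?_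
    have h6 := h5 0 h0
    rw [mm_tr_zero hρp hcon.symm] at h6
    simp at h6
  refine ⟨((Matrix.trace ρ).re)⁻¹ • ρ, hρp.smul (inv_nonneg.2 hr.le), ?_, fun a ha => ?_⟩
  · rw [Matrix.trace_smul, Complex.smul_re, smul_eq_mul, inv_mul_cancel₀ hr.ne']
  · rw [Matrix.smul_mul, Matrix.trace_smul, Complex.smul_re, smul_eq_mul]
    exact mul_neg_of_pos_of_neg (inv_pos.2 hr) (h5 a ha)

theorem mm_unitary {y : 𝕄} (hy : y ∈ Matrix.unitaryGroup (Fin b) ℂ) : y * yᴴ = 1 ∧ yᴴ * y = 1 :=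
  ⟨Matrix.mem_unitaryGroup_iff.1 hy, Matrix.mem_unitaryGroup_iff'.1 hy⟩

/-- bound for the trace of the square root of the density matrix -/
theorem mm_tau_le (hb : 0 < b) {s W : 𝕄} (hs0 : s.PosSemidef) (hs1 : (Matrix.trace (s * s)).re = 1)
    (hW : W ∈ XSet b) (hw : (Matrix.trace (s * s * W)).re ≤ 9 / 1000) :
    (Matrix.trace s).re ≤ 3 / 5 * √b := by
  obtain ⟨hW0, hW1, hW2⟩ := hW
  have hβ : 0 < √(b : ℝ) := Real.sqrt_pos.2 (by exact_mod_cast hb)
  have hβ2 : √(b : ℝ) * √b = b := Real.mul_self_sqrt (by positivity)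
  have hss : hs s = 1 := by rw [mm_hs_eq, hs0.isHermitian.eq, hs1]
  -- first part
  have h1 : 2 * (Matrix.trace (s * (1 - W))).re ≤ √b := by
    have e1 := mm_cs s (1 - W) (t := √b / 2) (by positivity)
    rw [hs0.isHermitian.eq, hss] at e1
    have e2 : hs (1 - W) ≤ (b : ℝ) / 4 := by
      refine le_trans ?_ hW2
      rw [mm_hs_eq, hW1.isHermitian.eq]
      have e3 := mm_tr_nonneg hW1 hW0
      have e4 : (1 - W) * (1 - W) = (1 - W) - (1 - W) * W := by noncomm_ring
      rw [e4, Matrix.trace_sub, Complex.sub_re]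
      linarith
    have e5 : (√b / 2)⁻¹ * hs (1 - W) ≤ (√b / 2)⁻¹ * ((b : ℝ) / 4) :=
      mul_le_mul_of_nonneg_left e2 (by positivity)
    have e6 : (√b / 2)⁻¹ * ((b : ℝ) / 4) = √b / 2 := by
      rw [← hβ2]; field_simp; norm_num
    linarith
  -- second part
  have h2 : 2 * (Matrix.trace (s * W)).re ≤ 19 / 100 * √b := by
    obtain ⟨V, hV, hVW⟩ := mm_sqrt hW0
    have e1 := mm_cs (V * s) V (t := 10 * √b) (by positivity)
    have e2 : (V * s)ᴴ * V = s * W := by
      rw [Matrix.conjTranspose_mul, hV.isHermitian.eq, hs0.isHermitian.eq, Matrix.mul_assoc, hVW]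
    have e3 : hs (V * s) = (Matrix.trace (s * s * W)).re := by
      rw [mm_hs_eq, Matrix.conjTranspose_mul, hV.isHermitian.eq, hs0.isHermitian.eq]
      congr 1
      calc Matrix.trace (s * V * (V * s)) = Matrix.trace (s * (V * V * s)) := by
            simp only [Matrix.mul_assoc]
        _ = Matrix.trace (V * V * s * s) := Matrix.trace_mul_comm _ _
        _ = Matrix.trace (W * (s * s)) := by rw [hVW, Matrix.mul_assoc]
        _ = _ := Matrix.trace_mul_comm _ _
    have e4 : hs V ≤ b := by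
      rw [mm_hs_eq, hV.isHermitian.eq, hVW]
      have := (Complex.le_def.1 hW1.trace_nonneg).1
      rw [Matrix.trace_sub, Matrix.trace_one] at this
      simp at this
      exact this
    rw [e2, e3] at e1
    have e5 : (10 * √b)⁻¹ * hs V ≤ (10 * √b)⁻¹ * (b : ℝ) :=
      mul_le_mul_of_nonneg_left e4 (by positivity)
    have e6 : (10 * √b)⁻¹ * (b : ℝ) = √b / 10 := by
      nth_rewrite 2 [← hβ2]; field_simp
    have e7 : 10 * √b * (Matrix.trace (s * s * W)).re ≤ 10 * √b * (9 / 1000) :=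
      mul_le_mul_of_nonneg_left hw (by positivity)
    linarith
  have h3 : Matrix.trace s = Matrix.trace (s * (1 - W)) + Matrix.trace (s * W) := by
    rw [← Matrix.trace_add, ← Matrix.mul_add, sub_add_cancel, Matrix.mul_one]
  rw [h3, Complex.add_re]
  linarith

/-- the contradiction at the heart of the minimax argument -/
theorem mm_core (hb : 0 < b) {y : Fin 4 → 𝕄} (hy : ∀ k, y k ∈ Matrix.unitaryGroup (Fin b) ℂ)
    (hgap : ∀ T : 𝕄, T.trace = 0 → (3 / 10 : ℝ) * hs T ≤ ∑ k, hs (y k * T * (y k)ᴴ - T))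
    {W : 𝕄} (hW : W ∈ XSet b) {R : 𝕄} (hR : R.PosSemidef) (hR1 : (Matrix.trace R).re = 1)
    (h : ∀ a ∈ KSet b, (1 / 4) * ∑ k, (Matrix.trace ((y k * R * (y k)ᴴ - R) * a k)).re +
      5 * (Matrix.trace (R * W)).re - 9 / 200 < 0) : False := by
  obtain ⟨s, hs0, rfl⟩ := mm_sqrt hR
  have hA : ∀ k, (y k * s * (y k)ᴴ).PosSemidef := fun k => hs0.mul_mul_conjTranspose_same (y k)
  choose a ha1 ha2 ha3 using fun k => mm_ps (hA k) hs0
  have e1 : ∀ k, (y k * s * (y k)ᴴ) * (y k * s * (y k)ᴴ) = y k * (s * s) * (y k)ᴴ := by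
    intro k
    calc _ = y k * s * ((y k)ᴴ * y k) * s * (y k)ᴴ := by simp only [Matrix.mul_assoc]
      _ = _ := by rw [(mm_unitary (hy k)).2, Matrix.mul_one]; simp only [Matrix.mul_assoc]
  simp only [e1] at ha3
  have h1 := h a fun k => ⟨ha1 k, ha2 k⟩
  have h2 : ∑ k, hs (y k * s * (y k)ᴴ - s) ≤
      ∑ k, (Matrix.trace ((y k * (s * s) * (y k)ᴴ - s * s) * a k)).re :=
    Finset.sum_le_sum fun k _ => ha3 k
  have h3 : 0 ≤ ∑ k, hs (y k * s * (y k)ᴴ - s) := Finset.sum_nonneg fun k _ => mm_hs_nonneg _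
  have hw0 : 0 ≤ (Matrix.trace (s * s * W)).re := mm_tr_nonneg hR hW.1
  have hw : (Matrix.trace (s * s * W)).re ≤ 9 / 1000 := by linarith
  have hτ := mm_tau_le hb hs0 hR1 hW hw
  have hτ0 : 0 ≤ (Matrix.trace s).re := (Complex.le_def.1 hs0.trace_nonneg).1
  have hτi : Matrix.trace s = ((Matrix.trace s).re : ℂ) := by
    apply Complex.ext
    · simp
    · have := (Complex.le_def.1 hs0.trace_nonneg).2
      simp only [Complex.zero_im] at this
      simp [← this]
  set τ : ℝ := (Matrix.trace s).re with hτdef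
  have hb' : (0 : ℝ) < b := by exact_mod_cast hb
  have hbc : (b : ℂ) ≠ 0 := by exact_mod_cast hb.ne'
  -- the traceless part
  obtain ⟨T, hT⟩ : ∃ T : 𝕄, T = s - ((τ / b : ℝ) : ℂ) • 1 := ⟨_, rfl⟩
  have hT0 : T.trace = 0 := by
    rw [hT, Matrix.trace_sub, Matrix.trace_smul, Matrix.trace_one, hτi]
    simp
    field_simp
    ring
  have hT1 : ∀ k, y k * T * (y k)ᴴ - T = y k * s * (y k)ᴴ - s := by
    intro k
    rw [hT, Matrix.mul_sub, Matrix.sub_mul, Matrix.mul_smul, Matrix.mul_one, Matrix.smul_mul,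
      (mm_unitary (hy k)).1]
    abel
  have h4 := hgap T hT0
  simp only [hT1] at h4
  have h5 : hs T = 1 - τ ^ 2 / b := by
    have f1 : Tᴴ = s - ((τ / b : ℝ) : ℂ) • 1 := by
      rw [hT, Matrix.conjTranspose_sub, Matrix.conjTranspose_smul, hs0.isHermitian.eq,
        Matrix.conjTranspose_one]
      congr 2
      simp
    have f2 : Tᴴ * T = s * s - (2 * ((τ / b : ℝ) : ℂ)) • s +
        (((τ / b : ℝ) : ℂ) * ((τ / b : ℝ) : ℂ)) • 1 := by
      rw [f1, hT, Matrix.sub_mul, Matrix.mul_sub, Matrix.mul_sub, Matrix.mul_smul, Matrix.mul_one,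
        Matrix.smul_mul, Matrix.one_mul, Matrix.smul_mul, Matrix.one_mul, smul_smul, two_mul,
        add_smul]
      abel
    rw [mm_hs_eq, f2, Matrix.trace_add, Matrix.trace_sub, Matrix.trace_smul, Matrix.trace_smul,
      Matrix.trace_one, hτi, Complex.add_re, Complex.sub_re, hR1]
    have f3 : (2 * ((τ / b : ℝ) : ℂ)) • ((τ : ℝ) : ℂ) = ((2 * (τ / b) * τ : ℝ) : ℂ) := by
      push_cast; simp
    have f4 : (((τ / b : ℝ) : ℂ) * ((τ / b : ℝ) : ℂ)) • ((Fintype.card (Fin b) : ℕ) : ℂ) =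
        ((τ / b * (τ / b) * b : ℝ) : ℂ) := by
      push_cast; simp
    rw [f3, f4, Complex.ofReal_re, Complex.ofReal_re]
    field_simp
    ring
  have h6 : τ ^ 2 / b ≤ 9 / 25 := by
    rw [div_le_iff₀ hb']
    have hβ2 : √(b : ℝ) * √b = b := Real.mul_self_sqrt (by positivity)
    have : τ ^ 2 ≤ (3 / 5 * √b) ^ 2 := pow_le_pow_left₀ hτ0 hτ 2
    nlinarith
  linarith

end QT
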