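import Mathlib
import Crest.Agent.Lib.QT.Defs
import Crest.Agent.Lib.QT.Expander
import Crest.Agent.Lib.QT.MinimaxAux

/-! Row 137, chunk E: pointwise minimax. -/

set_option autoImplicit false

open scoped Matrix.Norms.L2Operator Matrix ComplexOrder

namespace QT

/-- the linear part of the minimax map -/
noncomputable def mmL {b : ℕ} (y : Fin 4 → Matrix (Fin b) (Fin b) ℂ) :
    (Fin 4 → Matrix (Fin b) (Fin b) ℂ) →ₗ[ℝ] Matrix (Fin b) (Fin b) ℂ where
  toFun a := (1 / 4 : ℂ) • ∑ k, ((y k)ᴴ * a k * y k - a k)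
  map_add' a a' := by
    rw [← smul_add, ← Finset.sum_add_distrib]
    congr 1
    refine Finset.sum_congr rfl fun k _ => ?_
    rw [Pi.add_apply, Matrix.mul_add, Matrix.add_mul]
    abel
  map_smul' t a := by
    have h : ∀ k, ((y k)ᴴ * (t • a) k * y k - (t • a) k) = t • ((y k)ᴴ * a k * y k - a k) := by
      intro k
      rw [Pi.smul_apply, Matrix.mul_smul, Matrix.smul_mul, smul_sub]
    simp only [RingHom.id_apply, h]
    rw [← Finset.smul_sum, smul_comm]

/-- Chunk E. -/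
theorem exists_contractions (b : ℕ) (hb : 0 < b) (y : Fin 4 → Matrix (Fin b) (Fin b) ℂ)
    (hy : ∀ k, y k ∈ Matrix.unitaryGroup (Fin b) ℂ)
    (hgap : ∀ T : Matrix (Fin b) (Fin b) ℂ, T.trace = 0 →
        (3 / 10 : ℝ) * hs T ≤ ∑ k, hs (y k * T * (y k)ᴴ - T))
    (W : Matrix (Fin b) (Fin b) ℂ) (hW : W ∈ XSet b) :
    ∃ a : Fin 4 → Matrix (Fin b) (Fin b) ℂ,
      (∀ k, (1 - a k).PosSemidef ∧ (1 + a k).PosSemidef) ∧
      ((1 / 4 : ℂ) • ∑ k, ((y k)ᴴ * a k * y k - a k) + (5 : ℂ) • W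
        - (9 / 200 : ℂ) • (1 : Matrix (Fin b) (Fin b) ℂ)).PosSemidef := by
  by_contra hcon
  push Not at hcon
  have hL : Continuous (mmL y) := by
    unfold mmL
    simp only [LinearMap.coe_mk, AddHom.coe_mk]
    fun_prop
  have hW0 : W.IsHermitian := hW.1.isHermitian
  obtain ⟨R, hR, hR1, hR2⟩ := mm_sep (mmL y) hL ((5 : ℂ) • W - (9 / 200 : ℂ) • 1)
    (fun a ha => by
      have h1 : ∀ k, ((y k)ᴴ * a k * y k - a k).IsHermitian := fun k => by
        have h2 : (a k).IsHermitian := mm_herm (ha k).2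
        exact (Matrix.isHermitian_conjTranspose_mul_mul (y k) h2).sub h2
      have h3 : (∑ k, ((y k)ᴴ * a k * y k - a k)).IsHermitian := by
        rw [Matrix.IsHermitian, Matrix.conjTranspose_sum]
        exact Finset.sum_congr rfl fun k _ => h1 k
      have h4 : mmL y a = (1 / 4 : ℂ) • ∑ k, ((y k)ᴴ * a k * y k - a k) := rfl
      rw [h4, Matrix.IsHermitian, Matrix.conjTranspose_add, Matrix.conjTranspose_sub,
        Matrix.conjTranspose_smul, Matrix.conjTranspose_smul, Matrix.conjTranspose_smul,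
        h3.eq, hW0.eq, Matrix.conjTranspose_one]
      simp)
    (fun a ha hP => by
      refine hcon a ha ?_
      rw [add_sub_assoc]
      exact hP)
  refine mm_core hb hy hgap hW hR hR1 fun a ha => ?_
  have h1 := hR2 a ha
  have h4 : mmL y a = (1 / 4 : ℂ) • ∑ k, ((y k)ᴴ * a k * y k - a k) := rfl
  have h5 : ∀ k, Matrix.trace (R * ((y k)ᴴ * a k * y k - a k)) =
      Matrix.trace ((y k * R * (y k)ᴴ - R) * a k) := by
    intro k
    rw [Matrix.mul_sub, Matrix.sub_mul, Matrix.trace_sub, Matrix.trace_sub]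
    congr 1
    calc Matrix.trace (R * ((y k)ᴴ * a k * y k)) = Matrix.trace ((R * ((y k)ᴴ * a k)) * y k) := by
          simp only [Matrix.mul_assoc]
      _ = Matrix.trace (y k * (R * ((y k)ᴴ * a k))) := Matrix.trace_mul_comm _ _
      _ = _ := by simp only [Matrix.mul_assoc]
  rw [h4, Matrix.mul_add, Matrix.mul_sub, Matrix.mul_smul, Matrix.mul_smul, Matrix.mul_smul,
    Matrix.mul_one, Matrix.mul_sum, Matrix.trace_add, Matrix.trace_sub, Matrix.trace_smul,
    Matrix.trace_smul, Matrix.trace_smul, Matrix.trace_sum] at h1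
  simp only [h5] at h1
  have e1 : (1 / 4 : ℂ) = ((1 / 4 : ℝ) : ℂ) := by push_cast; rfl
  have e2 : (5 : ℂ) = ((5 : ℝ) : ℂ) := by push_cast; rfl
  have e3 : (9 / 200 : ℂ) = ((9 / 200 : ℝ) : ℂ) := by push_cast; rfl
  rw [e1, e2, e3, Complex.add_re, Complex.sub_re, smul_eq_mul, smul_eq_mul, smul_eq_mul,
    Complex.re_ofReal_mul, Complex.re_ofReal_mul, Complex.re_ofReal_mul, Complex.re_sum, hR1] at h1
  linarith

end QT
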