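import Mathlib
import Crest.Agent.Lib.QT.Defs
import Crest.Agent.Lib.QT.Minimax

/-! Row 137, chunk F: continuous selection. -/

set_option autoImplicit false

open scoped Matrix.Norms.L2Operator Matrix ComplexOrder

namespace QT

section
open scoped MatrixOrder

theorem sel_psd {b : ℕ} (A : Matrix (Fin b) (Fin b) ℂ) (hA : A.IsHermitian) (r : ℝ)
    (hr : ‖A‖ ≤ r) : (A + (r : ℂ) • (1 : Matrix (Fin b) (Fin b) ℂ)).PosSemidef := by
  have h1 : -algebraMap ℝ (Matrix (Fin b) (Fin b) ℂ) ‖A‖ ≤ A :=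
    IsSelfAdjoint.neg_algebraMap_norm_le_self (a := A) hA
  have h2 : algebraMap ℝ (Matrix (Fin b) (Fin b) ℂ) ‖A‖ ≤
      algebraMap ℝ (Matrix (Fin b) (Fin b) ℂ) r := by
    rw [← sub_nonneg, ← map_sub]
    rw [Matrix.nonneg_iff_posSemidef, Algebra.algebraMap_eq_smul_one]
    have : (0 : ℝ) ≤ r - ‖A‖ := sub_nonneg.2 hr
    exact Matrix.PosSemidef.one.smul this
  have h3 : 0 ≤ A + algebraMap ℝ (Matrix (Fin b) (Fin b) ℂ) r := by
    have := add_le_add h1 h2
    have h4 : (0 : Matrix (Fin b) (Fin b) ℂ) =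
        -algebraMap ℝ (Matrix (Fin b) (Fin b) ℂ) ‖A‖ +
          algebraMap ℝ (Matrix (Fin b) (Fin b) ℂ) ‖A‖ := by abel
    rw [h4]; exact this
  rw [Matrix.nonneg_iff_posSemidef, Algebra.algebraMap_eq_smul_one] at h3
  have e : (r : ℂ) • (1 : Matrix (Fin b) (Fin b) ℂ) = r • (1 : Matrix (Fin b) (Fin b) ℂ) :=
    Complex.coe_smul r _
  rw [e]
  exact h3

end

/-- Chunk F. -/
theorem exists_continuous_contractions (b : ℕ) (hb : Odd b) :
    ∃ y : Fin 4 → Matrix (Fin b) (Fin b) ℂ, (∀ k, y k ∈ Matrix.unitaryGroup (Fin b) ℂ) ∧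
    ∃ a : Fin 4 → XSet b → Matrix (Fin b) (Fin b) ℂ, (∀ k, Continuous (a k)) ∧
      (∀ k W, (1 - a k W).PosSemidef ∧ (1 + a k W).PosSemidef) ∧
      ∀ W : XSet b, ((1 / 4 : ℂ) • ∑ k, ((y k)ᴴ * a k W * y k - a k W) + (5 : ℂ) • W.1
        - (1 / 24 : ℂ) • (1 : Matrix (Fin b) (Fin b) ℂ)).PosSemidef := by
  have hb0 : 0 < b := hb.pos
  obtain ⟨y, hy, hgap⟩ := exists_expander b hb
  refine ⟨y, hy, ?_⟩
  let Φ : (Fin 4 → Matrix (Fin b) (Fin b) ℂ) → Matrix (Fin b) (Fin b) ℂ := fun a =>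
    (1 / 4 : ℂ) • ∑ k, ((y k)ᴴ * a k * y k - a k)
  have hΦ : ∀ (s s' : ℝ) (a a' : Fin 4 → Matrix (Fin b) (Fin b) ℂ),
      Φ (s • a + s' • a') = s • Φ a + s' • Φ a' := by
    intro s s' a a'
    simp only [Φ, smul_comm s (1 / 4 : ℂ), smul_comm s' (1 / 4 : ℂ), ← smul_add]
    congr 1
    rw [Finset.smul_sum, Finset.smul_sum, ← Finset.sum_add_distrib]
    refine Finset.sum_congr rfl fun k _ => ?_
    simp only [Pi.add_apply, Pi.smul_apply, Matrix.mul_add, Matrix.add_mul, Matrix.mul_smul,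
      Matrix.smul_mul, smul_sub]
    abel
  let t : XSet b → Set (Fin 4 → Matrix (Fin b) (Fin b) ℂ) := fun W =>
    {a | (∀ k, (1 - a k).PosSemidef ∧ (1 + a k).PosSemidef) ∧
      (Φ a + (5 : ℂ) • W.1 - (1 / 24 : ℂ) • (1 : Matrix (Fin b) (Fin b) ℂ)).PosSemidef}
  have ht : ∀ W, Convex ℝ (t W) := by
    intro W a ha a' ha' s s' hs hs' hss
    refine ⟨fun k => ⟨?_, ?_⟩, ?_⟩
    · have e : (1 : Matrix (Fin b) (Fin b) ℂ) - (s • a + s' • a') k =
          s • (1 - a k) + s' • (1 - a' k) := by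
        simp only [Pi.add_apply, Pi.smul_apply, smul_sub]
        have : (1 : Matrix (Fin b) (Fin b) ℂ) = (s + s') • (1 : Matrix (Fin b) (Fin b) ℂ) := by
          rw [hss, one_smul]
        conv_lhs => rw [this, add_smul]
        abel
      rw [e]
      exact ((ha.1 k).1.smul hs).add ((ha'.1 k).1.smul hs')
    · have e : (1 : Matrix (Fin b) (Fin b) ℂ) + (s • a + s' • a') k =
          s • (1 + a k) + s' • (1 + a' k) := by
        simp only [Pi.add_apply, Pi.smul_apply, smul_add]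
        have : (1 : Matrix (Fin b) (Fin b) ℂ) = (s + s') • (1 : Matrix (Fin b) (Fin b) ℂ) := by
          rw [hss, one_smul]
        conv_lhs => rw [this, add_smul]
        abel
      rw [e]
      exact ((ha.1 k).2.smul hs).add ((ha'.1 k).2.smul hs')
    · have e : Φ (s • a + s' • a') + (5 : ℂ) • W.1 -
          (1 / 24 : ℂ) • (1 : Matrix (Fin b) (Fin b) ℂ) =
          s • (Φ a + (5 : ℂ) • W.1 - (1 / 24 : ℂ) • (1 : Matrix (Fin b) (Fin b) ℂ)) +
          s' • (Φ a' + (5 : ℂ) • W.1 - (1 / 24 : ℂ) • (1 : Matrix (Fin b) (Fin b) ℂ)) := by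
        rw [hΦ]
        have : (5 : ℂ) • W.1 - (1 / 24 : ℂ) • (1 : Matrix (Fin b) (Fin b) ℂ) =
            (s + s') • ((5 : ℂ) • W.1 - (1 / 24 : ℂ) • (1 : Matrix (Fin b) (Fin b) ℂ)) := by
          rw [hss, one_smul]
        rw [add_sub_assoc, this, add_sub_assoc, add_sub_assoc, smul_add, smul_add, add_smul]
        abel
      show (Φ (s • a + s' • a') + (5 : ℂ) • W.1 -
          (1 / 24 : ℂ) • (1 : Matrix (Fin b) (Fin b) ℂ)).PosSemidef
      rw [e]
      exact (ha.2.smul hs).add (ha'.2.smul hs')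
  have H : ∀ W : XSet b, ∃ c : Fin 4 → Matrix (Fin b) (Fin b) ℂ, ∀ᶠ W' in nhds W, c ∈ t W' := by
    intro W
    obtain ⟨a, ha1, ha2⟩ := exists_contractions b hb0 y hy hgap W.1 W.2
    refine ⟨a, ?_⟩
    filter_upwards [Metric.ball_mem_nhds W (show (0 : ℝ) < 1 / 1500 by norm_num)] with W' hW'
    refine ⟨ha1, ?_⟩
    have hd : ‖W'.1 - W.1‖ < 1 / 1500 := by
      rw [Metric.mem_ball, Subtype.dist_eq, dist_eq_norm] at hW'
      exact hW'
    have hherm : ((5 : ℂ) • (W'.1 - W.1)).IsHermitian := by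
      have h1 : W'.1.IsHermitian := W'.2.1.isHermitian
      have h2 : W.1.IsHermitian := W.2.1.isHermitian
      have h3 := h1.sub h2
      rw [Matrix.IsHermitian, Matrix.conjTranspose_smul, h3.eq]
      simp
    have hnorm : ‖(5 : ℂ) • (W'.1 - W.1)‖ ≤ 1 / 300 := by
      rw [norm_smul]
      have : ‖(5 : ℂ)‖ = 5 := by simp
      rw [this]
      linarith
    have h := ha2.add (sel_psd _ hherm (1 / 300) hnorm)
    convert h using 1
    simp only [Φ]
    rw [smul_sub]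
    have e : (9 / 200 : ℂ) • (1 : Matrix (Fin b) (Fin b) ℂ) =
        (1 / 24 : ℂ) • (1 : Matrix (Fin b) (Fin b) ℂ) +
          (((1 / 300 : ℝ) : ℝ) : ℂ) • (1 : Matrix (Fin b) (Fin b) ℂ) := by
      rw [← add_smul]
      congr 1
      push_cast
      norm_num
    rw [e]
    abel
  obtain ⟨g, hg⟩ := exists_continuous_forall_mem_convex_of_local_const ht H
  refine ⟨fun k W => g W k, fun k => (continuous_apply k).comp g.continuous,
    fun k W => (hg W).1 k, fun W => (hg W).2⟩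

end QT
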