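import Mathlib

/-! Row 137, chunk H1: separability of finitely generated C*-algebras. -/

set_option autoImplicit false

namespace QT

theorem countable_submonoid_closure {M : Type*} [Monoid M] {s : Set M} (hs : s.Countable) :
    (Submonoid.closure s : Set M).Countable := by
  have := hs.to_subtype
  rw [Submonoid.closure_eq_image_prod]
  refine Set.Countable.mono ?_
    (Set.countable_range (fun l : List s => (l.map Subtype.val).prod))
  rintro x ⟨l, hl, rfl⟩
  refine ⟨l.attach.map (fun y => ⟨y.1, hl y.1 y.2⟩), ?_⟩
  simp [List.map_map, Function.comp_def]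

theorem separable_adjoin {A : Type*} [CStarAlgebra A] (s : Set A) (hs : s.Countable) :
    TopologicalSpace.SeparableSpace ((StarAlgebra.adjoin ℂ s).topologicalClosure) := by
  have h1 : (s ∪ star s).Countable := hs.union (by
    have : star s = star '' s := by
      ext x; simp [Set.mem_star]
    rw [this]; exact hs.image _)
  have h2 : TopologicalSpace.IsSeparable
      ((Submonoid.closure (s ∪ star s) : Set A)) :=
    (countable_submonoid_closure h1).isSeparable
  have h3 : TopologicalSpace.IsSeparable
      ((Submodule.span ℂ (Submonoid.closure (s ∪ star s) : Set A) : Submodule ℂ A) : Set A) :=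
    h2.span
  have h4 : ((StarAlgebra.adjoin ℂ s : StarSubalgebra ℂ A) : Set A) =
      ((Submodule.span ℂ (Submonoid.closure (s ∪ star s) : Set A) : Submodule ℂ A) : Set A) := by
    rw [← Algebra.adjoin_eq_span]
    rfl
  have h5 : TopologicalSpace.IsSeparable
      (((StarAlgebra.adjoin ℂ s).topologicalClosure : StarSubalgebra ℂ A) : Set A) := by
    rw [StarSubalgebra.topologicalClosure_coe, h4]
    exact h3.closure
  exact h5.separableSpace

end QT
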