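import Mathlib
import Crest.Agent.Lib.QT.Defs
import Crest.Agent.Lib.QT.XSet
import Crest.Agent.Lib.QT.LpCStar
import Crest.Agent.Lib.QT.NoCois
import Crest.Agent.Lib.QT.Separable
import Crest.Agent.Lib.QT.Obstruction
import Crest.Agent.Lib.QT.Selection
import Crest.Agent.Lib.QT.Quotient

/-! Row 137, chunk H: the C*-algebra. -/

set_option autoImplicit false

open scoped Matrix.Norms.L2Operator Matrix ComplexOrder MatrixOrder ENNReal

namespace QT

/-- Fiber algebras. -/
abbrev Fib (j : ℕ) : Type := C(XSet (2 * j + 1), Matrix (Fin (2 * j + 1)) (Fin (2 * j + 1)) ℂ)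

noncomputable instance (j : ℕ) : CStarAlgebra (Fib j) := inferInstance

instance (j : ℕ) : Nontrivial (Fib j) := inferInstance

/-- The big product algebra. -/
abbrev Big : Type := lp Fib ∞

noncomputable instance : CStarAlgebra Big := lpCStar

/-- point evaluation. -/
noncomputable def ptEval (j : ℕ) (W : XSet (2 * j + 1)) :
    Fib j →⋆ₐ[ℂ] Matrix (Fin (2 * j + 1)) (Fin (2 * j + 1)) ℂ where
  toFun f := f W
  map_one' := rfl
  map_mul' _ _ := rfl
  map_zero' := rfl
  map_add' _ _ := rfl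
  commutes' _ := rfl
  map_star' _ := rfl

theorem norm_le_two_of_contraction {n : Type*} [Fintype n] [DecidableEq n] {a : Matrix n n ℂ}
    (h0 : (1 - a).PosSemidef) (h1 : (1 + a).PosSemidef) : ‖a‖ ≤ 2 := by
  have e1 : (1 : Matrix n n ℂ) - (1 / 2 : ℝ) • (1 + a) = (1 / 2 : ℝ) • (1 - a) := by
    module
  have e2 : (1 : Matrix n n ℂ) - (1 / 2 : ℝ) • (1 - a) = (1 / 2 : ℝ) • (1 + a) := by
    module
  have p1 : ((1 / 2 : ℝ) • (1 + a)).PosSemidef := h1.smul (by norm_num)
  have p2 : ((1 / 2 : ℝ) • (1 - a)).PosSemidef := h0.smul (by norm_num)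
  have n1 := norm_le_one_of_posSemidef p1 (by rw [e1]; exact p2)
  have n2 := norm_le_one_of_posSemidef p2 (by rw [e2]; exact p1)
  have e3 : a = (1 / 2 : ℝ) • (1 + a) - (1 / 2 : ℝ) • (1 - a) := by module
  calc ‖a‖ = ‖(1 / 2 : ℝ) • (1 + a) - (1 / 2 : ℝ) • (1 - a)‖ := by rw [← e3]
    _ ≤ ‖(1 / 2 : ℝ) • (1 + a)‖ + ‖(1 / 2 : ℝ) • (1 - a)‖ := norm_sub_le _ _
    _ ≤ 1 + 1 := add_le_add n1 n2
    _ = 2 := by norm_num

theorem exists_star_mul_of_posSemidef {n : Type*} [Fintype n] [DecidableEq n] {a : Matrix n n ℂ}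
    (h : a.PosSemidef) : ∃ x, a = star x * x :=
  CStarAlgebra.nonneg_iff_eq_star_mul_self.mp h.nonneg

/-- Build an element of `Big` from a uniformly bounded family. -/
noncomputable def mkBig (f : ∀ j, Fib j) (C : ℝ) (hf : ∀ j W, ‖f j W‖ ≤ C) : Big :=
  ⟨f, memℓp_infty ⟨C, by
    rintro _ ⟨j, rfl⟩
    have : (0 : ℝ) ≤ C := (norm_nonneg _).trans (hf j (Classical.arbitrary _))
    exact (ContinuousMap.norm_le _ this).mpr (hf j)⟩⟩

@[simp] theorem mkBig_apply (f : ∀ j, Fib j) (C : ℝ) (hf : ∀ j W, ‖f j W‖ ≤ C) (j : ℕ) :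
    (mkBig f C hf : Big) j = f j := rfl

theorem exists_sum_of_mem_span {A : Type*} [Ring A] [Algebra ℂ A] (w z : A)
    (hz : z ∈ Submodule.span ℂ {z : A | ∃ x y, z = x * w * y}) :
    ∃ (n : ℕ) (x y : Fin n → A), z = ∑ α, x α * w * y α := by
  induction hz using Submodule.span_induction with
  | mem z hz =>
    obtain ⟨x, y, rfl⟩ := hz
    exact ⟨1, fun _ => x, fun _ => y, by simp⟩
  | zero => exact ⟨0, Fin.elim0, Fin.elim0, by simp⟩
  | add u v _ _ hu hv =>
    obtain ⟨n, x, y, rfl⟩ := hu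
    obtain ⟨m, x', y', rfl⟩ := hv
    exact ⟨n + m, Fin.append x x', Fin.append y y', by simp [Fin.sum_univ_add]⟩
  | smul c u _ hu =>
    obtain ⟨n, x, y, rfl⟩ := hu
    exact ⟨n, fun α => c • x α, y, by simp [Finset.smul_sum]⟩

/-- The closed ideal generated by `w`. -/
noncomputable def idealOf {A : Type*} [CStarAlgebra A] (w : A) : Submodule ℂ A :=
  (Submodule.span ℂ {z : A | ∃ x y, z = x * w * y}).topologicalClosure

theorem idealOf_left {A : Type*} [CStarAlgebra A] (w a x : A) (hx : x ∈ idealOf w) :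
    a * x ∈ idealOf w := by
  have h1 : ∀ z ∈ Submodule.span ℂ {z : A | ∃ x y, z = x * w * y},
      a * z ∈ Submodule.span ℂ {z : A | ∃ x y, z = x * w * y} := by
    intro z hz
    induction hz using Submodule.span_induction with
    | mem z hz =>
      obtain ⟨x, y, rfl⟩ := hz
      exact Submodule.subset_span ⟨a * x, y, by simp [mul_assoc]⟩
    | zero => simp
    | add u v _ _ hu hv => rw [mul_add]; exact add_mem hu hv
    | smul c u _ hu => rw [mul_smul_comm]; exact Submodule.smul_mem _ _ hu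
  exact map_mem_closure (continuous_const_mul a) hx h1

theorem idealOf_right {A : Type*} [CStarAlgebra A] (w a x : A) (hx : x ∈ idealOf w) :
    x * a ∈ idealOf w := by
  have h1 : ∀ z ∈ Submodule.span ℂ {z : A | ∃ x y, z = x * w * y},
      z * a ∈ Submodule.span ℂ {z : A | ∃ x y, z = x * w * y} := by
    intro z hz
    induction hz using Submodule.span_induction with
    | mem z hz =>
      obtain ⟨x, y, rfl⟩ := hz
      exact Submodule.subset_span ⟨x, y * a, by simp [mul_assoc]⟩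
    | zero => simp
    | add u v _ _ hu hv => rw [add_mul]; exact add_mem hu hv
    | smul c u _ hu => rw [smul_mul_assoc]; exact Submodule.smul_mem _ _ hu
  exact map_mem_closure (f := fun z => z * a) (continuous_mul_const a) hx h1

theorem idealOf_star {A : Type*} [CStarAlgebra A] (w : A) (hw : star w = w) (x : A)
    (hx : x ∈ idealOf w) : star x ∈ idealOf w := by
  have h1 : ∀ z ∈ Submodule.span ℂ {z : A | ∃ x y, z = x * w * y},
      star z ∈ Submodule.span ℂ {z : A | ∃ x y, z = x * w * y} := by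
    intro z hz
    induction hz using Submodule.span_induction with
    | mem z hz =>
      obtain ⟨x, y, rfl⟩ := hz
      exact Submodule.subset_span ⟨star y, star x, by simp [mul_assoc, hw]⟩
    | zero => simp
    | add u v _ _ hu hv => rw [star_add]; exact add_mem hu hv
    | smul c u _ hu => rw [star_smul]; exact Submodule.smul_mem _ _ hu
  exact map_mem_closure continuous_star hx h1

theorem mem_idealOf_self {A : Type*} [CStarAlgebra A] (w : A) : w ∈ idealOf w :=
  subset_closure (Submodule.subset_span ⟨1, 1, by simp⟩)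

theorem exists_approx_of_mem_idealOf {A : Type*} [CStarAlgebra A] (w a : A) (ha : a ∈ idealOf w)
    (ε : ℝ) (hε : 0 < ε) : ∃ (n : ℕ) (x y : Fin n → A), ‖a - ∑ α, x α * w * y α‖ < ε := by
  obtain ⟨z, hz, hd⟩ := Metric.mem_closure_iff.mp ha ε hε
  obtain ⟨n, x, y, rfl⟩ := exists_sum_of_mem_span w z hz
  exact ⟨n, x, y, by rwa [dist_eq_norm] at hd⟩

/-- Abstract version of chunk H. -/
theorem exists_algebra_of {A : Type} [CStarAlgebra A] [TopologicalSpace.SeparableSpace A]
    (ev : ∀ j : ℕ, XSet (2 * j + 1) → A →⋆ₐ[ℂ] Matrix (Fin (2 * j + 1)) (Fin (2 * j + 1)) ℂ)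
    (hcont : ∀ j a, Continuous fun W => ev j W a)
    (hnorm : ∀ j W a, ‖ev j W a‖ ≤ ‖a‖)
    (w : A) (hw : ∀ j W, ev j W w = W.1) (hwstar : star w = w)
    (y a : Fin 4 → A) (hy : ∀ k, y k ∈ unitary A)
    (hnn : ∀ f : A, (∀ j W, (ev j W f).PosSemidef) → ∃ x, f = star x * x)
    (ha1' : ∀ k j W, (1 - ev j W (a k)).PosSemidef)
    (ha2' : ∀ k j W, (1 + ev j W (a k)).PosSemidef)
    (hrel' : ∀ j W, ((1 / 4 : ℂ) • ∑ k, ((ev j W (y k))ᴴ * ev j W (a k) * ev j W (y k)
        - ev j W (a k)) + (5 : ℂ) • W.1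
        - (1 / 24 : ℂ) • (1 : Matrix (Fin (2 * j + 1)) (Fin (2 * j + 1)) ℂ)).PosSemidef) :
    ∃ (B : Type) (_ : CStarAlgebra B), TopologicalSpace.SeparableSpace B ∧ NoCoisometry B ∧
      ∃ (y c : Fin 4 → B) (h : B), (∀ k, y k ∈ unitary B) ∧
        (∀ k, ∃ x, c k = star x * x) ∧ (∀ k, ∃ x, 1 - c k = star x * x) ∧
        (∃ x, h = star x * x) ∧
        (1 / 4 : ℂ) • ∑ k, star (y k) * c k * y k
          = (1 / 4 : ℂ) • ∑ k, c k + (1 / 48 : ℂ) • (1 : B) + h := by
  have ha1 : ∀ k, ∃ x, 1 - a k = star x * x := fun k => hnn _ fun j W => by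
    rw [map_sub, map_one]; exact ha1' k j W
  have ha2 : ∀ k, ∃ x, 1 + a k = star x * x := fun k => hnn _ fun j W => by
    rw [map_add, map_one]; exact ha2' k j W
  have hrel : ∃ x, (1 / 4 : ℂ) • ∑ k, (star (y k) * a k * y k - a k) + (5 : ℂ) • w
        - (1 / 24 : ℂ) • (1 : A) = star x * x := hnn _ fun j W => by
    simp only [map_sub, map_add, map_smul, map_sum, map_mul, map_star, map_one, hw]
    exact hrel' j W
  obtain ⟨B, instB, π, hsurj, hπc, hker⟩ := exists_quotient A (idealOf w)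
    (fun a x hx => idealOf_left w a x hx) (fun a x hx => idealOf_right w a x hx)
    (fun x hx => idealOf_star w hwstar x hx) (Submodule.isClosed_topologicalClosure _)
  refine ⟨B, instB, hsurj.denseRange.separableSpace hπc, ?_, ?_⟩
  · exact noCoisometry_of_eval ev hcont hnorm w hw π hsurj
      (fun a ha ε hε => exists_approx_of_mem_idealOf w a ((hker a).mp ha) ε hε)
  · have hπw : π w = 0 := (hker w).mpr (mem_idealOf_self w)
    have hhalf : ∀ x : B, (1 / 2 : ℂ) • (star x * x) =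
        star (((Real.sqrt 2 : ℝ) : ℂ)⁻¹ • x) * (((Real.sqrt 2 : ℝ) : ℂ)⁻¹ • x) := by
      intro x
      rw [star_smul, smul_mul_smul_comm]
      congr 1
      have h2 : ((Real.sqrt 2 : ℝ) : ℂ) * ((Real.sqrt 2 : ℝ) : ℂ) = 2 := by
        rw [← Complex.ofReal_mul, Real.mul_self_sqrt (by norm_num)]; norm_num
      have h3 : star (((Real.sqrt 2 : ℝ) : ℂ)⁻¹) = ((Real.sqrt 2 : ℝ) : ℂ)⁻¹ := by
        rw [star_inv₀]; simp
      rw [h3, ← mul_inv, h2]; norm_num
    obtain ⟨x0, hx0⟩ := hrel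
    refine ⟨fun k => π (y k), fun k => (1 / 2 : ℂ) • (1 + π (a k)),
      (1 / 2 : ℂ) • (star (π x0) * π x0), ?_, ?_, ?_, ?_, ?_⟩
    · intro k
      have := hy k
      rw [Unitary.mem_iff] at this ⊢
      rw [← map_star, ← map_mul, ← map_mul, this.1, this.2, map_one]
      exact ⟨rfl, rfl⟩
    · intro k
      obtain ⟨x, hx⟩ := ha2 k
      refine ⟨((Real.sqrt 2 : ℝ) : ℂ)⁻¹ • π x, ?_⟩
      change (1 / 2 : ℂ) • (1 + π (a k)) = _
      rw [← map_one π, ← map_add, hx, map_mul, map_star]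
      exact hhalf _
    · intro k
      obtain ⟨x, hx⟩ := ha1 k
      refine ⟨((Real.sqrt 2 : ℝ) : ℂ)⁻¹ • π x, ?_⟩
      have e : (1 : B) - (1 / 2 : ℂ) • (1 + π (a k)) = (1 / 2 : ℂ) • (1 - π (a k)) := by
        module
      change (1 : B) - (1 / 2 : ℂ) • (1 + π (a k)) = _
      rw [e, ← map_one π, ← map_sub, hx, map_mul, map_star]
      exact hhalf _
    · exact ⟨_, hhalf _⟩
    · have h1 : star (π x0) * π x0 = (1 / 4 : ℂ) • ∑ k, (star (π (y k)) * π (a k) * π (y k)
          - π (a k)) - (1 / 24 : ℂ) • (1 : B) := by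
        rw [← map_star, ← map_mul, ← hx0]
        simp only [map_sub, map_add, map_smul, map_sum, map_mul, map_star, hπw, map_one]
        simp
      rw [h1]
      have h2 : ∀ k, star (π (y k)) * ((1 / 2 : ℂ) • (1 + π (a k))) * π (y k) =
          (1 / 2 : ℂ) • (1 + star (π (y k)) * π (a k) * π (y k)) := by
        intro k
        have h3 : star (π (y k)) * π (y k) = 1 := by
          rw [← map_star, ← map_mul, (Unitary.mem_iff.mp (hy k)).1, map_one]
        rw [mul_smul_comm, smul_mul_assoc, mul_add, add_mul, mul_one, h3]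
      simp only [h2]
      rw [← Finset.smul_sum, ← Finset.smul_sum, Finset.sum_add_distrib, Finset.sum_add_distrib,
        Finset.sum_sub_distrib]
      module

/-- Chunk H. -/
theorem exists_algebra :
    ∃ (B : Type) (_ : CStarAlgebra B), TopologicalSpace.SeparableSpace B ∧ NoCoisometry B ∧
      ∃ (y c : Fin 4 → B) (h : B), (∀ k, y k ∈ unitary B) ∧
        (∀ k, ∃ x, c k = star x * x) ∧ (∀ k, ∃ x, 1 - c k = star x * x) ∧
        (∃ x, h = star x * x) ∧
        (1 / 4 : ℂ) • ∑ k, star (y k) * c k * y k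
          = (1 / 4 : ℂ) • ∑ k, c k + (1 / 48 : ℂ) • (1 : B) + h := by
  classical
  choose y hy a ha hc hpos using fun j : ℕ =>
    exists_continuous_contractions (2 * j + 1) ⟨j, rfl⟩
  -- elements of the big algebra
  let Y : Fin 4 → Big := fun k => mkBig (fun j => ContinuousMap.const _ (y j k)) 1
    (fun j W => by
      have := hy j k
      exact CStarRing.norm_of_mem_unitary this |>.le)
  let a' : Fin 4 → Big := fun k => mkBig (fun j => ⟨a j k, ha j k⟩) 2
    (fun j W => norm_le_two_of_contraction (hc j k W).1 (hc j k W).2)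
  let w : Big := mkBig (fun j => ⟨Subtype.val, continuous_subtype_val⟩) 1
    (fun j W => norm_le_one_of_XSet W.2)
  let s : Set Big := Set.range Y ∪ Set.range a' ∪ {w}
  have hs : s.Countable :=
    ((Set.countable_range _).union (Set.countable_range _)).union (Set.countable_singleton _)
  let S : StarSubalgebra ℂ Big := (StarAlgebra.adjoin ℂ s).topologicalClosure
  have hScl : IsClosed (S : Set Big) := StarSubalgebra.isClosed_topologicalClosure _
  have hsS : s ⊆ S := (StarAlgebra.subset_adjoin ℂ s).trans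
    (StarSubalgebra.le_topologicalClosure _)
  let _ : CStarAlgebra S := StarSubalgebra.cstarAlgebra S (h_closed := hScl)
  have hsep : TopologicalSpace.SeparableSpace S := separable_adjoin s hs
  have hYS : ∀ k, Y k ∈ S := fun k => hsS (Or.inl (Or.inl ⟨k, rfl⟩))
  have haS : ∀ k, a' k ∈ S := fun k => hsS (Or.inl (Or.inr ⟨k, rfl⟩))
  have hwS : w ∈ S := hsS (Or.inr rfl)
  have hYu : ∀ k, star (Y k) * Y k = 1 ∧ Y k * star (Y k) = 1 := by
    intro k
    constructor
    · apply lp.ext; funext j; ext1 W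
      exact (Unitary.mem_iff.mp (hy j k)).1
    · apply lp.ext; funext j; ext1 W
      exact (Unitary.mem_iff.mp (hy j k)).2
  have hnn : ∀ f ∈ S, (∀ j (W : XSet (2 * j + 1)), ((f : Big) j W).PosSemidef) →
      ∃ x ∈ S, f = star x * x := by
    intro f hf hfp
    refine lp_nonneg S hScl f hf fun j => ?_
    exact continuousMap_nonneg (f j) fun W => exists_star_mul_of_posSemidef (hfp j W)
  refine exists_algebra_of (A := S)
    (fun j W => ((ptEval j W).comp (lpEval j)).comp S.subtype)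
    (fun j a => (a.1 j).continuous)
    (fun j W a => (ContinuousMap.norm_coe_le_norm (a.1 j) W).trans
      (lp.norm_apply_le_norm (by simp) a.1 j))
    ⟨w, hwS⟩ (fun j W => rfl) ?_ (fun k => ⟨Y k, hYS k⟩) (fun k => ⟨a' k, haS k⟩) ?_ ?_
    (fun k j W => (hc j k W).1) (fun k j W => (hc j k W).2) (fun j W => hpos j W)
  · apply Subtype.ext
    apply lp.ext
    funext j
    ext1 W
    exact W.2.1.1
  · intro k
    rw [Unitary.mem_iff]
    exact ⟨Subtype.ext (hYu k).1, Subtype.ext (hYu k).2⟩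
  · intro f hf
    obtain ⟨x, hx, hxx⟩ := hnn f f.2 hf
    exact ⟨⟨x, hx⟩, Subtype.ext hxx⟩

end QT
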