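import Mathlib
import Crest.Agent.Lib.QT.Defs

/-! Row 137, chunk I3a: additivity of the layer-cake integral on `C(Y, ℝ)`. -/

set_option autoImplicit false
set_option linter.unusedSectionVars false

open MeasureTheory Set TopologicalSpace
open scoped NNReal ENNReal

namespace QT

section
variable {Y : Type*} [TopologicalSpace Y] [CompactSpace Y] {d : C(Y, ℝ) → ℝ}

theorem CommDim.sq_le (hd : CommDim d) (h r : C(Y, ℝ)) (hh : 0 ≤ h) : d (r * h * r) ≤ d h := by
  have := hd.orth h r 0 hh (by simp)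
  simpa [hd.zero] using this

theorem CommDim.dom (hd : CommDim d) (f g : C(Y, ℝ)) (hf : 0 ≤ f) (hg : 0 ≤ g) (c : ℝ)
    (hc : 0 < c) (h : ∀ y, 0 < f y → c ≤ g y) : d f ≤ d g := by
  let r : C(Y, ℝ) := ⟨fun y => Real.sqrt (f y / max (g y) c), by
    refine Real.continuous_sqrt.comp
      (Continuous.div f.continuous (g.continuous.max continuous_const) ?_)
    intro y
    exact (lt_of_lt_of_le hc (le_max_right _ _)).ne'⟩
  have hr : r * g * r = f := by
    ext y
    have hfy : 0 ≤ f y := hf y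
    have hgy : 0 ≤ g y := hg y
    have hm : 0 < max (g y) c := lt_of_lt_of_le hc (le_max_right _ _)
    have h1 : Real.sqrt (f y / max (g y) c) * Real.sqrt (f y / max (g y) c)
        = f y / max (g y) c := Real.mul_self_sqrt (div_nonneg hfy hm.le)
    show Real.sqrt (f y / max (g y) c) * g y * Real.sqrt (f y / max (g y) c) = f y
    rw [mul_right_comm, h1]
    rcases hfy.eq_or_lt with h0 | h0
    · rw [← h0]; simp
    · have h2 := h y h0
      have h3 : 0 < g y := lt_of_lt_of_le hc h2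
      rw [max_eq_left h2]
      field_simp
  calc d f = d (r * g * r) := by rw [hr]
    _ ≤ d g := hd.sq_le g r hg

theorem CommDim.le_one (hd : CommDim d) (f : C(Y, ℝ)) (hf : 0 ≤ f) : d f ≤ 1 := by
  have := hd.dom f 1 hf (by intro y; simp) 1 one_pos (by intro y _; simp)
  rwa [hd.one] at this

/-- inf of `d f` over `f ≥ 1` on `K`. -/
noncomputable def lam (d : C(Y, ℝ) → ℝ) (K : Set Y) : ℝ :=
  sInf (d '' {f : C(Y, ℝ) | 0 ≤ f ∧ ∀ y ∈ K, 1 ≤ f y})

theorem CommDim.lam_bdd (hd : CommDim d) (K : Set Y) :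
    BddBelow (d '' {f : C(Y, ℝ) | 0 ≤ f ∧ ∀ y ∈ K, 1 ≤ f y}) := by
  refine ⟨0, ?_⟩
  rintro _ ⟨f, ⟨hf, _⟩, rfl⟩
  exact hd.nonneg f hf

theorem lam_nonempty (d : C(Y, ℝ) → ℝ) (K : Set Y) :
    (d '' {f : C(Y, ℝ) | 0 ≤ f ∧ ∀ y ∈ K, 1 ≤ f y}).Nonempty :=
  ⟨d 1, 1, ⟨by intro y; simp, by intro y _; simp⟩, rfl⟩

theorem CommDim.lam_le (hd : CommDim d) (K : Set Y) (f : C(Y, ℝ)) (hf : 0 ≤ f)
    (h : ∀ y ∈ K, 1 ≤ f y) : lam d K ≤ d f :=
  csInf_le (hd.lam_bdd K) ⟨f, ⟨hf, h⟩, rfl⟩

theorem le_lam (d : C(Y, ℝ) → ℝ) (K : Set Y) (c : ℝ)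
    (h : ∀ f : C(Y, ℝ), 0 ≤ f → (∀ y ∈ K, 1 ≤ f y) → c ≤ d f) : c ≤ lam d K := by
  refine le_csInf (lam_nonempty d K) ?_
  rintro _ ⟨f, ⟨hf, hf1⟩, rfl⟩
  exact h f hf hf1

theorem CommDim.lam_nonneg (hd : CommDim d) (K : Set Y) : 0 ≤ lam d K :=
  le_lam d K 0 (fun f hf _ => hd.nonneg f hf)

theorem CommDim.lam_mono (hd : CommDim d) {K L : Set Y} (h : K ⊆ L) : lam d K ≤ lam d L :=
  le_lam d L _ (fun f hf hf1 => hd.lam_le K f hf (fun y hy => hf1 y (h hy)))

theorem CommDim.lam_union_le (hd : CommDim d) (K L : Set Y) :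
    lam d (K ∪ L) ≤ lam d K + lam d L := by
  have h1 : ∀ g : C(Y, ℝ), 0 ≤ g → (∀ y ∈ L, 1 ≤ g y) → lam d (K ∪ L) - d g ≤ lam d K := by
    intro g hg hg1
    refine le_lam d K _ ?_
    intro f hf hf1
    have h2 : lam d (K ∪ L) ≤ d (f + g) := by
      refine hd.lam_le _ (f + g) (add_nonneg hf hg) ?_
      intro y hy
      have hfy : 0 ≤ f y := hf y
      have hgy : 0 ≤ g y := hg y
      rw [ContinuousMap.add_apply]
      rcases hy with hy | hy
      · have := hf1 y hy
        linarith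
      · have := hg1 y hy
        linarith
    have h3 := hd.add f g hf hg
    linarith
  have h4 : lam d (K ∪ L) - lam d K ≤ lam d L := by
    refine le_lam d L _ ?_
    intro g hg hg1
    have := h1 g hg hg1
    linarith
  linarith

theorem CommDim.lam_disjoint [T2Space Y] (hd : CommDim d) (K L : Set Y) (hK : IsClosed K)
    (hL : IsClosed L) (hKL : Disjoint K L) : lam d K + lam d L ≤ lam d (K ∪ L) := by
  obtain ⟨u, hu0, hu1, hu2⟩ := exists_continuous_zero_one_of_isClosed hK hL hKL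
  let r : C(Y, ℝ) := ⟨fun y => max (1 - 2 * u y) 0, by fun_prop⟩
  let s : C(Y, ℝ) := ⟨fun y => max (2 * u y - 1) 0, by fun_prop⟩
  have hr1 : ∀ y ∈ K, r y = 1 := by
    intro y hy
    have h0 : u y = 0 := hu0 hy
    show max (1 - 2 * u y) 0 = 1
    rw [h0]; norm_num
  have hs1 : ∀ y ∈ L, s y = 1 := by
    intro y hy
    have h0 : u y = 1 := hu1 hy
    show max (2 * u y - 1) 0 = 1
    rw [h0]; norm_num
  have hr0 : ∀ y, 0 ≤ r y := fun y => le_max_right _ _
  have hs0 : ∀ y, 0 ≤ s y := fun y => le_max_right _ _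
  have hrs : ∀ y, r y * s y = 0 := by
    intro y
    show max (1 - 2 * u y) 0 * max (2 * u y - 1) 0 = 0
    rcases le_total (1 - 2 * u y) 0 with h | h
    · rw [max_eq_right h, zero_mul]
    · rw [max_eq_right (by linarith : 2 * u y - 1 ≤ 0), mul_zero]
  refine le_lam d _ _ ?_
  intro h hh hh1
  have h1 : r * h * s = 0 := by
    ext y
    show r y * h y * s y = 0
    rw [mul_right_comm, hrs, zero_mul]
  have h2 := hd.orth h r s hh h1
  have h3 : lam d K ≤ d (r * h * r) := by
    refine hd.lam_le K _ ?_ ?_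
    · intro y
      exact mul_nonneg (mul_nonneg (hr0 y) (hh y)) (hr0 y)
    · intro y hy
      have := hh1 y (Or.inl hy)
      show 1 ≤ r y * h y * r y
      rw [hr1 y hy]; linarith
  have h4 : lam d L ≤ d (s * h * s) := by
    refine hd.lam_le L _ ?_ ?_
    · intro y
      exact mul_nonneg (mul_nonneg (hs0 y) (hh y)) (hs0 y)
    · intro y hy
      have := hh1 y (Or.inr hy)
      show 1 ≤ s y * h y * s y
      rw [hs1 y hy]; linarith
  linarith

/-- The content attached to `d`. -/
noncomputable def CommDim.content [T2Space Y] (hd : CommDim d) : Content Y where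
  toFun K := ⟨lam d (K : Set Y), hd.lam_nonneg _⟩
  mono' := fun K L h => hd.lam_mono h
  sup_disjoint' := by
    intro K L h hK hL
    apply NNReal.eq
    show lam d ((K ⊔ L : Compacts Y) : Set Y) = lam d K + lam d L
    rw [Compacts.coe_sup]
    exact le_antisymm (hd.lam_union_le _ _) (hd.lam_disjoint _ _ hK hL h)
  sup_le' := by
    intro K L
    show lam d ((K ⊔ L : Compacts Y) : Set Y) ≤ lam d K + lam d L
    rw [Compacts.coe_sup]
    exact hd.lam_union_le _ _

theorem CommDim.content_apply [T2Space Y] (hd : CommDim d) (K : Compacts Y) :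
    hd.content K = ENNReal.ofReal (lam d (K : Set Y)) := by
  have h : hd.content K = ((hd.content.toFun K : ℝ≥0) : ℝ≥0∞) := rfl
  rw [h, ENNReal.ofReal]
  congr 1
  apply NNReal.eq
  rw [Real.coe_toNNReal _ (hd.lam_nonneg _)]
  rfl

theorem ccut_apply (t : ℝ) (f : C(Y, ℝ)) (y : Y) : ccut t f y = max (f y - t) 0 := rfl

theorem ccut_nonneg (t : ℝ) (f : C(Y, ℝ)) : 0 ≤ ccut t f := fun _ => le_max_right _ _

/-- for `s > t`: `d (f - s)_+ ≤ lam {f ≥ s}`. -/
theorem CommDim.ccut_le_lam (hd : CommDim d) (f : C(Y, ℝ)) (s : ℝ) :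
    d (ccut s f) ≤ lam d {y | s ≤ f y} := by
  refine le_lam d _ _ ?_
  intro g hg hg1
  refine hd.dom _ g (ccut_nonneg s f) hg 1 one_pos ?_
  intro y hy
  refine hg1 y ?_
  rw [ccut_apply] at hy
  show s ≤ f y
  by_contra hcon
  rw [not_le] at hcon
  rw [max_eq_right (by linarith)] at hy
  exact lt_irrefl _ hy

/-- `lam K ≤ d (f - t)_+` for compact `K ⊆ {f > t}`. -/
theorem CommDim.lam_le_ccut (hd : CommDim d) (f : C(Y, ℝ)) (t : ℝ) (K : Set Y)
    (hK : IsCompact K) (h : ∀ y ∈ K, t < f y) : lam d K ≤ d (ccut t f) := by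
  rcases K.eq_empty_or_nonempty with rfl | hne
  · have h1 : lam d (∅ : Set Y) ≤ d 0 := hd.lam_le _ 0 le_rfl (by simp)
    rw [hd.zero] at h1
    exact h1.trans (hd.nonneg _ (ccut_nonneg t f))
  · obtain ⟨y₀, hy₀, hmin⟩ := hK.exists_isMinOn hne f.continuous.continuousOn
    have hδ : 0 < f y₀ - t := by have := h y₀ hy₀; linarith
    set δ := f y₀ - t with hδdef
    let r : C(Y, ℝ) := ContinuousMap.const Y (Real.sqrt (1 / δ))
    have h1 := hd.sq_le (ccut t f) r (ccut_nonneg t f)
    refine le_trans (hd.lam_le K (r * ccut t f * r) ?_ ?_) h1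
    · intro y
      exact mul_nonneg (mul_nonneg (Real.sqrt_nonneg _) (ccut_nonneg t f y)) (Real.sqrt_nonneg _)
    · intro y hy
      have h2 : f y₀ ≤ f y := hmin hy
      show 1 ≤ Real.sqrt (1 / δ) * ccut t f y * Real.sqrt (1 / δ)
      rw [mul_right_comm, Real.mul_self_sqrt (by positivity), ccut_apply]
      have h3 : δ ≤ max (f y - t) 0 := le_trans (by rw [hδdef]; linarith) (le_max_left _ _)
      calc (1 : ℝ) = 1 / δ * δ := by field_simp
        _ ≤ 1 / δ * max (f y - t) 0 := mul_le_mul_of_nonneg_left h3 (by positivity)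

end

/-- Key: `clay` is an integral. -/
theorem CommDim.clay_eq {Y : Type*} [TopologicalSpace Y] [CompactSpace Y] [T2Space Y]
    [MeasurableSpace Y] [BorelSpace Y]
    (d : C(Y, ℝ) → ℝ) (hd : CommDim d) (f : C(Y, ℝ)) (hf : 0 ≤ f) :
    clay d f = ∫ y, f y ∂hd.content.measure := by
  set μ := hd.content.measure with hμ
  have hopen : ∀ U : Set Y, IsOpen U → μ U = hd.content.outerMeasure U := fun U hU => by
    rw [hμ]; exact hd.content.measure_apply hU.measurableSet
  -- finiteness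
  have hfin : IsFiniteMeasure μ := by
    constructor
    rw [hopen _ isOpen_univ, Content.outerMeasure_of_isOpen _ _ isOpen_univ]
    refine lt_of_le_of_lt (b := ENNReal.ofReal 1) ?_ ENNReal.ofReal_lt_top
    refine iSup₂_le ?_
    intro K _
    rw [hd.content_apply]
    refine ENNReal.ofReal_le_ofReal ?_
    rw [← hd.one]
    exact hd.lam_le _ 1 (by intro y; simp) (by intro y _; simp)
  have hUo : ∀ t : ℝ, IsOpen {y | t < f y} := fun t => isOpen_lt continuous_const f.continuous
  have hup : ∀ t : ℝ, μ.real {y | t < f y} ≤ d (ccut t f) := by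
    intro t
    have h0 := hd.nonneg _ (ccut_nonneg t f)
    rw [Measure.real]
    refine ENNReal.toReal_le_of_le_ofReal h0 ?_
    rw [hopen _ (hUo t), Content.outerMeasure_of_isOpen _ _ (hUo t)]
    refine iSup₂_le ?_
    intro K hK
    rw [hd.content_apply]
    exact ENNReal.ofReal_le_ofReal (hd.lam_le_ccut f t K K.isCompact (fun y hy => hK hy))
  have hlo : ∀ t s : ℝ, t < s → d (ccut s f) ≤ μ.real {y | t < f y} := by
    intro t s hts
    refine le_trans (hd.ccut_le_lam f s) ?_
    rw [Measure.real, ← ENNReal.ofReal_le_iff_le_toReal (measure_ne_top _ _)]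
    rw [hopen _ (hUo t), Content.outerMeasure_of_isOpen _ _ (hUo t)]
    have hcl : IsClosed {y | s ≤ f y} := isClosed_le continuous_const f.continuous
    have h1 := hd.content.le_innerContent ⟨{y | s ≤ f y}, hcl.isCompact⟩
      ⟨{y | t < f y}, hUo t⟩ (fun y hy => lt_of_lt_of_le hts hy)
    rw [hd.content_apply] at h1
    exact h1
  -- integrability
  have hintf : Integrable (fun y => f y) μ :=
    f.continuous.integrable_of_hasCompactSupport (HasCompactSupport.of_compactSpace _)
  have hlayer : ∫ y, f y ∂μ = ∫ t in Ioi (0 : ℝ), μ.real {y | t < f y} :=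
    hintf.integral_eq_integral_meas_lt (Filter.Eventually.of_forall (fun y => hf y))
  rw [hlayer, clay]
  -- bounds
  set F : ℝ → ℝ := fun t => d (ccut t f) with hF
  set G : ℝ → ℝ := fun t => μ.real {y | t < f y} with hG
  have hFanti : Antitone F := by
    intro t s hts
    rcases hts.eq_or_lt with h | h
    · rw [h]
    · exact (hlo t s h).trans (hup t)
  have hGanti : Antitone G := by
    intro t s hts
    exact measureReal_mono (fun y (hy : s < f y) => lt_of_le_of_lt hts hy)
  obtain ⟨M, hM⟩ : ∃ M : ℝ, ∀ y, f y ≤ M :=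
    ⟨‖f‖, fun y => (le_abs_self _).trans (f.norm_coe_le_norm y)⟩
  have hF0 : ∀ t, M ≤ t → F t = 0 := by
    intro t ht
    have : ccut t f = 0 := by
      ext y
      rw [ccut_apply, max_eq_right (by have := hM y; linarith)]
      rfl
    simp only [hF, this, hd.zero]
  have hFnn : ∀ t, 0 ≤ F t := fun t => hd.nonneg _ (ccut_nonneg t f)
  have hF1 : ∀ t, F t ≤ 1 := fun t => hd.le_one _ (ccut_nonneg t f)
  have hGnn : ∀ t, 0 ≤ G t := fun t => measureReal_nonneg
  have hG0 : ∀ t, M ≤ t → G t = 0 := fun t ht => le_antisymm ((hup t).trans (hF0 t ht).le) (hGnn t)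
  have hint : ∀ H : ℝ → ℝ, Antitone H → (∀ t, M ≤ t → H t = 0) → ∀ a : ℝ,
      IntegrableOn H (Ioi a) := by
    intro H hH hH0 a
    have h1 : IntegrableOn H (Ioc a (max a M)) := by
      have := (hH.antitoneOn (Icc a (max a M))).integrableOn_isCompact isCompact_Icc
        (μ := volume)
      exact this.mono_set Ioc_subset_Icc_self
    have h2 : IntegrableOn H (Ioi (max a M)) := by
      refine IntegrableOn.congr_fun (f := fun _ => (0 : ℝ)) integrableOn_zero ?_ measurableSet_Ioi
      intro t ht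
      exact (hH0 t ((le_max_right a M).trans (le_of_lt ht))).symm
    have h3 := h1.union h2
    rwa [Ioc_union_Ioi_eq_Ioi (le_max_left a M)] at h3
  have hFi := hint F hFanti hF0
  have hGi := hint G hGanti hG0
  refine le_antisymm ?_ ?_
  · -- ∫ F ≤ ∫ G
    refine le_of_forall_pos_le_add ?_
    intro ε hε
    have h1 : ∫ t in Ioi (0 : ℝ), F t = (∫ t in Ioc (0 : ℝ) ε, F t) + ∫ t in Ioi ε, F t := by
      rw [← setIntegral_union (Ioc_disjoint_Ioi le_rfl) measurableSet_Ioi
        ((hFi 0).mono_set Ioc_subset_Ioi_self) (hFi ε), Ioc_union_Ioi_eq_Ioi hε.le]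
    have h2 : ∫ t in Ioc (0 : ℝ) ε, F t ≤ ε := by
      have h3 : ∫ t in Ioc (0 : ℝ) ε, F t ≤ ∫ t in Ioc (0 : ℝ) ε, (1 : ℝ) :=
        setIntegral_mono_on ((hFi 0).mono_set Ioc_subset_Ioi_self)
          (by simp) measurableSet_Ioc (fun t _ => hF1 t)
      refine h3.trans ?_
      simp [hε.le]
    have h4 : ∫ t in Ioi ε, F t = ∫ t in Ioi (0 : ℝ), F (t + ε) := by
      rw [← integral_indicator measurableSet_Ioi, ← integral_indicator measurableSet_Ioi,
        ← integral_add_right_eq_self _ ε]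
      congr 1
      ext t
      by_cases ht : 0 < t
      · rw [indicator_of_mem (show t + ε ∈ Ioi ε by simpa using ht),
          indicator_of_mem (show t ∈ Ioi (0 : ℝ) from ht)]
      · rw [indicator_of_notMem (show t + ε ∉ Ioi ε by simpa using ht),
          indicator_of_notMem (show t ∉ Ioi (0 : ℝ) from ht)]
    have h5 : ∫ t in Ioi (0 : ℝ), F (t + ε) ≤ ∫ t in Ioi (0 : ℝ), G t := by
      refine setIntegral_mono_on ?_ (hGi 0) measurableSet_Ioi (fun t _ => hlo t (t + ε) (by linarith))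
      exact hint (fun t => F (t + ε)) (fun t s hts => hFanti (by linarith))
        (fun t ht => hF0 _ (by linarith)) 0
    rw [h1, h4]
    linarith
  · exact setIntegral_mono_on (hGi 0) (hFi 0) measurableSet_Ioi (fun t _ => hup t)

/-- Chunk I3a. -/
theorem clay_add {Y : Type*} [TopologicalSpace Y] [CompactSpace Y] [T2Space Y]
    (d : C(Y, ℝ) → ℝ) (hd : CommDim d) (f g : C(Y, ℝ)) (hf : 0 ≤ f) (hg : 0 ≤ g) :
    clay d (f + g) = clay d f + clay d g := by
  let _ : MeasurableSpace Y := borel Y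
  have _ : BorelSpace Y := ⟨rfl⟩
  rw [hd.clay_eq d f hf, hd.clay_eq d g hg, hd.clay_eq d (f + g) (add_nonneg hf hg)]
  have hfin : IsFiniteMeasureOnCompacts hd.content.measure := inferInstance
  rw [← integral_add]
  · rfl
  · exact f.continuous.integrable_of_hasCompactSupport (HasCompactSupport.of_compactSpace _)
  · exact g.continuous.integrable_of_hasCompactSupport (HasCompactSupport.of_compactSpace _)

end QT
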