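import Mathlib

/-! Row 137, chunk I1: Goodearl-Handelman. -/

set_option autoImplicit false

namespace QT

namespace OrderStateAux

variable {S : Type*} [AddCommMonoid S]

/-- Good preorders for the Goodearl-Handelman argument. -/
structure Good (u : S) (r : S → S → Prop) : Prop where
  refl : ∀ x, r x x
  trans : ∀ x y z, r x y → r y z → r x z
  add : ∀ x y z, r x y → r (x + z) (y + z)
  pos : ∀ x, r 0 x
  fin : ∀ k : ℕ, ¬ r ((k + 1) • u) (k • u)

variable {u : S} {r : S → S → Prop}

theorem Good.add2 (h : Good u r) {x y z w : S} (h1 : r x y) (h2 : r z w) :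
    r (x + z) (y + w) := by
  refine h.trans _ _ _ (h.add _ _ z h1) ?_
  rw [add_comm y z, add_comm y w]
  exact h.add _ _ y h2

theorem Good.nsmul (h : Good u r) {x y : S} (h1 : r x y) (m : ℕ) : r (m • x) (m • y) := by
  induction m with
  | zero => simpa using h.refl 0
  | succ m ih => rw [succ_nsmul, succ_nsmul]; exact h.add2 ih h1

theorem Good.mono_u (h : Good u r) {a b : ℕ} (hab : a ≤ b) : r (a • u) (b • u) := by
  obtain ⟨c, rfl⟩ := Nat.exists_eq_add_of_le hab
  have := h.add2 (h.refl (a • u)) (h.pos (c • u))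
  rwa [add_zero, ← add_nsmul] at this

theorem Good.le_of_u (h : Good u r) {a b : ℕ} (hab : r (a • u) (b • u)) : a ≤ b := by
  by_contra hlt
  push Not at hlt
  exact h.fin b (h.trans _ _ _ (h.mono_u hlt) hab)

theorem Good.total (h : Good u r) (hu : ∀ x, ∃ n : ℕ, r x (n • u))
    (hmax : ∀ r', Good u r' → (∀ x y, r x y → r' x y) → ∀ x y, r' x y → r x y) (x y : S) :
    r x y ∨ r y x := by
  have key : ∀ x y : S, r x y ∨ ∃ k n : ℕ, r ((k + 1) • u + n • y) (k • u + n • x) := by
    intro x y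
    by_cases hg : ∃ k n : ℕ, r ((k + 1) • u + n • y) (k • u + n • x)
    · exact Or.inr hg
    · left
      push Not at hg
      refine hmax (fun z w => ∃ n : ℕ, r (z + n • y) (w + n • x)) ?_ ?_ x y ?_
      · refine ⟨fun z => ⟨0, by simpa using h.refl z⟩, ?_, ?_, fun z => ⟨0, by simpa using h.pos z⟩,
          fun k ⟨n, hn⟩ => hg k n hn⟩
        · rintro z w v ⟨n, hn⟩ ⟨m, hm⟩
          refine ⟨n + m, ?_⟩
          have h1 := h.add _ _ (m • y) hn
          have h2 := h.add _ _ (n • x) hm
          have e1 : z + (n + m) • y = z + n • y + m • y := by rw [add_nsmul]; abel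
          have e2 : w + n • x + m • y = w + m • y + n • x := by abel
          have e3 : v + (n + m) • x = v + m • x + n • x := by rw [add_nsmul]; abel
          rw [e1, e3]
          rw [e2] at h1
          exact h.trans _ _ _ h1 h2
        · rintro z w v ⟨n, hn⟩
          refine ⟨n, ?_⟩
          have h1 := h.add _ _ v hn
          have e1 : z + v + n • y = z + n • y + v := by abel
          have e2 : w + v + n • x = w + n • x + v := by abel
          rw [e1, e2]; exact h1
      · intro z w hzw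
        exact ⟨0, by simpa using hzw⟩
      · refine ⟨1, ?_⟩
        rw [one_nsmul, one_nsmul, add_comm y x]
        exact h.refl _
  rcases key x y with h1 | ⟨k, n, hkn⟩
  · exact Or.inl h1
  rcases key y x with h1 | ⟨k', n', hkn'⟩
  · exact Or.inr h1
  exfalso
  have hn : 1 ≤ n := by
    rcases Nat.eq_zero_or_pos n with h0 | h0
    · subst h0; simp only [zero_nsmul, add_zero] at hkn; exact (h.fin k hkn).elim
    · exact h0
  set K := n' * k + n * k' with hK
  set j := n' + n with hj
  set z := (n * n') • (x + y) with hz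
  have hmain : r ((K + j) • u + z) (K • u + z) := by
    have h1 := h.add2 (h.nsmul hkn n') (h.nsmul hkn' n)
    have e1 : n' • ((k + 1) • u + n • y) + n • ((k' + 1) • u + n' • x) = (K + j) • u + z := by
      simp only [hK, hj, hz, nsmul_add, ← mul_nsmul', add_nsmul, mul_one]
      rw [mul_comm n' n]
      abel
    have e2 : n' • (k • u + n • x) + n • (k' • u + n' • y) = K • u + z := by
      simp only [hK, hz, nsmul_add, ← mul_nsmul', add_nsmul]
      rw [mul_comm n' n]
      abel
    rwa [e1, e2] at h1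
  have hj1 : 1 ≤ j := by omega
  clear_value K j z
  have hiter : ∀ m : ℕ, r ((K + j * m) • u + z) (K • u + z) := by
    intro m
    induction m with
    | zero => simpa using h.refl _
    | succ m ih =>
      have h1 := h.add _ _ (j • u) ih
      have e1 : (K + j * m) • u + z + j • u = (K + j * (m + 1)) • u + z := by
        rw [mul_add, mul_one, ← add_assoc, add_nsmul u (K + j * m) j]; abel
      have e2 : K • u + z + j • u = (K + j) • u + z := by rw [add_nsmul u K j]; abel
      rw [e1, e2] at h1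
      exact h.trans _ _ _ h1 hmain
  obtain ⟨M, hM⟩ := hu z
  have h1 : r ((K + j * (M + 1)) • u) ((K + M) • u) := by
    have a1 : r ((K + j * (M + 1)) • u) ((K + j * (M + 1)) • u + z) := by
      have := h.add2 (h.refl ((K + j * (M + 1)) • u)) (h.pos z)
      rwa [add_zero] at this
    have a2 : r (K • u + z) ((K + M) • u) := by
      rw [add_nsmul u K M]
      exact h.add2 (h.refl _) hM
    exact h.trans _ _ _ (h.trans _ _ _ a1 (hiter (M + 1))) a2
  have h2 := h.le_of_u h1
  have h3 : M + 1 ≤ j * (M + 1) := Nat.le_mul_of_pos_left _ (by omega)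
  omega

/-- Candidate values of the state at `x`. -/
def vals (u : S) (r : S → S → Prop) (x : S) : Set ℝ :=
  {q | ∃ a m : ℕ, 0 < m ∧ r (a • u) (m • x) ∧ q = (a : ℝ) / m}

theorem vals_zero_mem (h : Good u r) (x : S) : (0 : ℝ) ∈ vals u r x :=
  ⟨0, 1, one_pos, by simpa using h.pos x, by simp⟩

theorem vals_bdd (h : Good u r) {x : S} {n : ℕ} (hn : r x (n • u)) :
    ∀ q ∈ vals u r x, q ≤ n := by
  rintro q ⟨a, m, hm, ham, rfl⟩
  have h1 := h.trans _ _ _ ham (h.nsmul hn m)
  rw [← mul_nsmul'] at h1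
  have h2 := h.le_of_u h1
  rw [div_le_iff₀ (by exact_mod_cast hm)]
  have : (a : ℝ) ≤ (m * n : ℕ) := by exact_mod_cast h2
  push_cast at this
  linarith [mul_comm (m : ℝ) n]

end OrderStateAux

open OrderStateAux in
/-- Chunk I1. States on preordered commutative monoids with order unit. -/
theorem exists_monoid_state {S : Type*} [AddCommMonoid S] (r : S → S → Prop)
    (hrefl : ∀ x, r x x) (htrans : ∀ x y z, r x y → r y z → r x z)
    (hadd : ∀ x y z, r x y → r (x + z) (y + z)) (hpos : ∀ x, r 0 x)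
    (u : S) (hu : ∀ x, ∃ n : ℕ, r x (n • u)) (hfin : ∀ k : ℕ, ¬ r ((k + 1) • u) (k • u)) :
    ∃ f : S → ℝ, (∀ x y, f (x + y) = f x + f y) ∧ (∀ x y, r x y → f x ≤ f y) ∧ f u = 1 := by
  have hg0 : Good u r := ⟨hrefl, htrans, hadd, hpos, hfin⟩
  obtain ⟨R, hrR, hRmax⟩ := zorn_le_nonempty₀ {r' : S → S → Prop | Good u r'} (by
    intro c hc hchain r0 hr0
    refine ⟨fun x y => ∃ r' ∈ c, r' x y, ?_, ?_⟩
    · refine ⟨fun x => ⟨r0, hr0, (hc hr0).refl x⟩, ?_, ?_, fun x => ⟨r0, hr0, (hc hr0).pos x⟩, ?_⟩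
      · rintro x y z ⟨r1, h1, hxy⟩ ⟨r2, h2, hyz⟩
        rcases hchain.total h1 h2 with hle | hle
        · exact ⟨r2, h2, (hc h2).trans _ _ _ (hle x y hxy) hyz⟩
        · exact ⟨r1, h1, (hc h1).trans _ _ _ hxy (hle y z hyz)⟩
      · rintro x y z ⟨r1, h1, hxy⟩
        exact ⟨r1, h1, (hc h1).add _ _ _ hxy⟩
      · rintro k ⟨r1, h1, hk⟩
        exact (hc h1).fin k hk
    · intro r1 h1 x y hxy
      exact ⟨r1, h1, hxy⟩) r hg0
  have h : Good u R := hRmax.prop
  have huR : ∀ x, ∃ n : ℕ, R x (n • u) := fun x => by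
    obtain ⟨n, hn⟩ := hu x
    exact ⟨n, hrR x (n • u) hn⟩
  have htot : ∀ x y, R x y ∨ R y x := h.total huR (fun r' hr' hle x y hxy =>
    hRmax.le_of_ge (y := r') hr' (fun a b hab => hle a b hab) x y hxy)
  have hbdd : ∀ x, BddAbove (vals u R x) := fun x => by
    obtain ⟨n, hn⟩ := huR x
    exact ⟨n, fun q hq => vals_bdd h hn q hq⟩
  have hne : ∀ x, (vals u R x).Nonempty := fun x => ⟨0, vals_zero_mem h x⟩
  set f : S → ℝ := fun x => sSup (vals u R x) with hf
  have hf0 : ∀ x, 0 ≤ f x := fun x => le_csSup (hbdd x) (vals_zero_mem h x)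
  have hup : ∀ (x : S) (M b : ℕ), 0 < M → (M : ℝ) * f x < b → R (M • x) (b • u) := by
    intro x M b hM hb
    rcases htot (M • x) (b • u) with h1 | h1
    · exact h1
    · exfalso
      have h2 : (b : ℝ) / M ≤ f x := le_csSup (hbdd x) ⟨b, M, hM, h1, rfl⟩
      rw [div_le_iff₀ (by exact_mod_cast hM)] at h2
      linarith [mul_comm (M : ℝ) (f x)]
  refine ⟨f, ?_, ?_, ?_⟩
  · intro x y
    apply le_antisymm
    · refine csSup_le (hne _) ?_
      rintro q ⟨a, m, hm, ham, rfl⟩
      have hmR : (0 : ℝ) < m := by exact_mod_cast hm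
      have hk : ∀ k : ℕ, 0 < k → (k : ℝ) * a ≤ k * (m * (f x + f y)) + 2 := by
        intro k hk
        have hM : 0 < k * m := Nat.mul_pos hk hm
        have hb := hup x (k * m) (⌊((k * m : ℕ) : ℝ) * f x⌋₊ + 1) hM (by
          push_cast
          exact_mod_cast Nat.lt_floor_add_one (((k * m : ℕ) : ℝ) * f x))
        have hc := hup y (k * m) (⌊((k * m : ℕ) : ℝ) * f y⌋₊ + 1) hM (by
          push_cast
          exact_mod_cast Nat.lt_floor_add_one (((k * m : ℕ) : ℝ) * f y))
        have h1 := h.nsmul ham k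
        have h2 := h.add2 hb hc
        have e1 : k • m • (x + y) = (k * m) • x + (k * m) • y := by
          rw [← mul_nsmul', nsmul_add]
        rw [e1] at h1
        have h3 := h.trans _ _ _ h1 h2
        rw [← mul_nsmul', ← add_nsmul] at h3
        have h4 := h.le_of_u h3
        have f1 : (⌊((k * m : ℕ) : ℝ) * f x⌋₊ : ℝ) ≤ ((k * m : ℕ) : ℝ) * f x :=
          Nat.floor_le (mul_nonneg (Nat.cast_nonneg _) (hf0 x))
        have f2 : (⌊((k * m : ℕ) : ℝ) * f y⌋₊ : ℝ) ≤ ((k * m : ℕ) : ℝ) * f y :=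
          Nat.floor_le (mul_nonneg (Nat.cast_nonneg _) (hf0 y))
        have h5 : ((k * a : ℕ) : ℝ) ≤ ((⌊((k * m : ℕ) : ℝ) * f x⌋₊ + 1 +
            (⌊((k * m : ℕ) : ℝ) * f y⌋₊ + 1) : ℕ) : ℝ) := by exact_mod_cast h4
        push_cast at h5 f1 f2
        nlinarith
      rw [div_le_iff₀ hmR]
      by_contra hlt
      push Not at hlt
      set δ := (a : ℝ) - (f x + f y) * m with hδ
      have hδpos : 0 < δ := by simp only [hδ]; linarith
      obtain ⟨k, hk2⟩ := exists_nat_gt (2 / δ)
      have hkpos : 0 < k := by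
        have : (0 : ℝ) < k := lt_trans (by positivity) hk2
        exact_mod_cast this
      have h6 := hk k hkpos
      rw [div_lt_iff₀ hδpos] at hk2
      have : (k : ℝ) * δ ≤ 2 := by
        simp only [hδ]; nlinarith
      linarith
    · rw [← le_sub_iff_add_le]
      refine csSup_le (hne _) ?_
      rintro q1 ⟨a1, m1, hm1, h1, rfl⟩
      rw [le_sub_comm]
      refine csSup_le (hne _) ?_
      rintro q2 ⟨a2, m2, hm2, h2, rfl⟩
      rw [le_sub_iff_add_le]
      refine le_csSup (hbdd _) ⟨a2 * m1 + a1 * m2, m1 * m2, Nat.mul_pos hm1 hm2, ?_, ?_⟩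
      · have g1 := h.nsmul h1 m2
        have g2 := h.nsmul h2 m1
        have g3 := h.add2 g2 g1
        have e1 : m1 • a2 • u + m2 • a1 • u = (a2 * m1 + a1 * m2) • u := by
          rw [← mul_nsmul', ← mul_nsmul', ← add_nsmul, mul_comm m1, mul_comm m2]
        have e2 : m1 • m2 • y + m2 • m1 • x = (m1 * m2) • (x + y) := by
          rw [← mul_nsmul', ← mul_nsmul', nsmul_add, mul_comm m2 m1, add_comm]
        rwa [e1, e2] at g3
      · have hm1' : (m1 : ℝ) ≠ 0 := by exact_mod_cast hm1.ne'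
        have hm2' : (m2 : ℝ) ≠ 0 := by exact_mod_cast hm2.ne'
        push_cast
        field_simp
  · intro x y hxy
    refine csSup_le_csSup (hbdd y) (hne x) ?_
    rintro q ⟨a, m, hm, ham, rfl⟩
    exact ⟨a, m, hm, h.trans _ _ _ ham (h.nsmul (hrR x y hxy) m), rfl⟩
  · apply le_antisymm
    · refine csSup_le (hne _) ?_
      rintro q ⟨a, m, hm, ham, rfl⟩
      have := h.le_of_u ham
      rw [div_le_one (by exact_mod_cast hm)]
      exact_mod_cast this
    · exact le_csSup (hbdd u) ⟨1, 1, one_pos, h.refl _, by simp⟩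

end QT
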