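import Mathlib
import Crest.Agent.Lib.QT.Defs
import Crest.Agent.Lib.QT.OrderState

/-! Row 137, chunk I2: dimension state from the absence of co-isometries. -/

set_option autoImplicit false

open scoped Matrix

namespace QT

namespace CuntzAux

/-- Two finite families with the same multiset of values differ by a bijection of the indices. -/
theorem exists_equiv_of_map_eq {P ι κ : Type*} [Fintype ι] [Fintype κ] (f : ι → P) (g : κ → P)
    (h : (Finset.univ : Finset ι).val.map f = (Finset.univ : Finset κ).val.map g) :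
    ∃ e : ι ≃ κ, ∀ x, g (e x) = f x := by
  classical
  have hcard : ∀ p : P, Fintype.card {x // f x = p} = Fintype.card {x // g x = p} := by
    intro p
    have h1 := congrArg (Multiset.count p) h
    rw [Multiset.count_map, Multiset.count_map] at h1
    rw [Fintype.card_subtype, Fintype.card_subtype]
    have e1 : (Finset.univ.filter fun x => f x = p).card =
        Multiset.card ((Finset.univ : Finset ι).val.filter fun a => p = f a) := by
      rw [← Finset.filter_val, Finset.card_val]
      congr 1
      ext x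
      simp [eq_comm]
    have e2 : (Finset.univ.filter fun x => g x = p).card =
        Multiset.card ((Finset.univ : Finset κ).val.filter fun a => p = g a) := by
      rw [← Finset.filter_val, Finset.card_val]
      congr 1
      ext x
      simp [eq_comm]
    rw [e1, e2, h1]
  refine ⟨(Equiv.sigmaFiberEquiv f).symm.trans ((Equiv.sigmaCongrRight
    (fun p => Fintype.equivOfCardEq (hcard p))).trans (Equiv.sigmaFiberEquiv g)), ?_⟩
  intro x
  simp only [Equiv.trans_apply]
  exact (((Equiv.sigmaCongrRight (fun p => Fintype.equivOfCardEq (hcard p)))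
    ((Equiv.sigmaFiberEquiv f).symm x)).2).2

section

variable {T : Type*} [CStarAlgebra T]

/-- Cuntz-type comparison of finite families. -/
def Sub {ι κ : Type*} [Fintype ι] [Fintype κ] [DecidableEq ι] [DecidableEq κ]
    (a : ι → T) (b : κ → T) : Prop :=
  ∃ ρ : Matrix ι κ T, ρ * Matrix.diagonal b * ρᴴ = Matrix.diagonal a

variable {ι κ μ ν : Type*} [Fintype ι] [Fintype κ] [DecidableEq ι] [DecidableEq κ]
  [Fintype μ] [Fintype ν] [DecidableEq μ] [DecidableEq ν]

theorem Sub.refl (a : ι → T) : Sub a a := ⟨1, by simp⟩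

theorem Sub.trans {a : ι → T} {b : κ → T} {c : μ → T} (h1 : Sub a b) (h2 : Sub b c) :
    Sub a c := by
  obtain ⟨ρ, hρ⟩ := h1
  obtain ⟨σ, hσ⟩ := h2
  refine ⟨ρ * σ, ?_⟩
  rw [Matrix.conjTranspose_mul, ← hρ, ← hσ]
  simp only [Matrix.mul_assoc]

theorem Sub.of_equiv {a : ι → T} {b : κ → T} (e : ι ≃ κ) (he : ∀ x, b (e x) = a x) :
    Sub a b := by
  refine ⟨(Equiv.toPEquiv e).toMatrix, ?_⟩
  ext i j
  rw [Matrix.mul_assoc, PEquiv.toMatrix_toPEquiv_mul, Matrix.submatrix_apply, id]
  rw [Matrix.diagonal_mul, Matrix.conjTranspose_apply, PEquiv.toMatrix_apply]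
  simp only [Equiv.toPEquiv_apply, Option.mem_def, Option.some_inj]
  by_cases hij : i = j
  · subst hij; simp [he]
  · have : ¬ e j = e i := fun hh => hij (e.injective hh).symm
    simp [this, hij]

theorem Sub.sum {a : ι → T} {b : κ → T} {c : μ → T} {d : ν → T} (h1 : Sub a b) (h2 : Sub c d) :
    Sub (Sum.elim a c) (Sum.elim b d) := by
  obtain ⟨ρ, hρ⟩ := h1
  obtain ⟨σ, hσ⟩ := h2
  refine ⟨Matrix.fromBlocks ρ 0 0 σ, ?_⟩
  rw [← Matrix.fromBlocks_diagonal, ← Matrix.fromBlocks_diagonal, Matrix.fromBlocks_multiply,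
    Matrix.fromBlocks_conjTranspose, Matrix.fromBlocks_multiply]
  simp [hρ, hσ]

end

section

variable {T : Type*} [CStarAlgebra T] [PartialOrder T]

/-- The comparison relation on multisets of positive elements. -/
def rel (s t : Multiset {a : T // 0 ≤ a}) : Prop :=
  ∃ (m n : ℕ) (a : Fin m → {a : T // 0 ≤ a}) (b : Fin n → {a : T // 0 ≤ a}),
    (Finset.univ : Finset (Fin m)).val.map a = s ∧
    (Finset.univ : Finset (Fin n)).val.map b = t ∧ Sub (fun i => (a i : T)) (fun i => (b i : T))

theorem rel_iff {ι κ : Type*} [Fintype ι] [Fintype κ] [DecidableEq ι] [DecidableEq κ]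
    (a : ι → {a : T // 0 ≤ a}) (b : κ → {a : T // 0 ≤ a}) :
    rel ((Finset.univ : Finset ι).val.map a) ((Finset.univ : Finset κ).val.map b) ↔
      Sub (fun i => (a i : T)) (fun i => (b i : T)) := by
  constructor
  · rintro ⟨m, n, a', b', ha, hb, h⟩
    obtain ⟨e, he⟩ := exists_equiv_of_map_eq a a' ha.symm
    obtain ⟨f, hf⟩ := exists_equiv_of_map_eq b' b hb
    exact (Sub.of_equiv e (fun x => by simp only [he])).trans
      (h.trans (Sub.of_equiv f (fun x => by simp only [hf])))
  · intro h
    refine ⟨Fintype.card ι, Fintype.card κ, a ∘ (Fintype.equivFin ι).symm,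
      b ∘ (Fintype.equivFin κ).symm, ?_, ?_, ?_⟩
    · rw [← Multiset.map_map, Multiset.map_univ_val_equiv]
    · rw [← Multiset.map_map, Multiset.map_univ_val_equiv]
    · exact (Sub.of_equiv (Fintype.equivFin ι).symm (fun x => rfl)).trans
        (h.trans (Sub.of_equiv (Fintype.equivFin κ) (fun x => by simp)))

theorem exists_rep (s : Multiset {a : T // 0 ≤ a}) :
    ∃ (n : ℕ) (a : Fin n → {a : T // 0 ≤ a}), (Finset.univ : Finset (Fin n)).val.map a = s := by
  induction s using Quotient.inductionOn with
  | h l =>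
    refine ⟨l.length, l.get, ?_⟩
    rw [Fin.univ_val_map, List.ofFn_get]
    rfl

theorem map_elim {P ι κ : Type*} [Fintype ι] [Fintype κ] (a : ι → P) (b : κ → P) :
    (Finset.univ : Finset (ι ⊕ κ)).val.map (Sum.elim a b) =
      (Finset.univ : Finset ι).val.map a + (Finset.univ : Finset κ).val.map b := by
  rw [← Finset.univ_disjSum_univ, Finset.val_disjSum, Multiset.disjSum, Multiset.map_add,
    Multiset.map_map, Multiset.map_map]
  rfl

end

end CuntzAux

open CuntzAux in
/-- Chunk I2. -/
theorem exists_dimState (T : Type*) [CStarAlgebra T] [PartialOrder T] [StarOrderedRing T]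
    (H : NoCoisometry T) : ∃ D : T → ℝ, DimState D := by
  classical
  set one : {a : T // 0 ≤ a} := ⟨1, zero_le_one⟩ with hone
  have hnu : ∀ n : ℕ, n • ({one} : Multiset {a : T // 0 ≤ a}) =
      (Finset.univ : Finset (Fin n)).val.map (fun _ => one) := by
    intro n
    rw [Multiset.nsmul_singleton, Multiset.map_const', Finset.card_val, Finset.card_univ,
      Fintype.card_fin]
  obtain ⟨f, hfadd, hfmono, hfone⟩ := exists_monoid_state (S := Multiset {a : T // 0 ≤ a})
    (rel (T := T))
    (by
      intro x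
      obtain ⟨n, a, rfl⟩ := exists_rep x
      exact (rel_iff a a).2 (Sub.refl _))
    (by
      intro x y z hxy hyz
      obtain ⟨n, a, rfl⟩ := exists_rep x
      obtain ⟨m, b, rfl⟩ := exists_rep y
      obtain ⟨k, c, rfl⟩ := exists_rep z
      exact (rel_iff a c).2 (((rel_iff a b).1 hxy).trans ((rel_iff b c).1 hyz)))
    (by
      intro x y z hxy
      obtain ⟨n, a, rfl⟩ := exists_rep x
      obtain ⟨m, b, rfl⟩ := exists_rep y
      obtain ⟨k, c, rfl⟩ := exists_rep z
      rw [← map_elim, ← map_elim, rel_iff]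
      have h := ((rel_iff a b).1 hxy).sum (Sub.refl (fun i => (c i : T)))
      convert h using 1
      · ext i; rcases i with i | i <;> rfl
      · ext i; rcases i with i | i <;> rfl)
    (by
      intro x
      obtain ⟨n, a, rfl⟩ := exists_rep x
      have h0 : (0 : Multiset {a : T // 0 ≤ a}) =
          (Finset.univ : Finset (Fin 0)).val.map Fin.elim0 := by simp
      rw [h0, rel_iff]
      exact ⟨0, by ext i; exact i.elim0⟩)
    {one}
    (by
      intro x
      obtain ⟨n, a, rfl⟩ := exists_rep x
      refine ⟨n, ?_⟩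
      rw [hnu, rel_iff]
      have hsq : ∀ i, ∃ y : T, (a i : T) = y * star y := by
        intro i
        obtain ⟨b, hb⟩ := CStarAlgebra.nonneg_iff_eq_star_mul_self.1 (a i).2
        exact ⟨star b, by rw [star_star]; exact hb⟩
      choose y hy using hsq
      refine ⟨Matrix.diagonal y, ?_⟩
      rw [Matrix.diagonal_conjTranspose, Matrix.diagonal_mul_diagonal,
        Matrix.diagonal_mul_diagonal]
      congr 1
      ext i
      simp [hone, hy])
    (by
      intro k hk
      rw [hnu, hnu, rel_iff] at hk
      obtain ⟨ρ, hρ⟩ := hk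
      refine H k (k + 1) (Nat.lt_succ_self k) ρ ?_
      simpa [hone] using hρ)
  have hf0 : f 0 = 0 := by
    have := hfadd 0 0
    simp only [add_zero] at this
    linarith
  have hsing : ∀ p : {a : T // 0 ≤ a}, ({p} : Multiset {a : T // 0 ≤ a}) =
      (Finset.univ : Finset (Fin 1)).val.map (fun _ => p) := by
    intro p; simp
  have hpair : ∀ p q : {a : T // 0 ≤ a}, ({p} : Multiset {a : T // 0 ≤ a}) + {q} =
      (Finset.univ : Finset (Fin 2)).val.map (![p, q]) := by
    intro p q; simp [Fin.univ_val_map]; rfl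
  have hzero : (0 : Multiset {a : T // 0 ≤ a}) =
      (Finset.univ : Finset (Fin 0)).val.map Fin.elim0 := by simp
  refine ⟨fun a => if h : 0 ≤ a then f {⟨a, h⟩} else 0, ?_, ?_, ?_, ?_, ?_⟩
  · intro a ha
    simp only [ha, dite_true]
    rw [← hf0]
    apply hfmono
    rw [hzero, hsing, rel_iff]
    exact ⟨0, by ext i; exact i.elim0⟩
  · simp only [le_refl, dite_true]
    apply le_antisymm
    · rw [← hf0]
      apply hfmono
      rw [hzero, hsing, rel_iff]
      exact ⟨0, by ext i j; simp [Matrix.diagonal]⟩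
    · rw [← hf0]
      apply hfmono
      rw [hzero, hsing, rel_iff]
      exact ⟨0, by ext i; exact i.elim0⟩
  · have h1 : (0 : T) ≤ 1 := zero_le_one
    simp only [h1, dite_true]
    exact hfone
  · intro a b ha hb
    have hab : 0 ≤ a + b := add_nonneg ha hb
    simp only [ha, hb, hab, dite_true]
    rw [← hfadd]
    apply hfmono
    rw [hsing, hpair, rel_iff]
    refine ⟨Matrix.of fun _ _ => 1, ?_⟩
    ext i j
    fin_cases i; fin_cases j
    simp [Matrix.mul_apply, Fin.sum_univ_two, Matrix.diagonal_apply]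
  · intro c r s hc hrs
    have hr : 0 ≤ r * c * star r := star_right_conjugate_nonneg hc r
    have hs : 0 ≤ s * c * star s := star_right_conjugate_nonneg hc s
    have hsr : s * c * star r = 0 := by
      have := congrArg star hrs
      simpa [mul_assoc, (IsSelfAdjoint.of_nonneg hc).star_eq] using this
    simp only [hc, hr, hs, dite_true]
    rw [← hfadd]
    apply hfmono
    rw [hpair, hsing, rel_iff]
    refine ⟨Matrix.of fun i _ => ![r, s] i, ?_⟩
    ext i j
    fin_cases i <;> fin_cases j <;>
      simp [Matrix.mul_apply, Matrix.diagonal_apply, Matrix.conjTranspose_apply, hrs, hsr]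

end QT
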