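import Mathlib
import Crest.Agent.Lib.QT.Defs

/-! Row 137, chunk I3b: trace property of the layer-cake integral. -/

set_option autoImplicit false

open MeasureTheory Set Filter Topology

namespace QT

variable {T : Type*} [CStarAlgebra T]

/-- If `z` intertwines selfadjoint `a`, `b` then it intertwines `f(a)`, `f(b)`. -/
theorem cfc_intertwine {a b z : T} (ha : IsSelfAdjoint a) (hb : IsSelfAdjoint b)
    (h : a * z = z * b) (f : ℝ → ℝ) (hf : Continuous f) : cfc f a * z = z * cfc f b := by
  let K : Set ℝ := spectrum ℝ a ∪ spectrum ℝ b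
  have hK : IsCompact K :=
    (ContinuousFunctionalCalculus.isCompact_spectrum a).union
      (ContinuousFunctionalCalculus.isCompact_spectrum b)
  have : CompactSpace K := isCompact_iff_compactSpace.mp hK
  have hsa : spectrum ℝ a ⊆ K := subset_union_left
  have hsb : spectrum ℝ b ⊆ K := subset_union_right
  have key : ∀ g : C(K, ℝ), cfcHomSuperset ha hsa g * z = z * cfcHomSuperset hb hsb g := by
    intro g
    induction g using ContinuousMap.induction_on_of_compact with
    | const r =>
      have h1 : cfcHomSuperset ha hsa (ContinuousMap.const K r) = algebraMap ℝ T r :=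
        AlgHomClass.commutes (cfcHomSuperset ha hsa) r
      have h2 : cfcHomSuperset hb hsb (ContinuousMap.const K r) = algebraMap ℝ T r :=
        AlgHomClass.commutes (cfcHomSuperset hb hsb) r
      rw [h1, h2]
      exact Algebra.commutes r z
    | id => rw [cfcHomSuperset_id, cfcHomSuperset_id, h]
    | star_id =>
      rw [map_star, map_star, cfcHomSuperset_id, cfcHomSuperset_id, ha.star_eq, hb.star_eq, h]
    | add f g hf hg => rw [map_add, map_add, add_mul, mul_add, hf, hg]
    | mul f g hf hg => rw [map_mul, map_mul, mul_assoc, hg, ← mul_assoc, hf, mul_assoc]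
    | frequently f hf =>
      have hc1 : Continuous fun g => cfcHomSuperset ha hsa g * z :=
        (cfcHomSuperset_continuous ha hsa).mul continuous_const
      have hc2 : Continuous fun g => z * cfcHomSuperset hb hsb g :=
        continuous_const.mul (cfcHomSuperset_continuous hb hsb)
      exact hf.mem_of_closed (isClosed_eq hc1 hc2)
  have h1 : cfc f a = cfcHomSuperset ha hsa ⟨fun x => f x, by fun_prop⟩ := by
    rw [cfc_apply f a ha hf.continuousOn]
    rfl
  have h2 : cfc f b = cfcHomSuperset hb hsb ⟨fun x => f x, by fun_prop⟩ := by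
    rw [cfc_apply f b hb hf.continuousOn]
    rfl
  rw [h1, h2]
  exact key _

variable [PartialOrder T] [StarOrderedRing T]

theorem DimState.conj_le {D : T → ℝ} (hD : DimState D) {c : T} (hc : 0 ≤ c) (r : T) :
    D (r * c * star r) ≤ D c := by
  have h := hD.orth c r 0 hc (by simp)
  simpa [hD.zero] using h

theorem cut_nonneg (t : ℝ) (a : T) : 0 ≤ cut t a :=
  cfc_nonneg fun _ _ => le_max_right _ _

omit [PartialOrder T] [StarOrderedRing T] in
theorem cut_isSelfAdjoint (t : ℝ) (a : T) : IsSelfAdjoint (cut t a) := cfc_predicate _ _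

omit [PartialOrder T] [StarOrderedRing T] in
/-- `cut t a` is a compression of `cut s a` for `s ≤ t`. -/
theorem cut_eq_conj {s t : ℝ} (hst : s < t) (a : T) (_ha : IsSelfAdjoint a) :
    ∃ r : T, cut t a = r * cut s a * star r := by
  let q : ℝ → ℝ := fun l => Real.sqrt (max (l - t) 0 / max (l - s) (t - s))
  have hpos : ∀ l, 0 < max (l - s) (t - s) := fun l => lt_max_of_lt_right (by linarith)
  have hq : Continuous q := by
    refine Real.continuous_sqrt.comp ?_
    exact Continuous.div (by fun_prop) (by fun_prop) fun l => (hpos l).ne'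
  refine ⟨cfc q a, ?_⟩
  have hsa : star (cfc q a) = cfc q a := (cfc_predicate q a : IsSelfAdjoint _)
  rw [hsa]
  unfold cut
  rw [← cfc_mul q _ a (by fun_prop) (by fun_prop), ← cfc_mul _ q a (by fun_prop) (by fun_prop)]
  apply cfc_congr
  intro l _
  simp only [q]
  have h0 : 0 ≤ max (l - t) 0 / max (l - s) (t - s) :=
    div_nonneg (le_max_right _ _) (hpos l).le
  have hmul : Real.sqrt (max (l - t) 0 / max (l - s) (t - s)) * max (l - s) 0 *
      Real.sqrt (max (l - t) 0 / max (l - s) (t - s)) =
      (max (l - t) 0 / max (l - s) (t - s)) * max (l - s) 0 := by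
    have := Real.mul_self_sqrt h0
    calc _ = (Real.sqrt (max (l - t) 0 / max (l - s) (t - s)) *
        Real.sqrt (max (l - t) 0 / max (l - s) (t - s))) * max (l - s) 0 := by ring
      _ = _ := by rw [this]
  rw [hmul]
  by_cases hl : l ≤ t
  · rw [max_eq_right (by linarith : l - t ≤ 0)]
    simp
  · push Not at hl
    rw [max_eq_left (by linarith : (0 : ℝ) ≤ l - t), max_eq_left (by linarith : t - s ≤ l - s),
      max_eq_left (by linarith : (0 : ℝ) ≤ l - s)]
    have : (0 : ℝ) < l - s := by linarith
    field_simp

omit [PartialOrder T] [StarOrderedRing T] in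
/-- `cut t (x* x)` is a compression of `cut s (x x*)` for `s < t`, `0 < t`. -/
theorem cut_star_mul_eq_conj {s t : ℝ} (ht : 0 < t) (hst : s < t) (x : T) :
    ∃ r : T, cut t (star x * x) = r * cut s (x * star x) * star r := by
  let q : ℝ → ℝ := fun l => Real.sqrt (max (l - t) 0 / (max l t * max (l - s) (t - s)))
  have hpos : ∀ l, 0 < max l t * max (l - s) (t - s) := fun l =>
    mul_pos (lt_max_of_lt_right ht) (lt_max_of_lt_right (by linarith))
  have hq : Continuous q := by
    refine Real.continuous_sqrt.comp ?_
    exact Continuous.div (by fun_prop) (by fun_prop) fun l => (hpos l).ne'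
  have ha : IsSelfAdjoint (star x * x) := IsSelfAdjoint.star_mul_self x
  have hb : IsSelfAdjoint (x * star x) := IsSelfAdjoint.mul_star_self x
  refine ⟨star x * cfc q (x * star x), ?_⟩
  have hsa : star (cfc q (x * star x)) = cfc q (x * star x) :=
    (cfc_predicate q (x * star x) : IsSelfAdjoint _)
  have hint : ∀ g : ℝ → ℝ, Continuous g →
      star x * cfc g (x * star x) * x = cfc (fun l => g l * l) (star x * x) := by
    intro g hg
    have h1 := cfc_intertwine ha hb (z := star x) (by rw [mul_assoc]) g hg
    rw [← h1, mul_assoc]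
    rw [cfc_mul g (fun l => l) (star x * x) (by fun_prop) (by fun_prop), cfc_id' ℝ (star x * x)]
  have hprod : cfc q (x * star x) * cut s (x * star x) * cfc q (x * star x) =
      cfc (fun l => q l * max (l - s) 0 * q l) (x * star x) := by
    unfold cut
    rw [← cfc_mul q _ _ (by fun_prop) (by fun_prop), ← cfc_mul _ q _ (by fun_prop) (by fun_prop)]
  have hfin : cfc (fun l => q l * max (l - s) 0 * q l * l) (star x * x) =
      cut t (star x * x) := by
    unfold cut
    apply cfc_congr
    intro l _
    simp only [q]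
    have h0 : 0 ≤ max (l - t) 0 / (max l t * max (l - s) (t - s)) :=
      div_nonneg (le_max_right _ _) (hpos l).le
    have hmul : Real.sqrt (max (l - t) 0 / (max l t * max (l - s) (t - s))) * max (l - s) 0 *
        Real.sqrt (max (l - t) 0 / (max l t * max (l - s) (t - s))) * l =
        (max (l - t) 0 / (max l t * max (l - s) (t - s))) * max (l - s) 0 * l := by
      have := Real.mul_self_sqrt h0
      calc _ = (Real.sqrt (max (l - t) 0 / (max l t * max (l - s) (t - s))) *
          Real.sqrt (max (l - t) 0 / (max l t * max (l - s) (t - s)))) * max (l - s) 0 * l := by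
            ring
        _ = _ := by rw [this]
    rw [hmul]
    by_cases hl : l ≤ t
    · rw [max_eq_right (by linarith : l - t ≤ 0)]
      simp
    · push Not at hl
      rw [max_eq_left (by linarith : (0 : ℝ) ≤ l - t), max_eq_left (by linarith : t - s ≤ l - s),
        max_eq_left (by linarith : (0 : ℝ) ≤ l - s), max_eq_left hl.le]
      have : (0 : ℝ) < l := by linarith
      have : (0 : ℝ) < l - s := by linarith
      field_simp
  rw [star_mul, hsa, star_star, ← hfin]
  rw [← hint (fun l => q l * max (l - s) 0 * q l) (by fun_prop), ← hprod]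
  simp only [mul_assoc]

/-- `t ↦ D (cut t a)` is antitone. -/
theorem DimState.cut_antitone {D : T → ℝ} (hD : DimState D) {a : T} (ha : IsSelfAdjoint a) :
    Antitone fun t => D (cut t a) := by
  intro s t hst
  rcases hst.eq_or_lt with rfl | hst
  · exact le_rfl
  · obtain ⟨r, hr⟩ := cut_eq_conj hst a ha
    simp only [hr]
    exact hD.conj_le (cut_nonneg s a) r

theorem DimState.le_one {D : T → ℝ} (hD : DimState D) {a : T} (ha : 0 ≤ a) : D a ≤ 1 := by
  have h := hD.conj_le (c := 1) zero_le_one (CFC.sqrt a)
  have hs : star (CFC.sqrt a) = CFC.sqrt a :=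
    (IsSelfAdjoint.of_nonneg (CFC.sqrt_nonneg a)).star_eq
  rw [hs, mul_one, CFC.sqrt_mul_sqrt_self a ha, hD.one] at h
  exact h

omit [PartialOrder T] [StarOrderedRing T] in
theorem cut_eq_zero {t : ℝ} {a : T} (ht : ‖a‖ * ‖(1 : T)‖ ≤ t) : cut t a = 0 := by
  unfold cut
  rw [show (0 : T) = cfc (0 : ℝ → ℝ) a from (cfc_zero ℝ a).symm]
  apply cfc_congr
  intro l hl
  have h1 : ‖l‖ ≤ ‖a‖ * ‖(1 : T)‖ := spectrum.norm_le_norm_mul_of_mem hl
  have h2 : l ≤ t := (le_abs_self l).trans (h1.trans ht)
  simp only [Pi.zero_apply]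
  exact max_eq_right (by linarith)

theorem DimState.integrableOn_cut {D : T → ℝ} (hD : DimState D) {a : T} (ha : IsSelfAdjoint a) :
    IntegrableOn (fun t => D (cut t a)) (Ioi (0 : ℝ)) := by
  have hanti := hD.cut_antitone ha
  let M : ℝ := ‖a‖ * ‖(1 : T)‖
  have hM : 0 ≤ M := by positivity
  have h1 : IntegrableOn (fun t => D (cut t a)) (Ioc 0 M) := by
    have := (hanti.intervalIntegrable (μ := volume) (a := 0) (b := M))
    exact (intervalIntegrable_iff_integrableOn_Ioc_of_le hM).mp this
  have h2 : IntegrableOn (fun t => D (cut t a)) (Ioi M) := by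
    refine (integrableOn_zero (s := Ioi M) (ε' := ℝ)).congr_fun ?_ measurableSet_Ioi
    intro t ht
    simp only
    rw [cut_eq_zero (le_of_lt (mem_Ioi.mp ht)), hD.zero]
  rw [← Ioc_union_Ioi_eq_Ioi hM]
  exact h1.union h2

theorem lay_star_mul_le {D : T → ℝ} (hD : DimState D) (x : T) :
    lay D (star x * x) ≤ lay D (x * star x) := by
  unfold lay
  have ha : IsSelfAdjoint (star x * x) := IsSelfAdjoint.star_mul_self x
  have hb : IsSelfAdjoint (x * star x) := IsSelfAdjoint.mul_star_self x
  refine integral_mono_ae (hD.integrableOn_cut ha) (hD.integrableOn_cut hb) ?_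
  have hcount := (hD.cut_antitone hb).countable_not_continuousAt
  have hae : ∀ᵐ t ∂(volume : Measure ℝ), ContinuousAt (fun t => D (cut t (x * star x))) t := by
    have := hcount.ae_notMem volume
    filter_upwards [this] with t ht
    by_contra h
    exact ht h
  filter_upwards [ae_restrict_of_ae hae, self_mem_ae_restrict measurableSet_Ioi] with t ht ht0
  have hlim : Tendsto (fun s => D (cut s (x * star x))) (𝓝[<] t)
      (𝓝 (D (cut t (x * star x)))) := ht.tendsto.mono_left nhdsWithin_le_nhds
  refine ge_of_tendsto hlim ?_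
  filter_upwards [self_mem_nhdsWithin] with s hs
  obtain ⟨r, hr⟩ := cut_star_mul_eq_conj (mem_Ioi.mp ht0) (mem_Iio.mp hs) x
  rw [hr]
  exact hD.conj_le (cut_nonneg s _) r

/-- Chunk I3b. -/
theorem lay_star_mul {D : T → ℝ} (hD : DimState D) (x : T) :
    lay D (star x * x) = lay D (x * star x) := by
  refine le_antisymm (lay_star_mul_le hD x) ?_
  have h := lay_star_mul_le hD (star x)
  rwa [star_star] at h

end QT
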