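import Mathlib
import Crest.Agent.Lib.QT.Defs
import Crest.Agent.Lib.QT.CommAdd
import Crest.Agent.Lib.QT.TraceProp
set_option autoImplicit false
set_option linter.all false
/-! Row 137, chunk I3c: `tau D` is a 1-quasitrace. -/
open MeasureTheory
namespace QT
universe u
variable {T : Type u} [CStarAlgebra T] [PartialOrder T] [StarOrderedRing T]

/-- inclusion of real functions in complex ones -/
noncomputable def cι {Y : Type*} [TopologicalSpace Y] (f : C(Y, ℝ)) : C(Y, ℂ) :=
  ⟨fun y => (f y : ℂ), by fun_prop⟩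

section
variable {Y : Type*} [TopologicalSpace Y]

lemma cι_apply (f : C(Y, ℝ)) (y : Y) : cι f y = (f y : ℂ) := rfl
lemma cι_add (f g : C(Y, ℝ)) : cι (f + g) = cι f + cι g := by ext y; simp [cι_apply]
lemma cι_sub (f g : C(Y, ℝ)) : cι (f - g) = cι f - cι g := by ext y; simp [cι_apply]
lemma cι_mul (f g : C(Y, ℝ)) : cι (f * g) = cι f * cι g := by ext y; simp [cι_apply]
lemma cι_one : cι (1 : C(Y, ℝ)) = 1 := by ext y; simp [cι_apply]
lemma cι_zero : cι (0 : C(Y, ℝ)) = 0 := by ext y; simp [cι_apply]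
lemma cι_star (f : C(Y, ℝ)) : star (cι f) = cι f := by ext y; simp [cι_apply]
lemma cι_const (t : ℝ) : cι (ContinuousMap.const Y t) = algebraMap ℂ C(Y, ℂ) (t : ℂ) := by
  ext y; simp [cι_apply]

end

lemma qt_exists_model (S : StarSubalgebra ℂ T) (hS : ∀ x ∈ S, ∀ y ∈ S, x * y = y * x) :
    ∃ (Y : Type u) (_ : TopologicalSpace Y) (_ : CompactSpace Y) (_ : T2Space Y)
      (φ : C(Y, ℂ) →⋆ₐ[ℂ] T), ∀ x ∈ S, ∃ F, φ F = x := by
  let C := S.topologicalClosure
  have hcl : IsClosed (C : Set T) := S.isClosed_topologicalClosure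
  have hcomm : ∀ x y : C, x * y = y * x :=
    (StarSubalgebra.commRingTopologicalClosure S (fun x y => Subtype.ext (hS x x.2 y y.2))).mul_comm
  let i1 : CStarAlgebra C := StarSubalgebra.cstarAlgebra C (h_closed := hcl)
  let i2 : CommCStarAlgebra C := { i1 with mul_comm := hcomm }
  refine ⟨WeakDual.characterSpace ℂ C, inferInstance, inferInstance, inferInstance,
    C.subtype.comp ((gelfandStarTransform C).symm : _ →⋆ₐ[ℂ] C), ?_⟩
  intro x hx
  refine ⟨gelfandStarTransform C ⟨x, S.le_topologicalClosure hx⟩, ?_⟩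
  have h1 := (gelfandStarTransform C).symm_apply_apply ⟨x, S.le_topologicalClosure hx⟩
  exact congrArg Subtype.val h1

lemma qt_cut_eq_posPart (t : ℝ) (a : T) (ha : IsSelfAdjoint a) :
    cut t a = (a - algebraMap ℝ T t)⁺ := by
  have h1 : cfc (fun x : ℝ => x - t) a = a - algebraMap ℝ T t := by
    rw [cfc_sub (fun x : ℝ => x) (fun _ => t) a, cfc_id' ℝ a, cfc_const t a]
  have h2 := cfc_comp (fun x : ℝ => x⁺) (fun x : ℝ => x - t) a ha
    (by fun_prop) (by fun_prop)
  rw [h1] at h2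
  rw [CFC.posPart_def, cfcₙ_eq_cfc, ← h2]
  rfl

lemma qt_pos_eq_posPart (a : T) : cfc (fun x : ℝ => max x 0) a = a⁺ := by
  rw [CFC.posPart_def, cfcₙ_eq_cfc]
  rfl

lemma qt_neg_eq_negPart (a : T) : cfc (fun x : ℝ => max (-x) 0) a = a⁻ := by
  rw [CFC.negPart_def, cfcₙ_eq_cfc]
  rfl

section model
variable {Y : Type u} [TopologicalSpace Y] [CompactSpace Y] [T2Space Y] (φ : C(Y, ℂ) →⋆ₐ[ℂ] T)

/-- the real part of the model -/
noncomputable def mψ (f : C(Y, ℝ)) : T := φ (cι f)

lemma mψ_add (f g : C(Y, ℝ)) : mψ φ (f + g) = mψ φ f + mψ φ g := by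
  simp [mψ, cι_add]
lemma mψ_sub (f g : C(Y, ℝ)) : mψ φ (f - g) = mψ φ f - mψ φ g := by
  simp [mψ, cι_sub]
lemma mψ_mul (f g : C(Y, ℝ)) : mψ φ (f * g) = mψ φ f * mψ φ g := by
  simp [mψ, cι_mul]
lemma mψ_one : mψ φ (1 : C(Y, ℝ)) = 1 := by simp [mψ, cι_one]
lemma mψ_zero : mψ φ (0 : C(Y, ℝ)) = 0 := by simp [mψ, cι_zero]
lemma mψ_star (f : C(Y, ℝ)) : star (mψ φ f) = mψ φ f := by
  rw [mψ, ← map_star, cι_star]
lemma mψ_const (t : ℝ) : mψ φ (ContinuousMap.const Y t) = algebraMap ℝ T t := by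
  rw [mψ, cι_const]
  rw [AlgHomClass.commutes]
  rfl

lemma mψ_nonneg (f : C(Y, ℝ)) (hf : 0 ≤ f) : 0 ≤ mψ φ f := by
  let g : C(Y, ℝ) := ⟨fun y => Real.sqrt (f y), by fun_prop⟩
  have h : f = g * g := by
    ext y
    exact (Real.mul_self_sqrt (hf y)).symm
  rw [h, mψ_mul]
  nth_rewrite 1 [← mψ_star φ g]
  exact star_mul_self_nonneg _

lemma mψ_posNeg (f b c : C(Y, ℝ)) (h : f = b - c) (hbc : b * c = 0) (hb : 0 ≤ b) (hc : 0 ≤ c) :
    (mψ φ f)⁺ = mψ φ b ∧ (mψ φ f)⁻ = mψ φ c := by
  apply CFC.posPart_negPart_unique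
  · rw [h, mψ_sub]
  · rw [← mψ_mul, hbc, mψ_zero]
  · exact mψ_nonneg φ b hb
  · exact mψ_nonneg φ c hc

lemma cut_mψ (t : ℝ) (f : C(Y, ℝ)) : cut t (mψ φ f) = mψ φ (ccut t f) := by
  rw [qt_cut_eq_posPart t _ (mψ_star φ f), ← mψ_const φ t, ← mψ_sub]
  refine (mψ_posNeg φ _ (ccut t f) ((ContinuousMap.const Y t - f) ⊔ 0) ?_ ?_ ?_ ?_).1
  · ext y
    simp only [ccut, ContinuousMap.sub_apply, ContinuousMap.const_apply, ContinuousMap.sup_apply,
      ContinuousMap.zero_apply]
    rcases le_total (f y) t with h | h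
    · rw [max_eq_right (by linarith), max_eq_left (by linarith)]; ring
    · rw [max_eq_left (by linarith), max_eq_right (by linarith)]; ring
  · ext y
    simp only [ccut, ContinuousMap.mul_apply, ContinuousMap.sub_apply, ContinuousMap.const_apply,
      ContinuousMap.sup_apply, ContinuousMap.zero_apply]
    rcases le_total (f y) t with h | h
    · rw [max_eq_right (by linarith), zero_mul]
    · rw [max_eq_right (a := t - f y) (by linarith), mul_zero]
  · exact le_sup_right
  · exact le_sup_right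

variable {D : T → ℝ}

lemma qt_commDim (hD : DimState D) : CommDim (fun f : C(Y, ℝ) => D (mψ φ f)) where
  nonneg f hf := hD.nonneg _ (mψ_nonneg φ f hf)
  zero := by rw [mψ_zero]; exact hD.zero
  one := by rw [mψ_one]; exact hD.one
  add f g hf hg := by
    rw [mψ_add]; exact hD.add _ _ (mψ_nonneg φ f hf) (mψ_nonneg φ g hg)
  orth h r s hh hz := by
    have h1 := hD.orth (mψ φ h) (mψ φ r) (mψ φ s) (mψ_nonneg φ h hh) (by
      rw [mψ_star, ← mψ_mul, ← mψ_mul, hz, mψ_zero])
    rw [mψ_star, mψ_star, ← mψ_mul, ← mψ_mul, ← mψ_mul, ← mψ_mul] at h1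
    exact h1

lemma lay_mψ (f : C(Y, ℝ)) :
    lay D (mψ φ f) = clay (fun f : C(Y, ℝ) => D (mψ φ f)) f := by
  unfold lay clay
  simp only [cut_mψ]

end model

section comm
variable {Y : Type*} [TopologicalSpace Y] [CompactSpace Y] {d : C(Y, ℝ) → ℝ}

lemma CommDim.qt_conj_le (hd : CommDim d) (h r : C(Y, ℝ)) (hh : 0 ≤ h) : d (r * h * r) ≤ d h := by
  have h1 := hd.orth h r 0 hh (by simp)
  simpa [hd.zero] using h1

lemma CommDim.qt_smul_le (hd : CommDim d) {c : ℝ} (hc : 0 ≤ c) (h : C(Y, ℝ)) (hh : 0 ≤ h) :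
    d (c • h) ≤ d h := by
  have h1 := hd.qt_conj_le h (ContinuousMap.const Y (Real.sqrt c)) hh
  have h2 : ContinuousMap.const Y (Real.sqrt c) * h * ContinuousMap.const Y (Real.sqrt c) =
      c • h := by
    ext y
    simp only [ContinuousMap.mul_apply, ContinuousMap.const_apply, ContinuousMap.smul_apply,
      smul_eq_mul]
    nth_rewrite 3 [← Real.mul_self_sqrt hc]
    ring
  rwa [h2] at h1

lemma CommDim.qt_smul_eq (hd : CommDim d) {c : ℝ} (hc : 0 < c) (h : C(Y, ℝ)) (hh : 0 ≤ h) :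
    d (c • h) = d h := by
  apply le_antisymm (hd.qt_smul_le hc.le h hh)
  have h1 := hd.qt_smul_le (inv_pos.2 hc).le (c • h) (smul_nonneg hc.le hh)
  rwa [smul_smul, inv_mul_cancel₀ hc.ne', one_smul] at h1

lemma qt_clay_zero (hd : CommDim d) : clay d 0 = 0 := by
  unfold clay
  rw [setIntegral_congr_fun (g := fun _ => 0) measurableSet_Ioi]
  · simp
  · intro t ht
    have h1 : ccut t (0 : C(Y, ℝ)) = 0 := by
      ext y
      simp only [ccut, ContinuousMap.sub_apply, ContinuousMap.const_apply,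
        ContinuousMap.sup_apply, ContinuousMap.zero_apply]
      exact max_eq_right (by have := Set.mem_Ioi.1 ht; linarith)
    show d (ccut t 0) = 0
    rw [h1, hd.zero]

lemma qt_clay_smul (hd : CommDim d) {c : ℝ} (hc : 0 ≤ c) (f : C(Y, ℝ)) :
    clay d (c • f) = c * clay d f := by
  rcases hc.eq_or_lt with rfl | hc
  · rw [zero_smul, qt_clay_zero hd, zero_mul]
  · have h1 := MeasureTheory.integral_comp_mul_left_Ioi (fun t => d (ccut t (c • f))) 0 hc
    rw [mul_zero] at h1
    have h2 : ∀ t : ℝ, d (ccut (c * t) (c • f)) = d (ccut t f) := by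
      intro t
      have h3 : ccut (c * t) (c • f) = c • ccut t f := by
        ext y
        simp only [ccut, ContinuousMap.sub_apply, ContinuousMap.const_apply,
          ContinuousMap.sup_apply, ContinuousMap.zero_apply, ContinuousMap.smul_apply, smul_eq_mul]
        rw [mul_max_of_nonneg _ _ hc.le]
        ring_nf
      rw [h3]
      exact hd.qt_smul_eq hc (ccut t f) le_sup_right
    simp only [h2] at h1
    unfold clay
    rw [h1, smul_eq_mul, ← mul_assoc, mul_inv_cancel₀ hc.ne', one_mul]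

/-- the linear functional -/
noncomputable def cΛ (d : C(Y, ℝ) → ℝ) (f : C(Y, ℝ)) : ℝ := clay d (f ⊔ 0) - clay d ((-f) ⊔ 0)

lemma cΛ_sub [T2Space Y] (hd : CommDim d) (f b c : C(Y, ℝ)) (hb : 0 ≤ b) (hc : 0 ≤ c)
    (h : f = b - c) : cΛ d f = clay d b - clay d c := by
  have h1 : (f ⊔ 0) + c = (-f) ⊔ 0 + b := by
    rw [h]
    ext y
    simp only [ContinuousMap.sub_apply, ContinuousMap.neg_apply, ContinuousMap.add_apply,
      ContinuousMap.sup_apply, ContinuousMap.zero_apply]
    rcases le_total (b y) (c y) with h | h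
    · rw [max_eq_right (by linarith), max_eq_left (by linarith)]; ring
    · rw [max_eq_left (by linarith), max_eq_right (by linarith)]; ring
  have h2 := congrArg (clay d) h1
  rw [clay_add d hd _ _ le_sup_right hc, clay_add d hd _ _ le_sup_right hb] at h2
  unfold cΛ
  linarith

lemma cΛ_add [T2Space Y] (hd : CommDim d) (f g : C(Y, ℝ)) :
    cΛ d (f + g) = cΛ d f + cΛ d g := by
  rw [cΛ_sub hd (f + g) ((f ⊔ 0) + (g ⊔ 0)) (((-f) ⊔ 0) + ((-g) ⊔ 0))
    (add_nonneg le_sup_right le_sup_right) (add_nonneg le_sup_right le_sup_right),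
    clay_add d hd _ _ le_sup_right le_sup_right, clay_add d hd _ _ le_sup_right le_sup_right]
  · unfold cΛ; ring
  · ext y
    simp only [ContinuousMap.sub_apply, ContinuousMap.neg_apply, ContinuousMap.add_apply,
      ContinuousMap.sup_apply, ContinuousMap.zero_apply]
    have h1 : ∀ x : ℝ, max x 0 - max (-x) 0 = x := by
      intro x
      rcases le_total x 0 with h | h
      · rw [max_eq_right h, max_eq_left (by linarith)]; ring
      · rw [max_eq_left h, max_eq_right (by linarith)]; ring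
    have h2 := h1 (f y)
    have h3 := h1 (g y)
    linarith

lemma cΛ_neg (f : C(Y, ℝ)) : cΛ d (-f) = - cΛ d f := by
  unfold cΛ
  rw [neg_neg]; ring

lemma cΛ_smul (hd : CommDim d) (c : ℝ) (f : C(Y, ℝ)) : cΛ d (c • f) = c * cΛ d f := by
  have key : ∀ (c : ℝ) (f : C(Y, ℝ)), 0 ≤ c → cΛ d (c • f) = c * cΛ d f := by
    intro c f hc
    have h1 : ∀ f : C(Y, ℝ), (c • f) ⊔ 0 = c • (f ⊔ 0) := by
      intro f
      ext y
      simp only [ContinuousMap.sup_apply, ContinuousMap.zero_apply, ContinuousMap.smul_apply,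
        smul_eq_mul]
      rw [mul_max_of_nonneg _ _ hc, mul_zero]
    unfold cΛ
    rw [← smul_neg, h1, h1, qt_clay_smul hd hc, qt_clay_smul hd hc]
    ring
  rcases le_total 0 c with hc | hc
  · exact key c f hc
  · have h1 := key (-c) f (by linarith)
    rw [neg_smul, cΛ_neg] at h1
    linarith

end comm

section main
variable {D : T → ℝ}

lemma tauSA_mψ {Y : Type u} [TopologicalSpace Y] [CompactSpace Y] [T2Space Y]
    (φ : C(Y, ℂ) →⋆ₐ[ℂ] T) (f : C(Y, ℝ)) :
    tauSA D (mψ φ f) = cΛ (fun f : C(Y, ℝ) => D (mψ φ f)) f := by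
  obtain ⟨h1, h2⟩ := mψ_posNeg φ f (f ⊔ 0) ((-f) ⊔ 0) (by
      ext y
      simp only [ContinuousMap.sub_apply, ContinuousMap.neg_apply,
        ContinuousMap.sup_apply, ContinuousMap.zero_apply]
      rcases le_total (f y) 0 with h | h
      · rw [max_eq_right h, max_eq_left (by linarith)]; ring
      · rw [max_eq_left h, max_eq_right (by linarith)]; ring) (by
      ext y
      simp only [ContinuousMap.mul_apply, ContinuousMap.neg_apply,
        ContinuousMap.sup_apply, ContinuousMap.zero_apply]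
      rcases le_total (f y) 0 with h | h
      · rw [max_eq_right h, zero_mul]
      · rw [max_eq_right (a := - f y) (by linarith), mul_zero]) le_sup_right le_sup_right
  unfold tauSA cΛ
  rw [qt_pos_eq_posPart, qt_neg_eq_negPart, h1, h2, lay_mψ, lay_mψ]

lemma qt_tau_decomp (h k : T) (hh : IsSelfAdjoint h) (hk : IsSelfAdjoint k) :
    tau D (h + Complex.I • k) = (tauSA D h : ℂ) + Complex.I * (tauSA D k : ℂ) := by
  have h1 : (realPart (h + Complex.I • k) : T) = h := by
    rw [map_add, realPart_I_smul, hk.imaginaryPart, neg_zero, add_zero, hh.coe_realPart]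
  have h2 : (imaginaryPart (h + Complex.I • k) : T) = k := by
    rw [map_add, imaginaryPart_I_smul, hh.imaginaryPart, zero_add, hk.coe_realPart]
  unfold tau
  rw [h1, h2]

lemma qt_lay_zero (hD : DimState D) : lay D 0 = 0 := by
  unfold lay
  rw [setIntegral_congr_fun (g := fun _ => 0) measurableSet_Ioi]
  · simp
  · intro t ht
    show D (cut t 0) = 0
    have h1 : max (0 - t) 0 = 0 := max_eq_right (by have := Set.mem_Ioi.1 ht; linarith)
    rw [cut, cfc_apply_zero, h1, map_zero, hD.zero]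

lemma qt_tauSA_zero (hD : DimState D) : tauSA D 0 = 0 := by
  unfold tauSA
  rw [cfc_apply_zero, cfc_apply_zero]
  simp

lemma qt_tau_sa (hD : DimState D) (h : T) (hh : IsSelfAdjoint h) : tau D h = (tauSA D h : ℂ) := by
  have h1 := qt_tau_decomp (D := D) h 0 hh (IsSelfAdjoint.zero T)
  rw [smul_zero, add_zero, qt_tauSA_zero hD] at h1
  rw [h1]; simp

lemma qt_tauSA_nonneg (hD : DimState D) (a : T) (ha : 0 ≤ a) : tauSA D a = lay D a := by
  unfold tauSA
  have h2 : a⁻ = 0 := (CFC.negPart_eq_zero_iff a (IsSelfAdjoint.of_nonneg ha)).2 ha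
  rw [qt_pos_eq_posPart, qt_neg_eq_negPart, (CFC.posPart_eq_self a).2 ha, h2, qt_lay_zero hD, sub_zero]

lemma qt_lay_nonneg (hD : DimState D) (a : T) (ha : IsSelfAdjoint a) : 0 ≤ lay D a := by
  apply setIntegral_nonneg measurableSet_Ioi
  intro t _
  apply hD.nonneg
  apply cfc_nonneg
  intro x _
  exact le_max_right _ _

lemma qt_tauSA_one (hD : DimState D) : tauSA D (1 : T) = 1 := by
  rw [qt_tauSA_nonneg hD 1 zero_le_one]
  have hsc : ∀ c : ℝ, 0 ≤ c → ∀ a : T, 0 ≤ a → D (c • a) ≤ D a := by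
    intro c hc a ha
    have h1 := hD.orth a (algebraMap ℝ T (Real.sqrt c)) 0 ha (by simp)
    have h2 : algebraMap ℝ T (Real.sqrt c) * a * star (algebraMap ℝ T (Real.sqrt c)) = c • a := by
      rw [← algebraMap_star_comm, star_trivial, ← Algebra.commutes, ← mul_assoc, ← map_mul,
        Real.mul_self_sqrt hc, Algebra.smul_def]
    rw [h2] at h1
    simpa [hD.zero] using h1
  unfold lay
  have h1 : ∀ t ∈ Set.Ioi (0 : ℝ), D (cut t (1 : T)) = (Set.Ioo (0 : ℝ) 1).indicator (fun _ => 1) t := by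
    intro t ht
    have ht' := Set.mem_Ioi.1 ht
    have h2 : cut t (1 : T) = (max (1 - t) 0) • (1 : T) := by
      rw [cut, cfc_apply_one, Algebra.algebraMap_eq_smul_one]
    by_cases h3 : t < 1
    · rw [Set.indicator_of_mem (Set.mem_Ioo.2 ⟨ht', h3⟩), h2, max_eq_left (by linarith)]
      apply le_antisymm
      · have h4 := hsc (1 - t) (by linarith) 1 zero_le_one
        rw [hD.one] at h4
        exact h4
      · have h4 := hsc (1 - t)⁻¹ (inv_nonneg.2 (by linarith)) ((1 - t) • (1 : T))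
          (smul_nonneg (by linarith) zero_le_one)
        rw [smul_smul, inv_mul_cancel₀ (by linarith), one_smul, hD.one] at h4
        exact h4
    · rw [Set.indicator_of_notMem (fun h => h3 (Set.mem_Ioo.1 h).2), h2,
        max_eq_right (by linarith), zero_smul, hD.zero]
  rw [setIntegral_congr_fun measurableSet_Ioi h1, integral_indicator measurableSet_Ioo,
    Measure.restrict_restrict measurableSet_Ioo,
    Set.inter_eq_left.2 (fun x hx => Set.mem_Ioi.2 (Set.mem_Ioo.1 hx).1)]
  simp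

/-- Chunk I3c. -/
theorem tau_isOneQuasitrace (hD : DimState D) :
    Crest.OpAlg.IsOneQuasitrace (tau D) ∧ tau D 1 = 1 := by
  refine ⟨⟨?_, ?_, ?_⟩, ?_⟩
  · intro x
    have h1 : tau D (star x * x) = (lay D (star x * x) : ℂ) := by
      rw [qt_tau_sa hD _ (IsSelfAdjoint.star_mul_self x), qt_tauSA_nonneg hD _ (star_mul_self_nonneg x)]
    have h2 : tau D (x * star x) = (lay D (x * star x) : ℂ) := by
      rw [qt_tau_sa hD _ (IsSelfAdjoint.mul_star_self x), qt_tauSA_nonneg hD _ (mul_star_self_nonneg x)]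
    refine ⟨?_, ?_, ?_⟩
    · rw [h1, h2, lay_star_mul hD]
    · rw [h1]; exact Complex.ofReal_im _
    · rw [h1, Complex.ofReal_re]
      exact qt_lay_nonneg hD _ (IsSelfAdjoint.star_mul_self x)
  · intro h k hh hk
    rw [qt_tau_decomp h k hh hk, qt_tau_sa hD h hh, qt_tau_sa hD k hk]
  · intro S hS
    obtain ⟨Y, i1, i2, i3, φ, hφ⟩ := qt_exists_model S hS
    have hd := qt_commDim φ hD
    set d : C(Y, ℝ) → ℝ := fun f => D (mψ φ f) with hdd
    have key : ∀ F : C(Y, ℂ), ∃ f g : C(Y, ℝ), F = cι f + Complex.I • cι g := by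
      intro F
      refine ⟨⟨fun y => (F y).re, by fun_prop⟩, ⟨fun y => (F y).im, by fun_prop⟩, ?_⟩
      ext y
      simp only [ContinuousMap.add_apply, ContinuousMap.smul_apply, cι_apply, smul_eq_mul,
        ContinuousMap.coe_mk]
      rw [mul_comm, Complex.re_add_im]
    have hval : ∀ f g : C(Y, ℝ), tau D (φ (cι f + Complex.I • cι g)) =
        (cΛ d f : ℂ) + Complex.I * (cΛ d g : ℂ) := by
      intro f g
      rw [map_add, map_smul]
      rw [qt_tau_decomp (φ (cι f)) (φ (cι g)) (mψ_star φ f) (mψ_star φ g)]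
      rw [← tauSA_mψ, ← tauSA_mψ]
      rfl
    refine ⟨?_, ?_⟩
    · intro x hx y hy
      obtain ⟨F, rfl⟩ := hφ x hx
      obtain ⟨G, rfl⟩ := hφ y hy
      obtain ⟨f, g, rfl⟩ := key F
      obtain ⟨f', g', rfl⟩ := key G
      have h1 : (cι f + Complex.I • cι g) + (cι f' + Complex.I • cι g') =
          cι (f + f') + Complex.I • cι (g + g') := by
        rw [cι_add, cι_add, smul_add]; abel
      rw [← map_add, h1, hval, hval, hval, cΛ_add hd, cΛ_add hd]
      push_cast
      ring
    · intro c x hx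
      obtain ⟨F, rfl⟩ := hφ x hx
      obtain ⟨f, g, rfl⟩ := key F
      have h1 : c • (cι f + Complex.I • cι g) =
          cι (c.re • f + (-c.im) • g) + Complex.I • cι (c.im • f + c.re • g) := by
        ext y
        simp only [ContinuousMap.add_apply, ContinuousMap.smul_apply, cι_apply, smul_eq_mul]
        push_cast
        apply Complex.ext
        · simp
          ring
        · simp
          ring
      rw [← map_smul, h1, hval, hval, cΛ_add hd, cΛ_add hd, cΛ_smul hd, cΛ_smul hd, cΛ_smul hd,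
        cΛ_smul hd]
      apply Complex.ext
      · simp
        ring
      · simp
        ring
  · rw [qt_tau_sa hD 1 (IsSelfAdjoint.one T), qt_tauSA_one hD, Complex.ofReal_one]

end main

end QT
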