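import Mathlib
import Crest.Agent.Lib.QT.Defs
import Crest.Agent.Lib.QT.CuntzState
import Crest.Agent.Lib.QT.QTrace

/-! Row 137, chunk I4: normalized 2-quasitrace on `B` from a dimension state on `M_2(B)`. -/

set_option autoImplicit false
set_option linter.unusedSimpArgs false
set_option linter.unnecessarySimpa false

open scoped Matrix

namespace QT

open Crest.OpAlg

/-! ### operations on 1-quasitraces -/

section
variable {C C' : Type*} [Ring C] [StarRing C] [Algebra ℂ C] [StarModule ℂ C]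
  [Ring C'] [StarRing C'] [Algebra ℂ C'] [StarModule ℂ C']

/-- pull back along a unital star homomorphism -/
theorem isOneQuasitrace_comp (φ : C →⋆ₐ[ℂ] C') {τ : C' → ℂ} (h : IsOneQuasitrace τ) :
    IsOneQuasitrace (fun x => τ (φ x)) := by
  obtain ⟨h1, h2, h3⟩ := h
  refine ⟨fun x => ?_, fun a b ha hb => ?_, fun S hS => ?_⟩
  · have := h1 (φ x)
    simpa only [map_mul, map_star] using this
  · have := h2 (φ a) (φ b) (ha.map φ) (hb.map φ)
    simpa only [map_add, map_smul] using this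
  · have hc : ∀ x ∈ S.map φ, ∀ y ∈ S.map φ, x * y = y * x := by
      intro x hx y hy
      obtain ⟨x', hx', rfl⟩ := StarSubalgebra.mem_map.1 hx
      obtain ⟨y', hy', rfl⟩ := StarSubalgebra.mem_map.1 hy
      rw [← map_mul, ← map_mul, hS x' hx' y' hy']
    obtain ⟨h4, h5⟩ := h3 (S.map φ) hc
    refine ⟨fun x hx y hy => ?_, fun c x hx => ?_⟩
    · show τ (φ (x + y)) = _
      rw [map_add]
      exact h4 _ (StarSubalgebra.mem_map.2 ⟨x, hx, rfl⟩) _ (StarSubalgebra.mem_map.2 ⟨y, hy, rfl⟩)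
    · show τ (φ (c • x)) = _
      rw [map_smul]
      exact h5 _ _ (StarSubalgebra.mem_map.2 ⟨x, hx, rfl⟩)

/-- nonnegative real multiples -/
theorem isOneQuasitrace_smul {r : ℝ} (hr : 0 ≤ r) {τ : C → ℂ} (h : IsOneQuasitrace τ) :
    IsOneQuasitrace (fun x => (r : ℂ) * τ x) := by
  obtain ⟨h1, h2, h3⟩ := h
  refine ⟨fun x => ?_, fun a b ha hb => ?_, fun S hS => ?_⟩
  · obtain ⟨h4, h5, h6⟩ := h1 x
    refine ⟨by simp only [h4], ?_, ?_⟩
    · simp [Complex.mul_im, h5]
    · simp only [Complex.mul_re, Complex.ofReal_re, Complex.ofReal_im, h5]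
      simpa using mul_nonneg hr h6
  · simp only [h2 a b ha hb]
    ring
  · obtain ⟨h4, h5⟩ := h3 S hS
    refine ⟨fun x hx y hy => ?_, fun c x hx => ?_⟩
    · simp only [h4 x hx y hy]; ring
    · simp only [h5 c x hx]; ring

end

/-! ### the corner -/

section
variable {B : Type*} [Ring B] [StarRing B] [Algebra ℂ B] [StarModule ℂ B]

/-- diagonal `2 × 2` matrices with entries in `S` -/
def diagSub (S : StarSubalgebra ℂ B) : StarSubalgebra ℂ (Matrix (Fin 2) (Fin 2) B) where
  carrier := {M | M 0 0 ∈ S ∧ M 1 1 ∈ S ∧ M 0 1 = 0 ∧ M 1 0 = 0}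
  mul_mem' := by
    rintro M N ⟨h1, h2, h3, h4⟩ ⟨h5, h6, h7, h8⟩
    refine ⟨?_, ?_, ?_, ?_⟩
    · simpa [Matrix.mul_apply, Fin.sum_univ_two, h3, h4, h7, h8] using mul_mem h1 h5
    · simpa [Matrix.mul_apply, Fin.sum_univ_two, h3, h4, h7, h8] using mul_mem h2 h6
    · simp [Matrix.mul_apply, Fin.sum_univ_two, h3, h4, h7, h8]
    · simp [Matrix.mul_apply, Fin.sum_univ_two, h3, h4, h7, h8]
  add_mem' := by
    rintro M N ⟨h1, h2, h3, h4⟩ ⟨h5, h6, h7, h8⟩
    refine ⟨add_mem h1 h5, add_mem h2 h6, ?_, ?_⟩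
    · simp [h3, h7]
    · simp [h4, h8]
  algebraMap_mem' := by
    intro c
    refine ⟨?_, ?_, ?_, ?_⟩
    · simpa [Matrix.algebraMap_matrix_apply] using algebraMap_mem S c
    · simpa [Matrix.algebraMap_matrix_apply] using algebraMap_mem S c
    · simp [Matrix.algebraMap_matrix_apply]
    · simp [Matrix.algebraMap_matrix_apply]
  star_mem' := by
    rintro M ⟨h1, h2, h3, h4⟩
    refine ⟨?_, ?_, ?_, ?_⟩
    · simpa [Matrix.star_apply] using star_mem h1
    · simpa [Matrix.star_apply] using star_mem h2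
    · simp [Matrix.star_apply, h4]
    · simp [Matrix.star_apply, h3]

theorem diagSub_comm {S : StarSubalgebra ℂ B} (hS : ∀ x ∈ S, ∀ y ∈ S, x * y = y * x) :
    ∀ x ∈ diagSub S, ∀ y ∈ diagSub S, x * y = y * x := by
  rintro M ⟨h1, h2, h3, h4⟩ N ⟨h5, h6, h7, h8⟩
  ext i j
  fin_cases i <;> fin_cases j <;>
    simp [Matrix.mul_apply, Fin.sum_univ_two, h3, h4, h7, h8, hS _ h1 _ h5, hS _ h2 _ h6]

theorem single_mem_diagSub {S : StarSubalgebra ℂ B} {x : B} (hx : x ∈ S) (i : Fin 2) :
    Matrix.single i i x ∈ diagSub S := by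
  refine ⟨?_, ?_, ?_, ?_⟩ <;> fin_cases i <;> simp [Matrix.single_apply, hx, zero_mem S]

theorem isOneQuasitrace_corner {τ : Matrix (Fin 2) (Fin 2) B → ℂ} (h : IsOneQuasitrace τ) :
    IsOneQuasitrace (fun x : B => τ (Matrix.single 0 0 x)) := by
  obtain ⟨h1, h2, h3⟩ := h
  refine ⟨fun x => ?_, fun a b ha hb => ?_, fun S hS => ?_⟩
  · have := h1 (Matrix.single 0 0 x)
    have e1 : star (Matrix.single (0 : Fin 2) (0 : Fin 2) x) * Matrix.single 0 0 x =
        Matrix.single 0 0 (star x * x) := by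
      rw [Matrix.star_eq_conjTranspose, Matrix.conjTranspose_single, Matrix.single_mul_single_same]
    have e2 : Matrix.single (0 : Fin 2) (0 : Fin 2) x * star (Matrix.single 0 0 x) =
        Matrix.single 0 0 (x * star x) := by
      rw [Matrix.star_eq_conjTranspose, Matrix.conjTranspose_single, Matrix.single_mul_single_same]
    rw [e1, e2] at this
    exact this
  · have hsa : ∀ z : B, IsSelfAdjoint z →
        IsSelfAdjoint (Matrix.single (0 : Fin 2) (0 : Fin 2) z) := by
      intro z hz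
      show star _ = _
      rw [Matrix.star_eq_conjTranspose, Matrix.conjTranspose_single, hz.star_eq]
    have := h2 _ _ (hsa a ha) (hsa b hb)
    rw [Matrix.smul_single, ← Matrix.single_add] at this
    exact this
  · obtain ⟨h4, h5⟩ := h3 (diagSub S) (diagSub_comm hS)
    refine ⟨fun x hx y hy => ?_, fun c x hx => ?_⟩
    · show τ (Matrix.single 0 0 (x + y)) = _
      rw [Matrix.single_add]
      exact h4 _ (single_mem_diagSub hx 0) _ (single_mem_diagSub hy 0)
    · show τ (Matrix.single 0 0 (c • x)) = _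
      rw [← Matrix.smul_single]
      exact h5 c _ (single_mem_diagSub hx 0)

theorem corner_one {τ : Matrix (Fin 2) (Fin 2) B → ℂ} (h : IsOneQuasitrace τ) :
    2 * τ (Matrix.single 0 0 1) = τ 1 := by
  obtain ⟨h1, -, h3⟩ := h
  have hS : ∀ x ∈ (⊥ : StarSubalgebra ℂ B), ∀ y ∈ (⊥ : StarSubalgebra ℂ B), x * y = y * x := by
    intro x hx y hy
    obtain ⟨c, rfl⟩ := StarSubalgebra.mem_bot.1 hx
    exact Algebra.commutes c y
  obtain ⟨h4, -⟩ := h3 (diagSub ⊥) (diagSub_comm hS)
  have e0 : (1 : Matrix (Fin 2) (Fin 2) B) = Matrix.single 0 0 1 + Matrix.single 1 1 1 := by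
    ext i j
    fin_cases i <;> fin_cases j <;> simp [Matrix.single_apply]
  have e1 : τ (Matrix.single 1 1 1) = τ (Matrix.single 0 0 1) := by
    have := (h1 (Matrix.single 0 1 1)).1
    rw [Matrix.star_eq_conjTranspose, Matrix.conjTranspose_single,
      Matrix.single_mul_single_same, Matrix.single_mul_single_same] at this
    simpa using this
  rw [e0, h4 _ (single_mem_diagSub (one_mem _) 0) _ (single_mem_diagSub (one_mem _) 1), e1]
  ring

end

/-- Chunk I4a. -/
theorem noCoisometry_cstarMatrix (B : Type*) [CStarAlgebra B] [PartialOrder B] [StarOrderedRing B]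
    (n : ℕ) (hn : 0 < n) (H : NoCoisometry B) : NoCoisometry (CStarMatrix (Fin n) (Fin n) B) := by
  intro p q hpq r hr
  let R : Matrix (Fin q × Fin n) (Fin p × Fin n) B := fun x y => r x.1 y.1 x.2 y.2
  have hR : R * Rᴴ = 1 := by
    ext ⟨i, a⟩ ⟨i', a'⟩
    rw [Matrix.mul_apply, Fintype.sum_prod_type]
    have h1 : (r * rᴴ) i i' a a' = ∑ j, ∑ b, r i j a b * star (r i' j a' b) := by
      rw [Matrix.mul_apply]
      have h2 : ∀ (s : Finset (Fin p)) (f : Fin p → CStarMatrix (Fin n) (Fin n) B),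
          (∑ j ∈ s, f j) a a' = ∑ j ∈ s, f j a a' := by
        intro s f
        exact Matrix.sum_apply a a' s f
      rw [h2]
      rfl
    have h3 : (r * rᴴ) i i' a a' = (1 : Matrix (Fin q × Fin n) (Fin q × Fin n) B) (i, a) (i', a') := by
      rw [hr, Matrix.one_apply, Matrix.one_apply]
      by_cases hi : i = i'
      · subst hi
        by_cases ha : a = a'
        · subst ha; simp
        · simp [ha]
      · simp [hi]
    rw [← h3, h1]
    rfl
  let e1 : Fin q × Fin n ≃ Fin (q * n) := finProdFinEquiv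
  let e2 : Fin p × Fin n ≃ Fin (p * n) := finProdFinEquiv
  refine H (p * n) (q * n) (Nat.mul_lt_mul_of_pos_right hpq hn) (Matrix.reindex e1 e2 R) ?_
  rw [Matrix.conjTranspose_reindex, Matrix.reindex_apply, Matrix.reindex_apply,
    Matrix.submatrix_mul_equiv, hR, Matrix.submatrix_one_equiv]

/-- Chunk I4b. -/
theorem exists_normalized_twoQuasitrace (B : Type*) [CStarAlgebra B] (H : NoCoisometry B) :
    ∃ τ : B → ℂ, Crest.OpAlg.IsNormalizedTwoQuasitrace τ := by
  let _ : PartialOrder B := CStarAlgebra.spectralOrder B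
  let _ : StarOrderedRing B := CStarAlgebra.spectralOrderedRing B
  obtain ⟨D, hD⟩ := exists_dimState (CStarMatrix (Fin 2) (Fin 2) B)
    (noCoisometry_cstarMatrix B 2 (by norm_num) H)
  obtain ⟨h1, h2⟩ := tau_isOneQuasitrace hD
  have h3 : IsOneQuasitrace (fun x : Matrix (Fin 2) (Fin 2) B =>
      tau D (CStarMatrix.ofMatrixStarAlgEquiv x)) :=
    isOneQuasitrace_comp
      (CStarMatrix.ofMatrixStarAlgEquiv (n := Fin 2) (A := B)).toStarAlgHom h1
  have h4 := isOneQuasitrace_smul (r := 2) (by norm_num) h3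
  refine ⟨_, isOneQuasitrace_corner h4, ?_, _, h4, fun x => rfl⟩
  show ((2 : ℝ) : ℂ) * tau D (CStarMatrix.ofMatrixStarAlgEquiv (Matrix.single 0 0 1)) = 1
  have h5 := corner_one h3
  have h6 : tau D (CStarMatrix.ofMatrixStarAlgEquiv (1 : Matrix (Fin 2) (Fin 2) B)) = 1 := by
    rw [map_one]; exact h2
  rw [h6] at h5
  push_cast
  exact h5

end QT
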