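import Mathlib
import Crest.Agent.Lib.QT.Defs

/-! Row 137, chunk J: the gap on block-diagonal elements of `M_12(B)`. -/

set_option autoImplicit false

open scoped Matrix

namespace QT

section GapAux

variable {C : Type*} [Ring C] [StarRing C] [Algebra ℂ C] [StarModule ℂ C]

theorem gap_tau_comm {τ : C → ℂ} (hτ : Crest.OpAlg.IsOneQuasitrace τ) {a b : C}
    (ha : IsSelfAdjoint a) (hb : IsSelfAdjoint b) (hab : a * b = b * a) :
    τ (a + b) = τ a + τ b ∧ ∀ c : ℂ, τ (c • a) = c * τ a := by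
  have hc : IsMulCommutative (StarAlgebra.adjoin ℂ ({a, b} : Set C)) := by
    apply StarAlgebra.isMulCommutative_adjoin
    · rintro x (rfl | rfl) y (rfl | rfl) <;> simp [hab]
    · rintro x (rfl | rfl) y (rfl | rfl) <;> simp [hab, ha.star_eq, hb.star_eq]
  have h3 := hτ.2.2 (StarAlgebra.adjoin ℂ ({a, b} : Set C)) (by
    intro x hx y hy
    exact setLike_mul_comm hx hy)
  have ham : a ∈ StarAlgebra.adjoin ℂ ({a, b} : Set C) :=
    StarAlgebra.subset_adjoin ℂ _ (by simp)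
  have hbm : b ∈ StarAlgebra.adjoin ℂ ({a, b} : Set C) :=
    StarAlgebra.subset_adjoin ℂ _ (by simp)
  exact ⟨h3.1 a ham b hbm, fun c => h3.2 c a ham⟩

theorem gap_tau_add {τ : C → ℂ} (hτ : Crest.OpAlg.IsOneQuasitrace τ) {a b : C}
    (ha : IsSelfAdjoint a) (hb : IsSelfAdjoint b) (hab : a * b = b * a) :
    τ (a + b) = τ a + τ b := (gap_tau_comm hτ ha hb hab).1

theorem gap_tau_smul {τ : C → ℂ} (hτ : Crest.OpAlg.IsOneQuasitrace τ) {a : C}
    (ha : IsSelfAdjoint a) (c : ℂ) : τ (c • a) = c * τ a :=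
  (gap_tau_comm hτ ha ha rfl).2 c

theorem gap_tau_zero {τ : C → ℂ} (hτ : Crest.OpAlg.IsOneQuasitrace τ) : τ 0 = 0 := by
  have := gap_tau_smul hτ (IsSelfAdjoint.zero C) 0
  simpa using this

theorem gap_tau_sum {ι : Type*} {τ : C → ℂ} (hτ : Crest.OpAlg.IsOneQuasitrace τ)
    (f : ι → C) (hf : ∀ i, IsSelfAdjoint (f i)) (hff : ∀ i j, f i * f j = f j * f i)
    (s : Finset ι) : τ (∑ i ∈ s, f i) = ∑ i ∈ s, τ (f i) := by
  classical
  induction s using Finset.induction_on with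
  | empty => simp [gap_tau_zero hτ]
  | insert a s ha ih =>
    rw [Finset.sum_insert ha, Finset.sum_insert ha, gap_tau_add hτ (hf a), ih]
    · exact isSelfAdjoint_sum s (fun i _ => hf i)
    · rw [Finset.mul_sum, Finset.sum_mul]
      exact Finset.sum_congr rfl fun i _ => hff a i

end GapAux

section GapMat

variable {B : Type*} [Ring B] [StarRing B] [Algebra ℂ B] [StarModule ℂ B]

omit [Algebra ℂ B] [StarModule ℂ B] in
theorem gap_single_star (i j : Fin 12) (w : B) :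
    star (Matrix.single i j w : Matrix (Fin 12) (Fin 12) B) = Matrix.single j i (star w) := by
  rw [Matrix.star_eq_conjTranspose, Matrix.conjTranspose, Matrix.transpose_single]
  exact Matrix.map_single j i w (starAddEquiv : B ≃+ B)

omit [Algebra ℂ B] [StarModule ℂ B] in
theorem gap_isSelfAdjoint_of_sq {u : B} (hu : ∃ x, u = star x * x) : IsSelfAdjoint u := by
  obtain ⟨x, rfl⟩ := hu
  exact IsSelfAdjoint.star_mul_self x

omit [Algebra ℂ B] [StarModule ℂ B] in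
theorem gap_single_sa (i : Fin 12) {u : B} (hu : IsSelfAdjoint u) :
    IsSelfAdjoint (Matrix.single i i u : Matrix (Fin 12) (Fin 12) B) := by
  rw [IsSelfAdjoint, gap_single_star, hu.star_eq]

/-- `T z = τ (single 0 0 z)`. -/
theorem gap_T_same {τ : Matrix (Fin 12) (Fin 12) B → ℂ} (hτ : Crest.OpAlg.IsOneQuasitrace τ)
    (i : Fin 12) (w : B) :
    τ (Matrix.single i i (star w * w)) = τ (Matrix.single 0 0 (w * star w)) := by
  have := (hτ.1 (Matrix.single 0 i w)).1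
  rw [gap_single_star, Matrix.single_mul_single_same, Matrix.single_mul_single_same] at this
  exact this

theorem gap_T_sq {τ : Matrix (Fin 12) (Fin 12) B → ℂ} (hτ : Crest.OpAlg.IsOneQuasitrace τ)
    (i : Fin 12) {u : B} (hu : ∃ x, u = star x * x) :
    τ (Matrix.single i i u) = τ (Matrix.single 0 0 u) := by
  obtain ⟨x, rfl⟩ := hu
  rw [gap_T_same hτ i, gap_T_same hτ 0]

theorem gap_T_nonneg {τ : Matrix (Fin 12) (Fin 12) B → ℂ} (hτ : Crest.OpAlg.IsOneQuasitrace τ)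
    {u : B} (hu : ∃ x, u = star x * x) : 0 ≤ (τ (Matrix.single 0 0 u)).re := by
  obtain ⟨x, rfl⟩ := hu
  have := (hτ.1 (Matrix.single 0 0 x)).2.2
  rwa [gap_single_star, Matrix.single_mul_single_same] at this

theorem gap_T_add {τ : Matrix (Fin 12) (Fin 12) B → ℂ} (hτ : Crest.OpAlg.IsOneQuasitrace τ)
    {u v : B} (hu : IsSelfAdjoint u) (hv : IsSelfAdjoint v) (huv : u * v = v * u) :
    τ (Matrix.single 0 0 (u + v)) = τ (Matrix.single 0 0 u) + τ (Matrix.single 0 0 v) := by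
  rw [Matrix.single_add, gap_tau_add hτ (gap_single_sa 0 hu) (gap_single_sa 0 hv)]
  rw [Matrix.single_mul_single_same, Matrix.single_mul_single_same, huv]

theorem gap_T_smul {τ : Matrix (Fin 12) (Fin 12) B → ℂ} (hτ : Crest.OpAlg.IsOneQuasitrace τ)
    {u : B} (hu : IsSelfAdjoint u) (c : ℂ) :
    τ (Matrix.single 0 0 (c • u)) = c * τ (Matrix.single 0 0 u) := by
  rw [← Matrix.smul_single, gap_tau_smul hτ (gap_single_sa 0 hu)]

theorem gap_diag_sum {τ : Matrix (Fin 12) (Fin 12) B → ℂ} (hτ : Crest.OpAlg.IsOneQuasitrace τ)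
    (z : Fin 12 → B) (hz : ∀ i, ∃ x, z i = star x * x) :
    τ (Matrix.diagonal z) = ∑ i, τ (Matrix.single 0 0 (z i)) := by
  have h1 : Matrix.diagonal z = ∑ i, (Matrix.single i i (z i) : Matrix (Fin 12) (Fin 12) B) := by
    ext a b
    rw [Matrix.sum_apply, Matrix.diagonal_apply]
    simp only [Matrix.single_apply]
    by_cases hab : a = b
    · subst hab
      simp
    · rw [if_neg hab]
      symm
      apply Finset.sum_eq_zero
      intro i _
      rw [if_neg]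
      rintro ⟨rfl, rfl⟩
      exact hab rfl
  rw [h1, gap_tau_sum hτ (fun i => (Matrix.single i i (z i) : Matrix (Fin 12) (Fin 12) B))]
  · exact Finset.sum_congr rfl fun i _ => gap_T_sq hτ i (hz i)
  · intro i
    exact gap_single_sa i (gap_isSelfAdjoint_of_sq (hz i))
  · intro i j
    by_cases hij : i = j
    · subst hij; rfl
    · show Matrix.single i i (z i) * Matrix.single j j (z j)
        = Matrix.single j j (z j) * Matrix.single i i (z i)
      rw [Matrix.single_mul_single_of_ne _ _ _ _ hij,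
        Matrix.single_mul_single_of_ne _ _ _ _ (Ne.symm hij)]

theorem gap_sq_smul {u : B} (hu : ∃ x, u = star x * x) (r : ℝ) (hr : 0 ≤ r) :
    ∃ x, ((r : ℂ) • u) = star x * x := by
  obtain ⟨x, rfl⟩ := hu
  refine ⟨((Real.sqrt r : ℝ) : ℂ) • x, ?_⟩
  rw [star_smul, smul_mul_smul_comm]
  congr 1
  rw [Complex.star_def, Complex.conj_ofReal, ← Complex.ofReal_mul, Real.mul_self_sqrt hr]

omit [Algebra ℂ B] [StarModule ℂ B] in
theorem gap_diag_sq (z : Fin 12 → B) (hz : ∀ i, ∃ x, z i = star x * x) :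
    ∃ x, (Matrix.diagonal z : Matrix (Fin 12) (Fin 12) B) = star x * x := by
  choose w hw using hz
  refine ⟨Matrix.diagonal w, ?_⟩
  rw [Matrix.star_eq_conjTranspose, Matrix.diagonal_conjTranspose, Matrix.diagonal_mul_diagonal]
  congr 1
  ext i
  exact hw i

theorem gap_T_one_sub {τ : Matrix (Fin 12) (Fin 12) B → ℂ}
    (hτ : Crest.OpAlg.IsOneQuasitrace τ) {u : B} (hu : IsSelfAdjoint u) (r : ℂ) (hr : star r = r) :
    τ (Matrix.single 0 0 (r • (1 : B) - u))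
      = r * τ (Matrix.single 0 0 (1 : B)) - τ (Matrix.single 0 0 u) := by
  have h1 : r • (1 : B) - u = r • (1 : B) + (-1 : ℂ) • u := by
    rw [neg_one_smul, sub_eq_add_neg]
  have hs1 : IsSelfAdjoint (r • (1 : B)) := by
    rw [IsSelfAdjoint, star_smul, star_one, hr]
  have hs2 : IsSelfAdjoint ((-1 : ℂ) • u) := by
    rw [IsSelfAdjoint, star_smul, hu.star_eq]; simp
  rw [h1, gap_T_add hτ hs1 hs2 (by simp), gap_T_smul hτ (IsSelfAdjoint.one B),
    gap_T_smul hτ hu]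
  ring

/-- Chunk J. Purely algebraic. -/
theorem exists_gap {B : Type*} [Ring B] [StarRing B] [Algebra ℂ B] [StarModule ℂ B]
    (y c : Fin 4 → B) (h : B) (hy : ∀ k, y k ∈ unitary B)
    (hc : ∀ k, ∃ x, c k = star x * x) (hc1 : ∀ k, ∃ x, 1 - c k = star x * x)
    (hh : ∃ x, h = star x * x)
    (hsq : ∀ u v : B, (∃ x, u = star x * x) → (∃ x, v = star x * x) → ∃ x, u + v = star x * x)
    (hrel : (1 / 4 : ℂ) • ∑ k, star (y k) * c k * y k
          = (1 / 4 : ℂ) • ∑ k, c k + (1 / 48 : ℂ) • (1 : B) + h) :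
    ∃ a b : Matrix (Fin 12) (Fin 12) B,
      (∃ x, a = star x * x) ∧ (∃ x, 1 - a = star x * x) ∧
      (∃ x, b = star x * x) ∧ (∃ x, 1 - b = star x * x) ∧
      ∀ τ : Matrix (Fin 12) (Fin 12) B → ℂ, Crest.OpAlg.IsOneQuasitrace τ → τ 1 = 1 →
        (1 : ℝ) / 144 ≤ (τ (a + b) - τ a - τ b).re := by
  have hone : ∃ x : B, 1 = star x * x := ⟨1, by simp⟩
  have hhalf : ∀ u v : B, (∃ x, u = star x * x) → (∃ x, v = star x * x) →
      ∃ x, (1 / 2 : ℂ) • (u + v) = star x * x := by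
    intro u v hu hv
    have := gap_sq_smul (hsq u v hu hv) (1 / 2) (by norm_num)
    simpa using this
  obtain ⟨D, hDdef⟩ : ∃ D : Fin 4 → B, D = fun k => star (y k) * c k * y k := ⟨_, rfl⟩
  have hD : ∀ k, ∃ x, D k = star x * x := by
    intro k
    obtain ⟨x, hx⟩ := hc k
    refine ⟨x * y k, ?_⟩
    rw [hDdef]
    simp only [hx, star_mul, mul_assoc]
  have hD1 : ∀ k, ∃ x, 1 - D k = star x * x := by
    intro k
    obtain ⟨x, hx⟩ := hc1 k
    refine ⟨x * y k, ?_⟩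
    have h2 : star (x * y k) * (x * y k) = star (y k) * (star x * x) * y k := by
      simp only [star_mul, mul_assoc]
    rw [h2, ← hx, hDdef, mul_sub, sub_mul, mul_one, (Unitary.mem_iff.1 (hy k)).1]
  -- the elements
  have he01 := hhalf _ _ (hD 0) (hD 1)
  have he23 := hhalf _ _ (hD 2) (hD 3)
  have hf01 := hhalf _ _ (hc 0) (hc 1)
  have hf23 := hhalf _ _ (hc 2) (hc 3)
  have hsub : ∀ u v : B, (1 : B) - (1 / 2 : ℂ) • (u + v) = (1 / 2 : ℂ) • ((1 - u) + (1 - v)) := by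
    intro u v
    have : (1 : B) = (1 / 2 : ℂ) • ((1 : B) + 1) := by
      rw [smul_add, ← add_smul]; norm_num
    conv_lhs => rw [this]
    rw [← smul_sub]; congr 1; abel
  have he01' : ∃ x, (1 : B) - (1 / 2 : ℂ) • (D 0 + D 1) = star x * x := by
    rw [hsub]; exact hhalf _ _ (hD1 0) (hD1 1)
  have he23' : ∃ x, (1 : B) - (1 / 2 : ℂ) • (D 2 + D 3) = star x * x := by
    rw [hsub]; exact hhalf _ _ (hD1 2) (hD1 3)
  have hf01' : ∃ x, (1 : B) - (1 / 2 : ℂ) • (c 0 + c 1) = star x * x := by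
    rw [hsub]; exact hhalf _ _ (hc1 0) (hc1 1)
  have hf23' : ∃ x, (1 : B) - (1 / 2 : ℂ) • (c 2 + c 3) = star x * x := by
    rw [hsub]; exact hhalf _ _ (hc1 2) (hc1 3)
  obtain ⟨K, hK⟩ : ∃ K : B, K = (1 / 2 : ℂ) • ((1 / 2 : ℂ) • (c 0 + c 1)
      + (1 / 2 : ℂ) • (c 2 + c 3)) := ⟨_, rfl⟩
  have hKs : ∃ x, K = star x * x := by rw [hK]; exact hhalf _ _ hf01 hf23
  have hKs' : ∃ x, 1 - K = star x * x := by
    rw [hK, hsub]; exact hhalf _ _ hf01' hf23'
  -- the relation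
  have hrel' : (1 / 2 : ℂ) • ((1 / 2 : ℂ) • (D 0 + D 1) + (1 / 2 : ℂ) • (D 2 + D 3))
      = K + (1 / 48 : ℂ) • (1 : B) + h := by
    rw [hK]
    have e1 : ∀ a b c d : B, (1 / 2 : ℂ) • ((1 / 2 : ℂ) • (a + b) + (1 / 2 : ℂ) • (c + d))
        = (1 / 4 : ℂ) • (a + b + c + d) := by
      intro a b c d
      rw [← smul_add, smul_smul]
      norm_num [add_assoc]
    rw [e1, e1]
    rw [Fin.sum_univ_four, Fin.sum_univ_four] at hrel
    rw [hDdef]
    exact hrel
  have hh' : ∃ x, 1 - h = star x * x := by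
    have e : 1 - h = (1 - (1 / 2 : ℂ) • ((1 / 2 : ℂ) • (D 0 + D 1) + (1 / 2 : ℂ) • (D 2 + D 3)))
        + (K + (1 / 48 : ℂ) • (1 : B)) := by
      rw [hrel']; abel
    rw [e]
    apply hsq
    · rw [hsub]; exact hhalf _ _ he01' he23'
    · apply hsq _ _ hKs
      have := gap_sq_smul hone (1 / 48) (by norm_num)
      simpa using this
  obtain ⟨X, hX⟩ : ∃ X : Fin 12 → B, X = ![D 0, D 2, (1 / 2 : ℂ) • (D 0 + D 1),
      (1 / 2 : ℂ) • (D 0 + D 1), 1 - c 0, 1 - c 2, 1 - (1 / 2 : ℂ) • (c 0 + c 1),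
      1 - (1 / 2 : ℂ) • (c 0 + c 1), 1 - K, 1 - K, 1 - K, 1 - K] := ⟨_, rfl⟩
  obtain ⟨Y, hY⟩ : ∃ Y : Fin 12 → B, Y = ![D 1, D 3, (1 / 2 : ℂ) • (D 2 + D 3),
      (1 / 2 : ℂ) • (D 2 + D 3), 1 - c 1, 1 - c 3, 1 - (1 / 2 : ℂ) • (c 2 + c 3),
      1 - (1 / 2 : ℂ) • (c 2 + c 3), 1 - h, 1 - h, 1 - h, 1 - h] := ⟨_, rfl⟩
  have hcc : ∀ k, ∃ x, 1 - (1 - c k) = star x * x := by
    intro k; rw [sub_sub_cancel]; exact hc k
  have hXs : ∀ i, ∃ x, X i = star x * x := by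
    rw [hX]
    intro i
    fin_cases i
    exacts [hD 0, hD 2, he01, he01, hc1 0, hc1 2, hf01', hf01', hKs', hKs', hKs', hKs']
  have hYs : ∀ i, ∃ x, Y i = star x * x := by
    rw [hY]
    intro i
    fin_cases i
    exacts [hD 1, hD 3, he23, he23, hc1 1, hc1 3, hf23', hf23', hh', hh', hh', hh']
  have hXs1 : ∀ i, ∃ x, 1 - X i = star x * x := by
    have hKK : ∃ x, 1 - (1 - K) = star x * x := by rw [sub_sub_cancel]; exact hKs
    have hff : ∃ x, 1 - ((1 : B) - (1 / 2 : ℂ) • (c 0 + c 1)) = star x * x := by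
      rw [sub_sub_cancel]; exact hf01
    rw [hX]
    intro i
    fin_cases i
    exacts [hD1 0, hD1 2, he01', he01', hcc 0, hcc 2, hff, hff, hKK, hKK, hKK, hKK]
  have hYs1 : ∀ i, ∃ x, 1 - Y i = star x * x := by
    have hKK : ∃ x, 1 - (1 - h) = star x * x := by rw [sub_sub_cancel]; exact hh
    have hff : ∃ x, 1 - ((1 : B) - (1 / 2 : ℂ) • (c 2 + c 3)) = star x * x := by
      rw [sub_sub_cancel]; exact hf23
    rw [hY]
    intro i
    fin_cases i
    exacts [hD1 1, hD1 3, he23', he23', hcc 1, hcc 3, hff, hff, hKK, hKK, hKK, hKK]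
  have hdiag1 : ∀ z : Fin 12 → B, (1 : Matrix (Fin 12) (Fin 12) B) - Matrix.diagonal z
      = Matrix.diagonal (fun i => 1 - z i) := by
    intro z
    rw [← Matrix.diagonal_one, Matrix.diagonal_sub]
  refine ⟨Matrix.diagonal X, Matrix.diagonal Y, gap_diag_sq X hXs, ?_, gap_diag_sq Y hYs, ?_, ?_⟩
  · rw [hdiag1]; exact gap_diag_sq _ hXs1
  · rw [hdiag1]; exact gap_diag_sq _ hYs1
  intro τ hτ hτ1
  rw [Matrix.diagonal_add, gap_diag_sum hτ X hXs, gap_diag_sum hτ Y hYs,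
    gap_diag_sum hτ _ (fun i => hsq _ _ (hXs i) (hYs i))]
  obtain ⟨t, ht⟩ : ∃ t : B → ℂ, t = fun u => τ (Matrix.single 0 0 u) := ⟨_, rfl⟩
  have ht' : ∀ u, τ (Matrix.single 0 0 u) = t u := by intro u; rw [ht]
  have t1 : 12 * t 1 = 1 := by
    have := gap_diag_sum hτ (fun _ => (1 : B)) (fun _ => hone)
    rw [Matrix.diagonal_one, hτ1] at this
    rw [this]
    simp [ht']
  have tadd : ∀ u v : B, IsSelfAdjoint u → IsSelfAdjoint v → u * v = v * u →
      t (u + v) = t u + t v := by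
    intro u v hu hv huv
    rw [ht]; exact gap_T_add hτ hu hv huv
  have tsmul : ∀ (r : ℂ) (u : B), IsSelfAdjoint u → t (r • u) = r * t u := by
    intro r u hu
    rw [ht]; exact gap_T_smul hτ hu r
  have tsub : ∀ u : B, IsSelfAdjoint u → t (1 - u) = t 1 - t u := by
    intro u hu
    have := gap_T_one_sub hτ hu 1 (by simp)
    rw [ht]
    simpa using this
  have tsub2 : ∀ u v : B, IsSelfAdjoint u → IsSelfAdjoint v →
      t ((1 - u) + (1 - v)) = 2 * t 1 - t (u + v) := by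
    intro u v hu hv
    have := gap_T_one_sub hτ (hu.add hv) 2 (by simp)
    rw [ht]
    have e : (1 - u) + (1 - v) = (2 : ℂ) • (1 : B) - (u + v) := by
      rw [two_smul]; abel
    rw [e]
    exact this
  have tD : ∀ k, t (D k) = t (c k) := by
    intro k
    obtain ⟨x, hx⟩ := hc k
    have e1 : D k = star (x * y k) * (x * y k) := by
      rw [hDdef]
      simp only [hx, star_mul, mul_assoc]
    rw [e1, hx, ht]
    show τ (Matrix.single 0 0 (star (x * y k) * (x * y k))) = τ (Matrix.single 0 0 (star x * x))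
    rw [gap_T_same hτ 0, gap_T_same hτ 0, star_mul]
    congr 2
    rw [mul_assoc, ← mul_assoc (y k), (Unitary.mem_iff.1 (hy k)).2, one_mul]
  have sc : ∀ k, IsSelfAdjoint (c k) := fun k => gap_isSelfAdjoint_of_sq (hc k)
  have sD : ∀ k, IsSelfAdjoint (D k) := fun k => gap_isSelfAdjoint_of_sq (hD k)
  have sh : IsSelfAdjoint h := gap_isSelfAdjoint_of_sq hh
  have sK : IsSelfAdjoint K := gap_isSelfAdjoint_of_sq hKs
  have sf01 : IsSelfAdjoint ((1 / 2 : ℂ) • (c 0 + c 1)) := gap_isSelfAdjoint_of_sq hf01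
  have sf23 : IsSelfAdjoint ((1 / 2 : ℂ) • (c 2 + c 3)) := gap_isSelfAdjoint_of_sq hf23
  have se01 : IsSelfAdjoint ((1 / 2 : ℂ) • (D 0 + D 1)) := gap_isSelfAdjoint_of_sq he01
  have se23 : IsSelfAdjoint ((1 / 2 : ℂ) • (D 2 + D 3)) := gap_isSelfAdjoint_of_sq he23
  -- t-values
  have v1 : t ((1 / 2 : ℂ) • (D 0 + D 1)) = 1 / 2 * t (D 0 + D 1) :=
    tsmul _ _ ((sD 0).add (sD 1))
  have v2 : t ((1 / 2 : ℂ) • (D 2 + D 3)) = 1 / 2 * t (D 2 + D 3) :=
    tsmul _ _ ((sD 2).add (sD 3))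
  have v3 : t ((1 / 2 : ℂ) • (c 0 + c 1)) = 1 / 2 * t (c 0 + c 1) :=
    tsmul _ _ ((sc 0).add (sc 1))
  have v4 : t ((1 / 2 : ℂ) • (c 2 + c 3)) = 1 / 2 * t (c 2 + c 3) :=
    tsmul _ _ ((sc 2).add (sc 3))
  have v5 : t K = 1 / 2 * t ((1 / 2 : ℂ) • (c 0 + c 1) + (1 / 2 : ℂ) • (c 2 + c 3)) := by
    rw [hK]; exact tsmul _ _ (sf01.add sf23)
  have v6 : 1 / 2 * t ((1 / 2 : ℂ) • (D 0 + D 1) + (1 / 2 : ℂ) • (D 2 + D 3))
      = t (K + h) + 1 / 48 * t 1 := by
    rw [← tsmul _ _ (se01.add se23), hrel', ← tsmul _ _ (IsSelfAdjoint.one B), ← tadd]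
    · congr 1; abel
    · exact sK.add sh
    · rw [IsSelfAdjoint, star_smul, star_one]; simp
    · simp
  have hfin : ∑ i, t (X i + Y i) - ∑ i, t (X i) - ∑ i, t (Y i) = 4 * t h + 1 / 144 := by
    rw [hX, hY]
    simp only [Fin.sum_univ_succ, Fin.sum_univ_zero, Matrix.cons_val_zero, Matrix.cons_val_succ]
    rw [tsub2 _ _ (sc 0) (sc 1), tsub2 _ _ (sc 2) (sc 3), tsub2 _ _ sf01 sf23,
      tsub2 _ _ sK sh, tsub _ (sc 0), tsub _ (sc 1), tsub _ (sc 2), tsub _ (sc 3), tsub _ sf01,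
      tsub _ sf23, tsub _ sK, tsub _ sh, v1, v2, v3, v4, tD 0, tD 1, tD 2, tD 3]
    linear_combination 4 * v6 + 4 * v5 + (1 / 144 : ℂ) * t1
  simp only [ht']
  rw [hfin]
  have hpos := gap_T_nonneg hτ hh
  rw [ht'] at hpos
  have : (4 * t h + 1 / 144 : ℂ).re = 4 * (t h).re + 1 / 144 := by
    simp [Complex.add_re, Complex.mul_re]
  rw [this]
  linarith

end GapMat

end QT
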