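import Mathlib
import Crest.Agent.Lib.QT.Defs
import Crest.Agent.Lib.QT.Algebra
import Crest.Agent.Lib.QT.Corner
import Crest.Agent.Lib.QT.Gap

/-! Row 137, chunk K: final assembly. -/

set_option autoImplicit false

open scoped Matrix

namespace QT

/-- sums of squares are squares in a C*-algebra -/
theorem exists_star_mul_self_add {B : Type*} [CStarAlgebra B] (u v : B)
    (hu : ∃ x, u = star x * x) (hv : ∃ x, v = star x * x) : ∃ x, u + v = star x * x := by
  let _ : PartialOrder B := CStarAlgebra.spectralOrder B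
  let _ : StarOrderedRing B := CStarAlgebra.spectralOrderedRing B
  have h1 : 0 ≤ u := CStarAlgebra.nonneg_iff_eq_star_mul_self.2 hu
  have h2 : 0 ≤ v := CStarAlgebra.nonneg_iff_eq_star_mul_self.2 hv
  exact CStarAlgebra.nonneg_iff_eq_star_mul_self.1 (add_nonneg h1 h2)

/-- a positive element below `1` has norm at most `1` -/
theorem norm_le_one_of_squares {A : Type*} [CStarAlgebra A] (a : A)
    (ha : ∃ x, a = star x * x) (ha' : ∃ x, 1 - a = star x * x) : ‖a‖ ≤ 1 := by
  let _ : PartialOrder A := CStarAlgebra.spectralOrder A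
  let _ : StarOrderedRing A := CStarAlgebra.spectralOrderedRing A
  have h1 : 0 ≤ a := CStarAlgebra.nonneg_iff_eq_star_mul_self.2 ha
  have h2 : 0 ≤ 1 - a := CStarAlgebra.nonneg_iff_eq_star_mul_self.2 ha'
  exact (CStarAlgebra.norm_le_one_iff_of_nonneg a h1).2 (sub_nonneg.1 h2)

/-- Chunk K. -/
theorem final :
    ∃ (A : Type) (_ : CStarAlgebra A), TopologicalSpace.SeparableSpace A ∧
      (∃ τ : A → ℂ, Crest.OpAlg.IsNormalizedTwoQuasitrace τ) ∧
      ∃ a b : A, (∃ x : A, a = star x * x) ∧ ‖a‖ ≤ 1 ∧ (∃ y : A, b = star y * y) ∧ ‖b‖ ≤ 1 ∧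
        ∀ τ : A → ℂ, Crest.OpAlg.IsNormalizedTwoQuasitrace τ →
          (1 : ℝ) / 144 ≤ (τ (a + b) - τ a - τ b).re := by
  obtain ⟨B, instB, hsep, hno, y, c, h, hy, hc, hc1, hh, hrel⟩ := exists_algebra
  let _ : PartialOrder B := CStarAlgebra.spectralOrder B
  let _ : StarOrderedRing B := CStarAlgebra.spectralOrderedRing B
  obtain ⟨a, b, ha, ha1, hb, hb1, hgap⟩ :=
    exists_gap y c h hy hc hc1 hh exists_star_mul_self_add hrel
  have hno' : NoCoisometry (CStarMatrix (Fin 12) (Fin 12) B) :=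
    noCoisometry_cstarMatrix B 12 (by norm_num) hno
  have hsep' : TopologicalSpace.SeparableSpace (CStarMatrix (Fin 12) (Fin 12) B) := by
    have : TopologicalSpace.SeparableSpace (Fin 12 → Fin 12 → B) := inferInstance
    exact this
  refine ⟨CStarMatrix (Fin 12) (Fin 12) B, inferInstance, hsep',
    exists_normalized_twoQuasitrace _ hno', ?_⟩
  let φ : Matrix (Fin 12) (Fin 12) B ≃⋆ₐ[ℂ] CStarMatrix (Fin 12) (Fin 12) B :=
    CStarMatrix.ofMatrixStarAlgEquiv
  have hsq : ∀ z : Matrix (Fin 12) (Fin 12) B, (∃ x, z = star x * x) →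
      ∃ x, φ z = star x * x := by
    rintro z ⟨x, rfl⟩
    exact ⟨φ x, by rw [map_mul, map_star]⟩
  have hsq1 : ∀ z : Matrix (Fin 12) (Fin 12) B, (∃ x, 1 - z = star x * x) →
      ∃ x, 1 - φ z = star x * x := by
    intro z hz
    have := hsq _ hz
    rwa [map_sub, map_one] at this
  refine ⟨φ a, φ b, hsq a ha, norm_le_one_of_squares _ (hsq a ha) (hsq1 a ha1), hsq b hb,
    norm_le_one_of_squares _ (hsq b hb) (hsq1 b hb1), fun τ hτ => ?_⟩
  have h1 := hgap (fun x => τ (φ x)) (isOneQuasitrace_comp φ.toStarAlgHom hτ.1) (by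
    show τ (φ 1) = 1
    rw [map_one]; exact hτ.2.1)
  simpa only [map_add] using h1

end QT
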